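import Vale.Agent.P137.Bdl.B1

/-!
# P137, centered operator: definitions and interface statements

`Spec*` are propositions; block `X` proves `SpecX`, and the assembly uses them as hypotheses.
-/

open MeasureTheory Set Filter Topology
open scoped ENNReal NNReal

namespace Vale.Agent.P137.U.Cen

open Vale.Agent.P137 Vale.Agent.P137.U

variable {d : ℕ}

/-! ### Weighted error functional (weight `lam` per generation) -/

/-- Error functional of `cube k a` with weight `lam` per generation. -/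
noncomputable def el (lam : ℝ) (v0 : Lat d → E d) (m0 : Lat d → ℝ) : ℕ → Lat d → ℝ
  | 0, a => m0 a
  | k + 1, a => dl v0 k a + lam * ∑ b ∈ offs d, el lam v0 m0 k (a + (2 : ℤ) ^ k • b)

/-- Error functional of the block of the cell `(k, n)`. -/
noncomputable def eJl (lam : ℝ) (v0 : Lat d → E d) (m0 : Lat d → ℝ) (k : ℕ) (n : Lat d) : ℝ :=
  el lam v0 m0 (k + 6) (bc k n)

/-- Truncated centered maximal function. -/
noncomputable def cu (f : E d → ℝ) (D : E d → ℝ) (R : ℝ) (x : E d) : ℝ :=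
  sSup {t | ∃ r, D x ≤ r ∧ r ≤ R ∧ avg f x r = t}

/-- Centered maximal function of the tree. -/
noncomputable def cT (f : E d → ℝ) (W : Finset (ℕ × Lat d)) (kT : ℕ) : E d → ℝ :=
  cu f (DW W kT) (2 * 2 ^ kT)

/-- BLOCK I.1 -/
def SpecForest (d : ℕ) : Prop := ∃ C : ℝ≥0, ∀ (K : ℕ) (v0 : Lat d → E d) (m0 : Lat d → ℝ),
    (∀ a, ‖v0 a‖ ≤ m0 a) →
    ∃ (tops : Set (ℕ × Lat d)) (e : ℕ × Lat d → E d) (W : ℕ × Lat d → Finset (ℕ × Lat d)),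
      (∀ T ∈ tops, T.1 ≤ K ∧ IsTree v0 T.1 T.2 (e T) (W T)) ∧
      (∀ k ≤ K, ∀ n : Lat d, ∃ T ∈ tops, k ≤ T.1 ∧ anc (T.1 - k) n = T.2 ∧
        ∃ n', (k, n') ∈ W T ∧ ∀ i, |n i - n' i| ≤ 100) ∧
      ∑' T : tops, (ENNReal.ofReal ‖vJ v0 T.1.1 T.1.2‖ +
          ∑ Q ∈ W T.1, ENNReal.ofReal (eJl (99 / 100) v0 m0 Q.1 Q.2)) ≤
        C * (∑' a, ENNReal.ofReal (m0 a) +
          ∑ k ∈ Finset.range (K + 1), ∑' n, ENNReal.ofReal (eJl (99 / 100) v0 m0 k n))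

/-- BLOCK I.2 -/
def SpecOrigin (d : ℕ) : Prop := ∃ C : ℝ≥0, ∀ (K : ℕ) (v0 : Lat d → E d) (m0 : Lat d → ℝ),
    (∀ a, ‖v0 a‖ ≤ m0 a) → Summable m0 →
    ∑ ω ∈ Fintype.piFinset (fun _ : Fin d => Finset.Ico (0 : ℤ) (2 ^ K)),
      ∑ k ∈ Finset.range (K + 1), ∑' n : Lat d,
        ENNReal.ofReal (eJl (99 / 100) (fun a => v0 (a + ω)) (fun a => m0 (a + ω)) k n)
      ≤ C * 2 ^ (K * d) * ∑' a, ENNReal.ofReal (m0 a)

/-- BLOCK I.3 -/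
def SpecMono (d : ℕ) : Prop := ∀ (v0 : Lat d → E d) (m0 : Lat d → ℝ), (∀ a, 0 ≤ m0 a) →
  ∀ (k : ℕ) (n : Lat d), eJ v0 m0 k n ≤ eJl (99 / 100) v0 m0 k n

/-! ### Blocks: bands, cells, masses -/

/-- Multi-scale weight: `1` for `i ≥ t`, `2^(-(t-i))` for `i < t`. -/
noncomputable def wt (t i : ℕ) : ℝ := (1 / 2 : ℝ) ^ (t - i)

/-- Weighted multi-scale mass of `cube k a`. -/
noncomputable def mm (ω : ℕ → ℝ) (w : Lat d → E d) (m : Lat d → ℝ) : ℕ → Lat d → ℝ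
  | 0, a => ω 0 * (‖w a‖ + m a)
  | k + 1, a => ω (k + 1) * ‖vv w (k + 1) a‖ + ∑ b ∈ offs d, mm ω w m k (a + (2 : ℤ) ^ k • b)

/-- The field which is constant on the unit cubes. -/
noncomputable def gam (c0 : Lat d → E d) (z : E d) : E d := c0 (fun i => ⌊z i⌋)

/-- Data of a block: parameter `s0`, cell `(j, n)`, field `g`, its cone approximation `c0`. -/
structure Blk (d : ℕ) where
  s0 : ℕ
  j : ℕ
  n : Lat d
  g : E d → E d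
  c0 : Lat d → E d

namespace Blk

variable (B : Blk d)

/-- side of the cell -/
noncomputable def s : ℝ := 2 ^ B.j

/-- band `m` exists -/
def valid (m : ℕ) : Prop := 16 * (B.s0 * 2 ^ m) ≤ B.j

/-- level of the band `m` -/
def lv (m : ℕ) : ℕ := B.j - 16 * (B.s0 * 2 ^ m)

/-- width of the band `m` -/
noncomputable def H (m : ℕ) : ℝ := 2 ^ B.lv m

/-- `ρ_m = ε_m` -/
noncomputable def rho (m : ℕ) : ℝ := (1 / 2) ^ (B.s0 * 2 ^ m)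

/-- mass of the cone valued field -/
noncomputable def mass (A : Set (E d)) : ℝ := ∫ z in A, ‖gam B.c0 z‖

/-- bad part on unit cubes -/
noncomputable def w : Lat d → E d := fun a => v0f B.g a - B.c0 a

/-- bottom mass -/
noncomputable def m2 : Lat d → ℝ := fun a => 2 * m0f B.g a

/-- `M_m(P)` for the cell `P = cube (lv m) (co (lv m) c)` -/
noncomputable def MM (m : ℕ) (c : Lat d) : ℝ :=
  mm (wt (B.lv (m + 1))) B.w B.m2 (B.lv m) (co (B.lv m) c)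

/-- `M_m(J)` of the whole block -/
noncomputable def tot (m : ℕ) : ℝ :=
  mm (wt (B.lv (m + 1))) B.w B.m2 (B.j + 6) (bc B.j B.n)

/-- `E_0` -/
noncomputable def E0 : ℝ := mm (wt B.j) B.w B.m2 (B.j + 6) (bc B.j B.n)

/-- indices of the cells of level `lv m` in the block -/
noncomputable def cells (m : ℕ) : Finset (Lat d) :=
  blkJ (B.j + 6 - B.lv m) (fun i => 2 ^ (B.j - B.lv m) * (B.n i - 32))

/-- corner of a cell -/
noncomputable def pos (m : ℕ) (c : Lat d) : E d := pt (co (B.lv m) c)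

open Classical in
/-- cells near the sphere of centre `x` and radius `r` -/
noncomputable def Sh (m : ℕ) (x : E d) (r : ℝ) : Finset (Lat d) :=
  (B.cells m).filter (fun c => |‖B.pos m c - x‖ - r| ≤ (2 + √d) * B.H m)

/-- `b_m(x, r)` -/
noncomputable def b (m : ℕ) (x : E d) (r : ℝ) : ℝ := ∑ c ∈ B.Sh m x r, B.MM m c

/-- region of centres -/
def near (x : E d) : Prop := ∀ i, |x i - 2 ^ B.j * B.n i| ≤ 2 * 2 ^ B.j

/-- admissible radii -/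
def rad (r : ℝ) : Prop := kap d * B.s / 2 ≤ r ∧ r ≤ 2 * B.s

open Classical in
/-- `B_m` with centre the corner of the cell `c` -/
def condB (m : ℕ) (x : E d) (r : ℝ) (c : Lat d) : Prop :=
  c ∈ B.Sh m x r ∧
    ∑ c' ∈ (B.Sh m x r).filter (fun c' => B.rho m * B.s / 16 < ‖B.pos m c' - B.pos m c‖),
      B.MM m c' ≤ B.rho m * B.b m x r

/-- `A_m` -/
def condA (η : ℝ) (m : ℕ) (x : E d) (r : ℝ) : Prop :=
  η * B.rho m * B.mass (Metric.closedBall x (r - 2 * B.H (m - 1))) ≤ B.b m x r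

/-- `C_m` with centre the corner of the cell `c` -/
def condC (m : ℕ) (x : E d) (r : ℝ) (c : Lat d) : Prop :=
  B.mass {z | |‖z - x‖ - r| ≤ 2 * B.H (m - 1) ∧ B.rho m * B.s / 8 < ‖z - B.pos m c‖} ≤
    B.rho m * B.b m x r

/-- `d_m` -/
def condD (m : ℕ) (D0 R r : ℝ) : Prop := D0 + 2 * B.H (m - 1) ≤ r ∧ r + 2 * B.H (m - 1) ≤ R

/-- The cone approximation is a good one, for the direction `e`. -/
structure OK (e : E d) : Prop where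
  g_int : Integrable B.g
  c_out : ∀ a, a ∉ blkJ (B.j + 6) (bc B.j B.n) → B.c0 a = 0
  c_cone : ∀ a, ∀ e' : E d, ‖e'‖ = 1 → ‖e' - e‖ ≤ 1 / 50 →
    4 / 5 * ‖B.c0 a‖ ≤ inner ℝ e' (B.c0 a)
  c_sum : vv B.c0 (B.j + 6) (bc B.j B.n) = vv (v0f B.g) (B.j + 6) (bc B.j B.n)

/-- `In_i = μ(B(x, r - H_i))`, and the mass of the ball when the band `i` does not exist. -/
noncomputable def In (x : E d) (r : ℝ) (i : ℕ) : ℝ :=
  open Classical in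
  B.mass (Metric.closedBall x (r - if B.valid i then B.H i else 0))

end Blk

/-- BLOCK II (Lemma G and summation of the scales). -/
def SpecII (d : ℕ) : Prop := ∀ s0 : ℕ, 1 ≤ s0 → ∃ C : ℝ, 0 < C ∧
  ∀ (g : E d → E d), Integrable g → ∀ (j : ℕ) (n : Lat d) (e : E d), ‖e‖ = 1 →
    15 / 16 * ‖vJ (v0f g) j n‖ ≤ inner ℝ e (vJ (v0f g) j n) →
    ∃ c0 : Lat d → E d, (Blk.mk s0 j n g c0).OK e ∧
      (Blk.mk s0 j n g c0).E0 ≤ C * eJl (99 / 100) (v0f g) (m0f g) j n ∧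
      ∑ m ∈ (Finset.range (j + 1)).filter (fun m => 16 * (s0 * 2 ^ m) ≤ j),
        (Blk.mk s0 j n g c0).rho m * (Blk.mk s0 j n g c0).tot m ≤
          C * eJl (99 / 100) (v0f g) (m0f g) j n

/-! ### Kernels -/

/-- Radial cutoff: `1` for `ρ ≤ a`, `0` for `ρ ≥ b`. -/
noncomputable def th (d : ℕ) (a b ρ : ℝ) : ℝ :=
  max 0 (((a / max a ρ) ^ d - (a / b) ^ d) / (1 - (a / b) ^ d))

open Classical in
/-- `Θ_m`; for a band that does not exist it is the indicator of the ball. -/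
noncomputable def Th (B : Blk d) (x : E d) (r : ℝ) (m : ℕ) (z : E d) : ℝ :=
  if B.valid m then th d (r - B.H m) r ‖z - x‖ else (if ‖z - x‖ ≤ r then 1 else 0)

/-- The hat function `ξ_m`. -/
noncomputable def xi (B : Blk d) (x : E d) (r : ℝ) (m : ℕ) (z : E d) : ℝ :=
  th d r (r + B.H m) ‖z - x‖ - th d (r - B.H m) r ‖z - x‖

/-- The affine field `e' + τ z + <e',z> N - <N,z> e'`. For a unit vector `N` and `τ = -<e',N>` it
vanishes at `N`. -/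
noncomputable def fld (e' : E d) (τ : ℝ) (N z : E d) : E d :=
  e' + τ • z + ((inner ℝ e' z : ℝ) • N - (inner ℝ N z : ℝ) • e')

/-- BLOCK III.1: integral formulas for radial kernels. -/
structure SpecId (d : ℕ) : Prop where
  /-- dilation identity (I1) -/
  dil : ∀ (f : E d → ℝ), ContDiff ℝ 1 f → HasCompactSupport f → ∀ (x : E d) (a b : ℝ), 0 < a →
    a < b → ∃ c : ℝ, 0 ≤ c ∧
      ∫ z, th d a b ‖z - x‖ * inner ℝ (z - x) (gradient f z) = c * (avg f x b - avg f x a)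
  /-- rotation identity (I2), smooth cutoff -/
  rot : ∀ (f : E d → ℝ), ContDiff ℝ 1 f → HasCompactSupport f → ∀ (x : E d) (a b : ℝ), 0 < a →
    a < b → ∀ u v : E d,
      ∫ z, th d a b ‖z - x‖ * inner ℝ ((inner ℝ u (z - x) : ℝ) • v - (inner ℝ v (z - x) : ℝ) • u)
        (gradient f z) = 0
  /-- rotation identity (I2), sharp cutoff -/
  rot' : ∀ (f : E d → ℝ), ContDiff ℝ 1 f → HasCompactSupport f → ∀ (x : E d) (r : ℝ), 0 < r →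
    ∀ u v : E d,
      ∫ z in Metric.closedBall x r,
        inner ℝ ((inner ℝ u (z - x) : ℝ) • v - (inner ℝ v (z - x) : ℝ) • u) (gradient f z) = 0
  /-- derivative in the centre -/
  dx : ∀ (f : E d → ℝ), ContDiff ℝ 1 f → HasCompactSupport f → ∀ (x : E d) (r : ℝ), 0 < r →
    ∀ v : E d, fderiv ℝ (fun y => avg f y r) x v =
      (volume.real (Metric.closedBall x r))⁻¹ *
        ∫ z in Metric.closedBall x r, inner ℝ v (gradient f z)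
  /-- derivative in the radius -/
  dr : ∀ (f : E d → ℝ), ContDiff ℝ 1 f → HasCompactSupport f → ∀ (x : E d) (r : ℝ), 0 < r →
    HasDerivAt (fun ρ => avg f x ρ) (r⁻¹ * (volume.real (Metric.closedBall x r))⁻¹ *
        ∫ z in Metric.closedBall x r, inner ℝ (z - x) (gradient f z)) r

/-- BLOCK III.2: multi-scale kernel bound. -/
def SpecKer (d : ℕ) : Prop := ∃ C : ℝ, 0 < C ∧ ∀ (g : E d → E d), Integrable g →
  ∀ (c0 : Lat d → E d) (k : ℕ) (a : Lat d) (t : ℕ) (Φ : E d → E d) (A : ℝ), 0 ≤ A → t ≤ k →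
    Measurable Φ → (∀ z ∈ cube k a, ‖Φ z‖ ≤ A) →
    (0 < t → ∀ z ∈ cube k a, ∀ z' ∈ cube k a, ‖Φ z - Φ z'‖ ≤ A * (‖z - z'‖ / 2 ^ t)) →
    |∫ z in cube k a, inner ℝ (Φ z) (g z - gam c0 z)| ≤
      C * A * mm (wt t) (fun a => v0f g a - c0 a) (fun a => 2 * m0f g a) k a

/-- BLOCK III.3: bad part bounds. The first two constants do not depend on `s0`. -/
def SpecBad (d : ℕ) : Prop := ∃ (C : ℝ) (S0 : ℕ), 0 < C ∧ ∀ s0 ≥ S0, ∃ C0 : ℝ, 0 < C0 ∧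
  ∀ (B : Blk d) (e : E d), B.s0 = s0 → B.OK e → B.valid 0 → ∀ (x : E d) (r : ℝ), B.near x →
    B.rad r → ∀ (e' N : E d) (τ : ℝ), ‖e'‖ ≤ 1 → ‖N‖ ≤ 1 → |τ| ≤ 1 →
    (∀ m, B.valid m →
      |∫ z, (Th B x r (m + 1) z - Th B x r m z) *
          inner ℝ (fld e' τ N (r⁻¹ • (z - x))) (B.g z - gam B.c0 z)| ≤
        C * ∑ c ∈ B.Sh m x r,
          (‖fld e' τ N (r⁻¹ • (B.pos m c - x))‖ + B.rho m) * B.MM m c) ∧
    (∀ m, B.valid m →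
      |∫ z, xi B x r m z * inner ℝ (r⁻¹ • (z - x)) (B.g z - gam B.c0 z)| ≤ C * B.b m x r) ∧
    |∫ z, Th B x r 0 z * inner ℝ (fld e' τ N (r⁻¹ • (z - x))) (B.g z - gam B.c0 z)| ≤ C0 * B.E0

/-- The next element of `S` after `k`, with sentinel `M + 2`. -/
noncomputable def nxt (S : Finset ℕ) (M k : ℕ) : ℕ := sInf {i | k < i ∧ (i ∈ S ∨ i = M + 2)}

/-- Hypotheses on the centre and radius: a maximising radius. -/
structure MaxAt (f : E d → ℝ) (x : E d) (D0 R r : ℝ) : Prop where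
  lo : D0 ≤ r
  hi : r ≤ R
  max : ∀ r', D0 ≤ r' → r' ≤ R → avg f x r' ≤ avg f x r

/-- BLOCK IV.1: good part (no `f`, only the cone valued field). -/
def SpecGood (d : ℕ) : Prop := ∃ (C c : ℝ) (S0 : ℕ), 0 < C ∧ 0 < c ∧ ∀ (B : Blk d) (e e' : E d),
  S0 ≤ B.s0 → B.OK e → ‖e'‖ = 1 → ‖e' - e‖ ≤ 1 / 50 → ∀ (M : ℕ), B.valid M → ¬ B.valid (M + 1) →
  ∀ (x : E d) (r : ℝ), B.near x → B.rad r →
  ∀ (S : Finset ℕ), (∀ k ∈ S, 1 ≤ k ∧ k ≤ M) → ∀ (y : ℕ → Lat d),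
    (∀ k ∈ S, B.condB k x r (y k) ∧ B.condC k x r (y k)) →
  ∀ lab : ℕ → E d,
    (∀ k ∈ S, ‖lab k‖ = 1 ∧ ‖(x + r • lab k) - B.pos k (y k)‖ ≤ 3 * (B.rho k * B.s)) →
    (∀ k ∈ S, ∀ k' ∈ S, nxt S M k = k' → lab k = lab k' ∨
      B.rho k * B.s / 2 ≤ ‖B.pos k (y k) - B.pos k' (y k')‖) →
  ∀ τ0 : ℝ, |τ0| ≤ 7 / 10 →
  ∀ (τ : ℕ → ℝ) (N : ℕ → E d),
    (∀ m, m + 1 < nxt S M 0 → τ m = τ0 ∧ N m = 0) →
    (∀ m ≤ M, ∀ k ∈ S, k ≤ m + 1 → m + 1 < nxt S M k → N m = lab k ∧ τ m = - inner ℝ e' (lab k)) →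
    c * B.In x r (nxt S M 0 - 1) - C * (∑ k ∈ S, B.rho k * B.b k x r +
        ∑ k ∈ S, B.rho k * B.In x r (nxt S M k - 1)) ≤
      (∫ z, Th B x r 0 z * inner ℝ (fld e' τ0 0 (r⁻¹ • (z - x))) (gam B.c0 z)) +
      ∑ m ∈ Finset.range (M + 1), (∫ z, (Th B x r (m + 1) z - Th B x r m z) *
        inner ℝ (fld e' (τ m) (N m) (r⁻¹ • (z - x))) (gam B.c0 z))

/-- BLOCK IV.2: pointwise inequality for a given set `S` of good bands. -/
def SpecPW1 (d : ℕ) : Prop := ∃ (C c : ℝ) (S0 : ℕ), 0 < C ∧ 0 < c ∧ ∀ s0 ≥ S0, ∃ C0 : ℝ, 0 < C0 ∧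
  ∀ (f : E d → ℝ), ContDiff ℝ 1 f → HasCompactSupport f →
  ∀ (B : Blk d) (e e' : E d), B.s0 = s0 → B.g = gradient f → B.OK e → ‖e'‖ = 1 →
  ‖e' - e‖ ≤ 1 / 50 → ∀ (M : ℕ), B.valid M → ¬ B.valid (M + 1) →
  ∀ (x : E d) (D0 R r : ℝ), B.near x → B.rad r → MaxAt f x D0 R r → D0 < r → r < R →
  ∀ (S : Finset ℕ), (∀ k ∈ S, 1 ≤ k ∧ k ≤ M) → ∀ (y : ℕ → Lat d),
    (∀ k ∈ S, B.condB k x r (y k) ∧ B.condC k x r (y k) ∧ B.condD k D0 R r) →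
    (∀ k ∈ S, k + 1 ∈ S → ‖B.pos k (y k) - B.pos (k + 1) (y (k + 1))‖ ≤ B.rho k * B.s / 4) →
    c * B.In x r (nxt S M 0 - 1) - C * (∑ k ∈ S, B.rho k * B.b k x r +
        ∑ m ∈ (Finset.range (M + 1)) \ S, B.b m x r +
        ∑ k ∈ S, B.rho k * B.In x r (nxt S M k - 1)) - C0 * B.E0 ≤
      ∫ z in Metric.closedBall x r, inner ℝ e' (B.g z)

/-- BLOCK IV.3: pointwise inequality with explicit reasons for the dropped bands (interior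
radii). -/
def SpecPW2 (d : ℕ) : Prop := ∃ (η : ℝ) (S0 : ℕ), 0 < η ∧ ∀ s0 ≥ S0, ∃ C : ℝ, 0 < C ∧
  ∀ (f : E d → ℝ), ContDiff ℝ 1 f → HasCompactSupport f →
  ∀ (B : Blk d) (e e' : E d), B.s0 = s0 → B.g = gradient f → B.OK e → ‖e'‖ = 1 →
  ‖e' - e‖ ≤ 1 / 50 → ∀ (M : ℕ), B.valid M → ¬ B.valid (M + 1) →
  ∀ (x : E d) (D0 R r : ℝ), B.near x → B.rad r → MaxAt f x D0 R r → D0 < r → r < R →
  ∃ cost : ℕ → ℝ,
    -(∫ z in Metric.closedBall x r, inner ℝ e' (B.g z)) ≤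
      C * (B.E0 + ∑ m ∈ Finset.range (M + 1), B.rho m * B.b m x r +
        ∑ m ∈ Finset.range (M + 1), cost m) ∧
    ∀ m ≤ M, cost m ≤ 0 ∨ (cost m ≤ B.b m x r ∧
      (m = 0 ∨
       (1 ≤ m ∧ ¬ ∃ c, B.condB m x r c) ∨
       (1 ≤ m ∧ ¬ B.condD m D0 R r) ∨
       (1 ≤ m ∧ B.condA η m x r ∧ ∃ c, B.condB m x r c ∧ ¬ B.condC m x r c) ∨
       (∃ m', 1 ≤ m' ∧ m' + 1 ≤ M ∧ cost m ≤ B.b m' x r ∧ cost m ≤ B.b (m' + 1) x r ∧
          (m = m' ∨ m = m' + 1) ∧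
          ∃ c c', B.condB m' x r c ∧ B.condB (m' + 1) x r c' ∧
            B.rho m' * B.s / 4 < ‖B.pos m' c - B.pos (m' + 1) c'‖)))

/-- BLOCK IV.4: boundary radii (no maximality needed). -/
def SpecPWb (d : ℕ) : Prop := ∃ (S0 : ℕ), ∀ s0 ≥ S0, ∃ C : ℝ, 0 < C ∧
  ∀ (B : Blk d) (e e' : E d), B.s0 = s0 → B.OK e → ‖e'‖ = 1 →
  ‖e' - e‖ ≤ 1 / 50 → ∀ (M : ℕ), B.valid M → ¬ B.valid (M + 1) →
  ∀ (x : E d) (r τ : ℝ), B.near x → B.rad r → |τ| ≤ 1 / 2 →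
    -(∫ z in Metric.closedBall x r, inner ℝ (e' + τ • (r⁻¹ • (z - x))) (B.g z)) ≤
      C * (B.E0 + ∑ m ∈ Finset.range (M + 1), B.b m x r)

/-! ### Majorants -/

/-- `v ≤ F x` whenever `P x r v`, for some measurable `F` with integral at most `s^d * bound`. -/
def Blk.Maj (B : Blk d) (bound : ℝ) (P : E d → ℝ → ℝ → Prop) : Prop :=
  ∃ F : E d → ℝ≥0∞, Measurable F ∧ ∫⁻ x, F x ≤ ENNReal.ofReal (B.s ^ d * bound) ∧
    ∀ x r v, B.near x → B.rad r → P x r v → ENNReal.ofReal v ≤ F x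

/-- BLOCK V.1 -/
def SpecMajB (d : ℕ) : Prop := ∃ (S0 : ℕ), ∀ s0 ≥ S0, ∃ C : ℝ, 0 < C ∧
  ∀ (B : Blk d) (e : E d), B.s0 = s0 → B.OK e → ∀ m, 1 ≤ m → B.valid m →
    B.Maj (C * (B.rho m * B.tot m))
      (fun x r v => v ≤ B.b m x r ∧ ¬ ∃ c, B.condB m x r c)

/-- BLOCK V.1' -/
def SpecMajB' (d : ℕ) : Prop := ∃ (S0 : ℕ), ∀ s0 ≥ S0, ∃ C : ℝ, 0 < C ∧
  ∀ (B : Blk d) (e : E d), B.s0 = s0 → B.OK e → ∀ m, 1 ≤ m → B.valid (m + 1) →
    B.Maj (C * (B.rho m * B.tot m + B.rho (m + 1) * B.tot (m + 1)))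
      (fun x r v => v ≤ B.b m x r ∧ v ≤ B.b (m + 1) x r ∧
        ∃ c c', B.condB m x r c ∧ B.condB (m + 1) x r c' ∧
            B.rho m * B.s / 4 < ‖B.pos m c - B.pos (m + 1) c'‖)

/-- BLOCK V.2 -/
def SpecMajD (d : ℕ) : Prop := ∃ (S0 : ℕ), ∀ s0 ≥ S0, ∃ C : ℝ, 0 < C ∧
  ∀ (B : Blk d) (e : E d), B.s0 = s0 → B.OK e → ∀ (D : E d → ℝ) (R : ℝ),
    LipschitzWith (1 / 4) D → ∀ m, 1 ≤ m → B.valid m →
    B.Maj (C * (B.rho m * B.tot m))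
      (fun x r v => v ≤ B.b m x r ∧ D x ≤ r ∧ r ≤ R ∧ ¬ B.condD m (D x) R r)

/-- BLOCK V.3 -/
def SpecMajC (d : ℕ) : Prop := ∃ (S0 : ℕ), ∀ s0 ≥ S0, ∀ η : ℝ, 0 < η → ∃ C : ℝ, 0 < C ∧
  ∀ (B : Blk d) (e : E d), B.s0 = s0 → B.OK e → ∀ m, 1 ≤ m → B.valid m →
    B.Maj (C * (B.rho m * B.tot m))
      (fun x r v => v ≤ B.b m x r ∧ B.condA η m x r ∧
        ∃ c, B.condB m x r c ∧ ¬ B.condC m x r c)

/-- BLOCK VI.1: the cell theorem. -/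
def SpecCell (d : ℕ) : Prop := ∃ C : ℝ, 0 < C ∧ ∀ (f : E d → ℝ), ContDiff ℝ 1 f →
  HasCompactSupport f → ∀ (j : ℕ) (n : Lat d) (e : E d), ‖e‖ = 1 →
  15 / 16 * ‖vJ (v0f (gradient f)) j n‖ ≤ inner ℝ e (vJ (v0f (gradient f)) j n) →
  ∀ (D : E d → ℝ) (R : ℝ), LipschitzWith (1 / 4) D →
  ∃ F : E d → ℝ≥0∞, Measurable F ∧
    ∫⁻ x, F x ≤ ENNReal.ofReal (C * eJl (99 / 100) (v0f (gradient f)) (m0f (gradient f)) j n) ∧
    ∀ (x : E d) (r : ℝ), (∀ i, |x i - 2 ^ j * n i| ≤ 2 * 2 ^ j) →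
      kap d * 2 ^ j / 2 ≤ r → r ≤ 2 * 2 ^ j → MaxAt f x (D x) R r →
      ∀ e' : E d, ‖e'‖ = 1 → ‖e' - e‖ ≤ 1 / 50 →
        ((D x < r ∧ r < R) →
          ENNReal.ofReal (-(fderiv ℝ (fun y => avg f y r) x e')) ≤ F x) ∧
        ((r = D x ∨ r = R) → ∀ τ : ℝ, |τ| ≤ 1 / 2 →
          ENNReal.ofReal (-(fderiv ℝ (fun y => avg f y r) x e' +
            τ * deriv (fun ρ => avg f x ρ) r)) ≤ F x)

/-- BLOCK VI.2: per tree estimate. -/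
def SpecPerTree (d : ℕ) : Prop := ∃ C : ℝ≥0, ∀ (f : E d → ℝ),
    ContDiff ℝ 1 f → HasCompactSupport f → ∀ (kT : ℕ) (nT : Lat d) (e : E d)
    (W : Finset (ℕ × Lat d)), IsTree (v0f (gradient f)) kT nT e W →
    ∫⁻ x in cube kT (co kT nT), ‖fderiv ℝ (cT f W kT) x‖ₑ ≤
      C * (ENNReal.ofReal ‖vJ (v0f (gradient f)) kT nT‖ +
        ∑ Q ∈ W, ENNReal.ofReal (eJl (99 / 100) (v0f (gradient f)) (m0f (gradient f)) Q.1 Q.2))

end Vale.Agent.P137.U.Cen
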