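import Mathlib.MeasureTheory.Function.Floor
import Vale.Agent.P137.C.Spec

/-!
# P137, centered operator: basic facts on bands and masses
-/

open MeasureTheory Set Filter Topology
open scoped ENNReal NNReal

namespace Vale.Agent.P137.U.Cen

open Vale.Agent.P137 Vale.Agent.P137.U

variable {d : ℕ}

theorem wt_nonneg (t i : ℕ) : 0 ≤ wt t i := by unfold wt; positivity

theorem wt_pos (t i : ℕ) : 0 < wt t i := by unfold wt; positivity

theorem wt_le_one (t i : ℕ) : wt t i ≤ 1 := by
  unfold wt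
  exact pow_le_one₀ (by norm_num) (by norm_num)

theorem mm_nonneg {ω : ℕ → ℝ} (hω : ∀ i, 0 ≤ ω i) {w : Lat d → E d} {m : Lat d → ℝ}
    (hm : ∀ a, 0 ≤ m a) (k : ℕ) (a : Lat d) : 0 ≤ mm ω w m k a := by
  induction k generalizing a with
  | zero => exact mul_nonneg (hω 0) (add_nonneg (norm_nonneg _) (hm a))
  | succ k ih =>
    exact add_nonneg (mul_nonneg (hω _) (norm_nonneg _)) (Finset.sum_nonneg fun b _ => ih _)

/-- the mass of a cube dominates the masses of its sub-cubes -/
theorem sum_mm_le {ω : ℕ → ℝ} (hω : ∀ i, 0 ≤ ω i) {w : Lat d → E d} {m : Lat d → ℝ}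
    (hm : ∀ a, 0 ≤ m a) (k j : ℕ) (n : Lat d) :
    ∑ c ∈ blkJ j n, mm ω w m k (co k c) ≤ mm ω w m (k + j) (co k n) := by
  induction j generalizing n with
  | zero => simp [blkJ_zero]
  | succ j ih =>
    rw [sum_blkJ_succ]
    have h : mm ω w m (k + (j + 1)) (co k n) = ω (k + j + 1) * ‖vv w (k + j + 1) (co k n)‖ +
        ∑ b ∈ offs d, mm ω w m (k + j) (co k n + (2 : ℤ) ^ (k + j) • b) := rfl
    rw [h]
    refine le_add_of_nonneg_of_le (mul_nonneg (hω _) (norm_nonneg _)) ?_
    refine Finset.sum_le_sum fun b _ => ?_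
    rw [co_add]
    exact ih _

namespace Blk

variable (B : Blk d)

theorem s_pos : 0 < B.s := by unfold s; positivity

theorem one_le_s : 1 ≤ B.s := by unfold s; exact one_le_pow₀ (by norm_num)

theorem H_pos (m : ℕ) : 0 < B.H m := by unfold H; positivity

theorem one_le_H (m : ℕ) : 1 ≤ B.H m := by unfold H; exact one_le_pow₀ (by norm_num)

theorem rho_pos (m : ℕ) : 0 < B.rho m := by unfold rho; positivity

theorem rho_nonneg (m : ℕ) : 0 ≤ B.rho m := (B.rho_pos m).le

theorem rho_le_one (m : ℕ) : B.rho m ≤ 1 := by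
  unfold rho
  exact pow_le_one₀ (by norm_num) (by norm_num)

theorem rho_le (m : ℕ) : B.rho m ≤ (1 / 2) ^ B.s0 := by
  unfold rho
  refine pow_le_pow_of_le_one (by norm_num) (by norm_num) ?_
  exact Nat.le_mul_of_pos_right _ (by positivity)

theorem rho_succ (m : ℕ) : B.rho (m + 1) = B.rho m ^ 2 := by
  unfold rho
  rw [← pow_mul]
  congr 1
  ring

theorem rho_anti {m m' : ℕ} (h : m ≤ m') : B.rho m' ≤ B.rho m := by
  unfold rho
  refine pow_le_pow_of_le_one (by norm_num) (by norm_num) ?_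
  exact Nat.mul_le_mul_left _ (Nat.pow_le_pow_right (by norm_num) h)

theorem valid_anti {m m' : ℕ} (h : m ≤ m') (hv : B.valid m') : B.valid m := by
  unfold valid at *
  refine le_trans ?_ hv
  exact Nat.mul_le_mul_left _ (Nat.mul_le_mul_left _ (Nat.pow_le_pow_right (by norm_num) h))

theorem lv_anti {m m' : ℕ} (h : m ≤ m') : B.lv m' ≤ B.lv m := by
  unfold lv
  refine Nat.sub_le_sub_left ?_ _
  exact Nat.mul_le_mul_left _ (Nat.mul_le_mul_left _ (Nat.pow_le_pow_right (by norm_num) h))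

theorem lv_le (m : ℕ) : B.lv m ≤ B.j := Nat.sub_le _ _

theorem H_anti {m m' : ℕ} (h : m ≤ m') : B.H m' ≤ B.H m := by
  unfold H
  exact pow_le_pow_right₀ (by norm_num) (B.lv_anti h)

theorem H_le_s (m : ℕ) : B.H m ≤ B.s := by
  unfold H s
  exact pow_le_pow_right₀ (by norm_num) (B.lv_le m)

/-- `H_m = s ρ_m^16` -/
theorem H_eq {m : ℕ} (h : B.valid m) : B.H m = B.s * B.rho m ^ 16 := by
  unfold H s rho lv
  unfold valid at h
  have h1 : (2 : ℝ) ^ B.j = 2 ^ (B.j - 16 * (B.s0 * 2 ^ m)) * 2 ^ (16 * (B.s0 * 2 ^ m)) := by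
    rw [← pow_add, Nat.sub_add_cancel h]
  rw [h1, ← pow_mul, mul_comm (B.s0 * 2 ^ m) 16, mul_assoc, ← mul_pow]
  norm_num

theorem m2_nonneg (a : Lat d) : 0 ≤ B.m2 a := by
  unfold m2
  exact mul_nonneg (by norm_num) (m0f_nonneg _ _)

theorem MM_nonneg (m : ℕ) (c : Lat d) : 0 ≤ B.MM m c :=
  mm_nonneg (fun _ => wt_nonneg _ _) B.m2_nonneg _ _

theorem tot_nonneg (m : ℕ) : 0 ≤ B.tot m :=
  mm_nonneg (fun _ => wt_nonneg _ _) B.m2_nonneg _ _

theorem E0_nonneg : 0 ≤ B.E0 :=
  mm_nonneg (fun _ => wt_nonneg _ _) B.m2_nonneg _ _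

theorem b_nonneg (m : ℕ) (x : E d) (r : ℝ) : 0 ≤ B.b m x r :=
  Finset.sum_nonneg fun _ _ => B.MM_nonneg _ _

/-- the cells of level `lv m` exhaust at most the block -/
theorem sum_MM_le_tot (m : ℕ) : ∑ c ∈ B.cells m, B.MM m c ≤ B.tot m := by
  unfold cells MM tot
  have h1 : B.j + 6 = B.lv m + (B.j + 6 - B.lv m) := by
    have := B.lv_le m
    omega
  have h2 : bc B.j B.n = co (B.lv m) (fun i => 2 ^ (B.j - B.lv m) * (B.n i - 32)) := by
    funext i
    have h3 : (2 : ℤ) ^ B.j = 2 ^ B.lv m * 2 ^ (B.j - B.lv m) := by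
      rw [← pow_add]
      congr 1
      have := B.lv_le m
      omega
    simp only [bc, co]
    rw [pow_add, h3]
    ring
  rw [h2]
  conv_rhs => rw [h1]
  exact sum_mm_le (fun _ => wt_nonneg _ _) B.m2_nonneg _ _ _

theorem b_le_tot (m : ℕ) (x : E d) (r : ℝ) : B.b m x r ≤ B.tot m := by
  refine le_trans ?_ (B.sum_MM_le_tot m)
  unfold b
  exact Finset.sum_le_sum_of_subset_of_nonneg (Finset.filter_subset _ _)
    fun c _ _ => B.MM_nonneg _ _

end Blk

/-! ### The cone valued field -/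

theorem measurable_gam (c0 : Lat d → E d) : Measurable (gam c0) := by
  have h1 : Measurable fun z : E d => (fun i => ⌊z i⌋ : Lat d) := by
    refine measurable_pi_lambda _ fun i => ?_
    exact Int.measurable_floor.comp (by fun_prop)
  have h2 : Measurable c0 := measurable_of_countable c0
  exact h2.comp h1

theorem mem_cube_zero_iff {a : Lat d} {z : E d} : z ∈ cube 0 a ↔ (fun i => ⌊z i⌋) = a := by
  simp only [cube, mem_ofPred_eq, pow_zero]
  constructor
  · intro h
    funext i
    rw [Int.floor_eq_iff]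
    exact h i
  · rintro rfl i
    exact ⟨Int.floor_le _, Int.lt_floor_add_one _⟩

theorem gam_of_mem {c0 : Lat d → E d} {a : Lat d} {z : E d} (h : z ∈ cube 0 a) :
    gam c0 z = c0 a := by
  unfold gam
  rw [mem_cube_zero_iff.1 h]

theorem volume_cube_zero (a : Lat d) : volume (cube 0 a : Set (E d)) = 1 := by
  have h1 : (cube 0 a : Set (E d)) = (WithLp.ofLp : E d → (Fin d → ℝ)) ⁻¹'
      (Set.pi Set.univ fun i => Set.Ico (a i : ℝ) (a i + 1)) := by
    ext z
    simp only [cube, mem_ofPred_eq, pow_zero, mem_preimage, Set.mem_pi, mem_univ, true_imp_iff,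
      mem_Ico]
  rw [h1, (PiLp.volume_preserving_ofLp (Fin d)).measure_preimage
    (MeasurableSet.univ_pi fun i => measurableSet_Ico).nullMeasurableSet, Real.volume_pi_Ico]
  simp

theorem setIntegral_gam (c0 : Lat d → E d) (a : Lat d) : ∫ z in cube 0 a, gam c0 z = c0 a := by
  rw [setIntegral_congr_fun (measurableSet_cube 0 a) (g := fun _ => c0 a)
    (fun z hz => gam_of_mem hz)]
  rw [setIntegral_const, measureReal_def, volume_cube_zero]
  simp

/-- the integer part of a point of a cube is in the cube -/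
theorem floor_mem_blkJ {k : ℕ} {a : Lat d} {z : E d} :
    z ∈ cube k a ↔ (fun i => ⌊z i⌋ : Lat d) ∈ blkJ k a := by
  simp only [cube, mem_ofPred_eq, mem_blkJ]
  refine forall_congr' fun i => ?_
  rw [Int.le_floor, Int.floor_lt]
  push_cast
  rfl

/-- the region of a cube is bounded, hence of finite volume -/
theorem isBounded_cube (k : ℕ) (a : Lat d) : Bornology.IsBounded (cube k a : Set (E d)) := by
  refine (Metric.isBounded_closedBall (x := pt a) (r := √d * 2 ^ k)).subset fun z hz => ?_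
  rw [Metric.mem_closedBall, dist_eq_norm]
  exact norm_sub_le_of_mem_cube hz (pt_mem_cube k a)

theorem volume_cube_lt_top (k : ℕ) (a : Lat d) : volume (cube k a : Set (E d)) < ⊤ :=
  (isBounded_cube k a).measure_lt_top

namespace Blk

variable {B : Blk d} {e : E d}

theorem gam_support (h : B.OK e) {z : E d} (hz : gam B.c0 z ≠ 0) :
    z ∈ cube (B.j + 6) (bc B.j B.n) := by
  rw [floor_mem_blkJ]
  by_contra hcon
  exact hz (h.c_out _ hcon)

theorem norm_gam_le (h : B.OK e) (z : E d) :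
    ‖gam B.c0 z‖ ≤ ∑ a ∈ blkJ (B.j + 6) (bc B.j B.n), ‖B.c0 a‖ := by
  by_cases hz : gam B.c0 z = 0
  · rw [hz, norm_zero]
    exact Finset.sum_nonneg fun _ _ => norm_nonneg _
  · have h1 := gam_support h hz
    rw [floor_mem_blkJ] at h1
    exact Finset.single_le_sum (f := fun a => ‖B.c0 a‖) (fun _ _ => norm_nonneg _) h1

theorem integrable_gam (h : B.OK e) : Integrable (gam B.c0) := by
  have h1 : IntegrableOn (gam B.c0) (cube (B.j + 6) (bc B.j B.n)) := by
    refine Measure.integrableOn_of_bounded (M := ∑ a ∈ blkJ (B.j + 6) (bc B.j B.n), ‖B.c0 a‖)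
      (volume_cube_lt_top _ _).ne (measurable_gam _).aestronglyMeasurable ?_
    exact Eventually.of_forall fun z => norm_gam_le h z
  have h2 : Function.support (gam B.c0) ⊆ cube (B.j + 6) (bc B.j B.n) := fun z hz =>
    gam_support h hz
  exact (integrableOn_iff_integrable_of_support_subset h2).1 h1

theorem mass_nonneg (A : Set (E d)) : 0 ≤ B.mass A := by
  unfold mass
  exact integral_nonneg fun _ => norm_nonneg _

theorem mass_mono (h : B.OK e) {A A' : Set (E d)} (hA : A ⊆ A') : B.mass A ≤ B.mass A' := by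
  unfold mass
  exact setIntegral_mono_set (integrable_gam h).norm.integrableOn
    (Eventually.of_forall fun _ => norm_nonneg _) (Eventually.of_forall fun z hz => hA hz)

theorem mass_union_le (h : B.OK e) (A A' : Set (E d)) (hA : MeasurableSet A')
     : B.mass (A ∪ A') ≤ B.mass A + B.mass A' := by
  have h0 : A ∪ A' = (A \ A') ∪ A' := by rw [sdiff_union_self]
  have h1 : B.mass (A ∪ A') = B.mass (A \ A') + B.mass A' := by
    unfold mass
    rw [h0]
    exact setIntegral_union disjoint_sdiff_left hA (integrable_gam h).norm.integrableOn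
      (integrable_gam h).norm.integrableOn
  rw [h1]
  have := mass_mono h (sdiff_subset : A \ A' ⊆ A)
  linarith

theorem gam_cone (h : B.OK e) {e' : E d} (he' : ‖e'‖ = 1) (hee : ‖e' - e‖ ≤ 1 / 50) (z : E d) :
    4 / 5 * ‖gam B.c0 z‖ ≤ inner ℝ e' (gam B.c0 z) := h.c_cone _ e' he' hee

theorem In_nonneg (x : E d) (r : ℝ) (i : ℕ) : 0 ≤ B.In x r i := mass_nonneg _

theorem In_mono (h : B.OK e) (x : E d) (r : ℝ) {i i' : ℕ} (hi : i ≤ i') :
    B.In x r i ≤ B.In x r i' := by
  unfold In
  refine mass_mono h (Metric.closedBall_subset_closedBall ?_)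
  by_cases h1 : B.valid i'
  · rw [if_pos h1, if_pos (B.valid_anti hi h1)]
    linarith [B.H_anti hi]
  · rw [if_neg h1]
    split_ifs
    · linarith [B.H_pos i]
    · exact le_rfl

end Blk

end Vale.Agent.P137.U.Cen
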