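import Vale.Agent.P137.C.Spec

/-!
# P137, centered operator, block VI.1: the cell theorem
-/

open MeasureTheory Set Filter Topology
open scoped ENNReal NNReal

namespace Vale.Agent.P137.U.Cen

open Vale.Agent.P137 Vale.Agent.P137.U

variable {d : ℕ}

/-! ### Elementary facts on the weighted masses -/

theorem cell_wt_nonneg (t i : ℕ) : 0 ≤ wt t i := by unfold wt; positivity

theorem cell_mm_nonneg {ω : ℕ → ℝ} (hω : ∀ i, 0 ≤ ω i) {w : Lat d → E d} {m : Lat d → ℝ}
    (hm : ∀ a, 0 ≤ m a) (k : ℕ) (a : Lat d) : 0 ≤ mm ω w m k a := by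
  induction k generalizing a with
  | zero =>
    rw [mm]
    exact mul_nonneg (hω 0) (add_nonneg (norm_nonneg _) (hm a))
  | succ k ih =>
    rw [mm]
    exact add_nonneg (mul_nonneg (hω _) (norm_nonneg _)) (Finset.sum_nonneg fun b _ => ih _)

theorem cell_mm_sum_le {ω : ℕ → ℝ} (hω : ∀ i, 0 ≤ ω i) (w : Lat d → E d) (m : Lat d → ℝ)
    (k j : ℕ) (n : Lat d) :
    ∑ c ∈ blkJ j n, mm ω w m k (co k c) ≤ mm ω w m (k + j) (co k n) := by
  induction j generalizing n with
  | zero => simp [blkJ_zero]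
  | succ j ih =>
    rw [sum_blkJ_succ, ← add_assoc, mm]
    have h1 : ∑ b ∈ offs d, ∑ c ∈ blkJ j (n + (2 : ℤ) ^ j • b), mm ω w m k (co k c) ≤
        ∑ b ∈ offs d, mm ω w m (k + j) (co k n + (2 : ℤ) ^ (k + j) • b) := by
      apply Finset.sum_le_sum
      intro b _
      rw [co_add]
      exact ih _
    have h2 : 0 ≤ ω (k + j + 1) * ‖vv w (k + j + 1) (co k n)‖ := mul_nonneg (hω _) (norm_nonneg _)
    linarith only [h1, h2]

theorem cell_m2_nonneg (B : Blk d) (a : Lat d) : 0 ≤ B.m2 a :=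
  mul_nonneg (by norm_num) (m0f_nonneg _ _)

theorem cell_MM_nonneg (B : Blk d) (m : ℕ) (c : Lat d) : 0 ≤ B.MM m c :=
  cell_mm_nonneg (cell_wt_nonneg _) (cell_m2_nonneg B) _ _

theorem cell_tot_nonneg (B : Blk d) (m : ℕ) : 0 ≤ B.tot m :=
  cell_mm_nonneg (cell_wt_nonneg _) (cell_m2_nonneg B) _ _

theorem cell_E0_nonneg (B : Blk d) : 0 ≤ B.E0 :=
  cell_mm_nonneg (cell_wt_nonneg _) (cell_m2_nonneg B) _ _

theorem cell_rho_pos (B : Blk d) (m : ℕ) : 0 < B.rho m := by unfold Blk.rho; positivity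

theorem cell_H_pos (B : Blk d) (m : ℕ) : 0 < B.H m := by unfold Blk.H; positivity

theorem cell_s_pos (B : Blk d) : 0 < B.s := by unfold Blk.s; positivity

theorem cell_sum_MM_le (B : Blk d) (m : ℕ) : ∑ c ∈ B.cells m, B.MM m c ≤ B.tot m := by
  have hle : B.lv m ≤ B.j := Nat.sub_le _ _
  have h1 := cell_mm_sum_le (cell_wt_nonneg (B.lv (m + 1))) B.w B.m2 (B.lv m)
    (B.j + 6 - B.lv m) (fun i => 2 ^ (B.j - B.lv m) * (B.n i - 32))
  have e1 : B.lv m + (B.j + 6 - B.lv m) = B.j + 6 := by omega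
  have e2 : co (B.lv m) (fun i => 2 ^ (B.j - B.lv m) * (B.n i - 32)) = bc B.j B.n := by
    rw [bc_eq_co]
    funext i
    simp only [co]
    rw [← mul_assoc, ← pow_add]
    congr 2
    omega
  rw [e1, e2] at h1
  exact h1

theorem cell_b_nonneg (B : Blk d) (m : ℕ) (x : E d) (r : ℝ) : 0 ≤ B.b m x r :=
  Finset.sum_nonneg fun c _ => cell_MM_nonneg B m c

theorem cell_b_le_tot (B : Blk d) (m : ℕ) (x : E d) (r : ℝ) : B.b m x r ≤ B.tot m := by
  refine le_trans ?_ (cell_sum_MM_le B m)
  unfold Blk.b Blk.Sh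
  exact Finset.sum_le_sum_of_subset_of_nonneg (Finset.filter_subset _ _)
    fun c _ _ => cell_MM_nonneg B m c

/-! ### The trivial lower bound for the error functional -/

theorem cell_el_lower {g : E d → E d} (hg : Integrable g) (k : ℕ) (a : Lat d) :
    (99 / 100 : ℝ) ^ k * ∫ x in cube k a, ‖g x‖ ≤ el (99 / 100) (v0f g) (m0f g) k a := by
  induction k generalizing a with
  | zero => simp [el, m0f]
  | succ k ih =>
    rw [el, setIntegral_cube_succ k a hg.norm.integrableOn, pow_succ, mul_comm (_ ^ k) (99 / 100 : ℝ),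
      mul_assoc, Finset.mul_sum]
    have h1 : ∑ b ∈ offs d, (99 / 100 : ℝ) ^ k * ∫ x in cube k (a + (2 : ℤ) ^ k • b), ‖g x‖ ≤
        ∑ b ∈ offs d, el (99 / 100) (v0f g) (m0f g) k (a + (2 : ℤ) ^ k • b) :=
      Finset.sum_le_sum fun b _ => ih _
    have h2 := dl_nonneg (v0f g) k a
    linarith only [h1, h2]

theorem cell_eJl_lower {g : E d → E d} (hg : Integrable g) (j : ℕ) (n : Lat d) :
    (99 / 100 : ℝ) ^ (j + 6) * ∫ x in cube (j + 6) (bc j n), ‖g x‖ ≤
      eJl (99 / 100) (v0f g) (m0f g) j n := cell_el_lower hg _ _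

theorem cell_eJl_nonneg {g : E d → E d} (hg : Integrable g) (j : ℕ) (n : Lat d) :
    0 ≤ eJl (99 / 100) (v0f g) (m0f g) j n := by
  refine le_trans ?_ (cell_eJl_lower hg j n)
  have : 0 ≤ ∫ x in cube (j + 6) (bc j n), ‖g x‖ := integral_nonneg fun _ => norm_nonneg _
  positivity

/-! ### Volumes, the formula for the derivatives -/

/-- The constant in the volume bound. -/
noncomputable def cellK (d : ℕ) : ℝ := ((kap d / 2) ^ d * volume.real (Metric.ball (0 : E d) 1))⁻¹

theorem cellK_pos : 0 < cellK d := by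
  have h1 := kap_pos d
  have h2 := tt_vol_pos (d := d)
  unfold cellK
  positivity

theorem cell_vol_inv {j : ℕ} {x : E d} {r : ℝ} (hr : kap d * 2 ^ j / 2 ≤ r) :
    (volume.real (Metric.closedBall x r))⁻¹ ≤ cellK d * ((2 ^ j : ℝ) ^ d)⁻¹ := by
  have h1 := kap_pos d
  have h2 := tt_vol_pos (d := d)
  have h0 : 0 < kap d * 2 ^ j / 2 := by positivity
  have hr0 : 0 < r := h0.trans_le hr
  rw [tt_real_closedBall x hr0.le, cellK, ← mul_inv]
  refine inv_anti₀ (by positivity) ?_
  have h3 : (kap d * 2 ^ j / 2) ^ d ≤ r ^ d := pow_le_pow_left₀ h0.le hr d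
  calc (kap d / 2) ^ d * volume.real (Metric.ball (0 : E d) 1) * (2 ^ j : ℝ) ^ d
      = (kap d * 2 ^ j / 2) ^ d * volume.real (Metric.ball (0 : E d) 1) := by
        rw [show kap d * 2 ^ j / 2 = kap d / 2 * 2 ^ j by ring, mul_pow (kap d / 2)]
        ring
    _ ≤ r ^ d * volume.real (Metric.ball (0 : E d) 1) := by gcongr

theorem cell_integrable_gradient {f : E d → ℝ} (hf : ContDiff ℝ 1 f) (hfc : HasCompactSupport f) :
    Integrable (gradient f) := core_integrable_gradient hf hfc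

theorem cell_formula (hId : SpecId d) {f : E d → ℝ} (hf : ContDiff ℝ 1 f)
    (hfc : HasCompactSupport f) (x : E d) {r : ℝ} (hr : 0 < r) (e' : E d) (τ : ℝ) :
    fderiv ℝ (fun y => avg f y r) x e' + τ * deriv (fun ρ => avg f x ρ) r =
      (volume.real (Metric.closedBall x r))⁻¹ *
        ∫ z in Metric.closedBall x r, inner ℝ (e' + τ • (r⁻¹ • (z - x))) (gradient f z) := by
  rw [hId.dx f hf hfc x r hr e', (hId.dr f hf hfc x r hr).deriv]
  have hg := core_continuous_gradient hf
  have hi1 : IntegrableOn (fun z => inner ℝ e' (gradient f z)) (Metric.closedBall x r) := by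
    refine ContinuousOn.integrableOn_compact (isCompact_closedBall x r) (Continuous.continuousOn ?_)
    fun_prop
  have hi2 : IntegrableOn (fun z => inner ℝ (z - x) (gradient f z)) (Metric.closedBall x r) := by
    refine ContinuousOn.integrableOn_compact (isCompact_closedBall x r) (Continuous.continuousOn ?_)
    fun_prop
  have h1 : ∀ z, inner ℝ (e' + τ • (r⁻¹ • (z - x))) (gradient f z) =
      inner ℝ e' (gradient f z) + (τ * r⁻¹) * inner ℝ (z - x) (gradient f z) := by
    intro z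
    rw [inner_add_left, smul_smul, real_inner_smul_left]
  simp_rw [h1]
  rw [integral_add hi1 (hi2.const_mul _), integral_const_mul]
  ring

theorem cell_ball_subset {j : ℕ} {n : Lat d} {x : E d} {r : ℝ}
    (hx : ∀ i, |x i - 2 ^ j * n i| ≤ 2 * 2 ^ j) (hr : r ≤ 2 * 2 ^ j) :
    Metric.closedBall x r ⊆ cube (j + 6) (bc j n) := by
  apply closedBall_subset_block
  intro i
  have h1 := hx i
  have h2 : (0 : ℝ) < 2 ^ j := by positivity
  linarith only [h1, h2, hr]

/-- The conclusion of the cell theorem. -/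
def CellAt (f : E d → ℝ) (j : ℕ) (n : Lat d) (e : E d) (D : E d → ℝ) (R : ℝ)
    (F : E d → ℝ≥0∞) : Prop :=
  ∀ (x : E d) (r : ℝ), (∀ i, |x i - 2 ^ j * n i| ≤ 2 * 2 ^ j) →
      kap d * 2 ^ j / 2 ≤ r → r ≤ 2 * 2 ^ j → MaxAt f x (D x) R r →
      ∀ e' : E d, ‖e'‖ = 1 → ‖e' - e‖ ≤ 1 / 50 →
        ((D x < r ∧ r < R) →
          ENNReal.ofReal (-(fderiv ℝ (fun y => avg f y r) x e')) ≤ F x) ∧
        ((r = D x ∨ r = R) → ∀ τ : ℝ, |τ| ≤ 1 / 2 →
          ENNReal.ofReal (-(fderiv ℝ (fun y => avg f y r) x e' +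
            τ * deriv (fun ρ => avg f x ρ) r)) ≤ F x)

theorem cell_NT_vol (j : ℕ) (n : Lat d) :
    volume (NT j n : Set (E d)) ≤ ENNReal.ofReal ((2 * √d) ^ d * uvol d * (2 ^ j) ^ d) := by
  refine (measure_mono (ptr_NT_subset j n)).trans (le_of_eq ?_)
  rw [ptr_vol_ball _ (by positivity)]
  congr 1
  rw [show √(d : ℝ) * (2 * 2 ^ j) = (2 * √d) * 2 ^ j by ring, mul_pow (2 * √(d : ℝ))]
  ring

/-- Cells with few generations. -/
theorem cell_trivial (hId : SpecId d) (s0 : ℕ) : ∃ C : ℝ, 0 < C ∧ ∀ (f : E d → ℝ),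
    ContDiff ℝ 1 f → HasCompactSupport f → ∀ (j : ℕ) (n : Lat d) (e : E d), ¬ (16 * s0 ≤ j) →
    ∀ (D : E d → ℝ) (R : ℝ), ∃ F : E d → ℝ≥0∞, Measurable F ∧
    ∫⁻ x, F x ≤ ENNReal.ofReal (C * eJl (99 / 100) (v0f (gradient f)) (m0f (gradient f)) j n) ∧
    CellAt f j n e D R F := by
  have hK := cellK_pos (d := d)
  have huv := uvol_pos (d := d)
  obtain ⟨K2, hK2⟩ : ∃ K2 : ℝ, K2 = cellK d * (3 / 2) * ((2 * √d) ^ d * uvol d) *
    ((99 / 100) ^ (16 * s0 + 6))⁻¹ := ⟨_, rfl⟩
  have hK20 : 0 ≤ K2 := by rw [hK2]; positivity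
  refine ⟨K2 + 1, by positivity, fun f hf hfc j n e hj D R => ?_⟩
  have hgi := core_integrable_gradient hf hfc
  obtain ⟨I, hI⟩ : ∃ I : ℝ, I = ∫ z in cube (j + 6) (bc j n), ‖gradient f z‖ := ⟨_, rfl⟩
  have hI0 : 0 ≤ I := by rw [hI]; exact integral_nonneg fun _ => norm_nonneg _
  have hX := cell_eJl_lower hgi j n
  rw [← hI] at hX
  have hs : (0 : ℝ) < (2 ^ j) ^ d := by positivity
  refine ⟨(NT j n).indicator fun _ => ENNReal.ofReal (cellK d * ((2 ^ j : ℝ) ^ d)⁻¹ * (3 / 2 * I)),
    measurable_const.indicator (ptr_isClosed_NT j n).measurableSet, ?_, ?_⟩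
  · rw [lintegral_indicator (ptr_isClosed_NT j n).measurableSet, setLIntegral_const]
    refine (mul_le_mul_right (cell_NT_vol j n) _).trans ?_
    rw [← ENNReal.ofReal_mul (by positivity)]
    refine ENNReal.ofReal_le_ofReal ?_
    have h1 : cellK d * ((2 ^ j : ℝ) ^ d)⁻¹ * (3 / 2 * I) * ((2 * √d) ^ d * uvol d * (2 ^ j) ^ d) =
        cellK d * (3 / 2) * ((2 * √d) ^ d * uvol d) * I := by
      field_simp
    rw [h1]
    have h2 : (99 / 100 : ℝ) ^ (16 * s0 + 6) ≤ (99 / 100) ^ (j + 6) :=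
      pow_le_pow_of_le_one (by norm_num) (by norm_num) (by omega)
    have h3 : I ≤ ((99 / 100 : ℝ) ^ (16 * s0 + 6))⁻¹ *
        eJl (99 / 100) (v0f (gradient f)) (m0f (gradient f)) j n := by
      rw [← div_eq_inv_mul, le_div_iff₀ (by positivity), mul_comm]
      refine le_trans ?_ hX
      gcongr
    calc cellK d * (3 / 2) * ((2 * √d) ^ d * uvol d) * I
        ≤ cellK d * (3 / 2) * ((2 * √d) ^ d * uvol d) * (((99 / 100 : ℝ) ^ (16 * s0 + 6))⁻¹ *
        eJl (99 / 100) (v0f (gradient f)) (m0f (gradient f)) j n) := by gcongr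
      _ = K2 * eJl (99 / 100) (v0f (gradient f)) (m0f (gradient f)) j n := by rw [hK2]; ring
      _ ≤ _ := by
        have := cell_eJl_nonneg hgi j n
        nlinarith only [this]
  · intro x r hx hr1 hr2 hmax e' he' hee
    have hr0 : 0 < r := lt_of_lt_of_le (by have := kap_pos d; positivity) hr1
    have hxN : x ∈ NT j n := hx
    have key : ∀ τ : ℝ, |τ| ≤ 1 / 2 → ENNReal.ofReal (-(fderiv ℝ (fun y => avg f y r) x e' +
            τ * deriv (fun ρ => avg f x ρ) r)) ≤
          (NT j n).indicator (fun _ => ENNReal.ofReal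
            (cellK d * ((2 ^ j : ℝ) ^ d)⁻¹ * (3 / 2 * I))) x := by
      intro τ hτ
      rw [indicator_of_mem hxN, cell_formula hId hf hfc x hr0 e' τ]
      refine ENNReal.ofReal_le_ofReal ?_
      rw [← mul_neg]
      have hv0 : 0 ≤ (volume.real (Metric.closedBall x r))⁻¹ := inv_nonneg.2 measureReal_nonneg
      have h1 : -∫ z in Metric.closedBall x r, inner ℝ (e' + τ • (r⁻¹ • (z - x))) (gradient f z) ≤
          3 / 2 * I := by
        have h2 : |∫ z in Metric.closedBall x r,
            inner ℝ (e' + τ • (r⁻¹ • (z - x))) (gradient f z)| ≤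
            ∫ z in Metric.closedBall x r, 3 / 2 * ‖gradient f z‖ := by
          rw [← Real.norm_eq_abs]
          refine norm_integral_le_of_norm_le (hgi.norm.integrableOn.const_mul _) ?_
          refine (ae_restrict_iff' Metric.isClosed_closedBall.measurableSet).2
            (Eventually.of_forall fun z hz => ?_)
          refine (norm_inner_le_norm _ _).trans ?_
          refine mul_le_mul_of_nonneg_right ?_ (norm_nonneg _)
          refine (norm_add_le _ _).trans ?_
          rw [he', norm_smul, norm_smul, norm_inv, Real.norm_of_nonneg hr0.le, Real.norm_eq_abs]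
          have h3 : r⁻¹ * ‖z - x‖ ≤ 1 := by
            rw [← div_eq_inv_mul, div_le_one hr0, ← dist_eq_norm]
            exact hz
          have h4 : 0 ≤ r⁻¹ * ‖z - x‖ := by positivity
          nlinarith only [h3, h4, hτ, abs_nonneg τ]
        have h3 : ∫ z in Metric.closedBall x r, 3 / 2 * ‖gradient f z‖ ≤ 3 / 2 * I := by
          rw [integral_const_mul, hI]
          refine mul_le_mul_of_nonneg_left ?_ (by norm_num)
          exact setIntegral_mono_set hgi.norm.integrableOn (Eventually.of_forall fun _ =>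
            norm_nonneg _) (LE.le.eventuallyLE (cell_ball_subset hx hr2))
        exact (neg_le_abs _).trans (h2.trans h3)
      calc (volume.real (Metric.closedBall x r))⁻¹ *
          -∫ z in Metric.closedBall x r, inner ℝ (e' + τ • (r⁻¹ • (z - x))) (gradient f z)
          ≤ (volume.real (Metric.closedBall x r))⁻¹ * (3 / 2 * I) :=
            mul_le_mul_of_nonneg_left h1 hv0
        _ ≤ _ := mul_le_mul_of_nonneg_right (cell_vol_inv hr1) (by positivity)
    refine ⟨fun _ => ?_, fun _ τ hτ => key τ hτ⟩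
    have := key 0 (by norm_num)
    simpa using this

/-! ### Sums over the bands -/

theorem cell_sum_shift {T : ℕ → ℝ} (hT : ∀ m, 0 ≤ T m) (M : ℕ) :
    ∑ m ∈ Finset.range M, (T m + T (m + 1)) ≤ 2 * ∑ m ∈ Finset.range (M + 1), T m := by
  rw [Finset.sum_add_distrib, two_mul]
  refine add_le_add ?_ ?_
  · rw [Finset.sum_range_succ]
    linarith only [hT M]
  · rw [Finset.sum_range_succ' T]
    linarith only [hT 0]

theorem cell_exists_last {s0 j : ℕ} (hs0 : 1 ≤ s0) (hj : 16 * s0 ≤ j) :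
    ∃ M : ℕ, (∀ m ≤ M, 16 * (s0 * 2 ^ m) ≤ j) ∧ ¬ 16 * (s0 * 2 ^ (M + 1)) ≤ j ∧
      ∀ m ≤ M, m < j + 1 := by
  classical
  have hex : ∃ m, ¬ 16 * (s0 * 2 ^ m) ≤ j := by
    refine ⟨j, ?_⟩
    push Not
    have h1 : j < 2 ^ j := Nat.lt_two_pow_self
    calc j < 2 ^ j := h1
      _ ≤ 16 * (s0 * 2 ^ j) := by
        have : 1 * 2 ^ j ≤ s0 * 2 ^ j := Nat.mul_le_mul_right _ hs0
        omega
  obtain ⟨N, hN⟩ : ∃ N, N = Nat.find hex := ⟨_, rfl⟩
  have hN1 : ¬ 16 * (s0 * 2 ^ N) ≤ j := by rw [hN]; exact Nat.find_spec hex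
  have hN2 : ∀ m < N, 16 * (s0 * 2 ^ m) ≤ j := by
    intro m hm
    rw [hN] at hm
    exact not_not.1 (Nat.find_min hex hm)
  have hN0 : N ≠ 0 := by
    rintro h
    rw [h] at hN1
    simp only [pow_zero, mul_one] at hN1
    exact hN1 hj
  obtain ⟨M, rfl⟩ := Nat.exists_eq_succ_of_ne_zero hN0
  refine ⟨M, fun m hm => hN2 m (by omega), hN1, fun m hm => ?_⟩
  have h1 := hN2 m (by omega)
  have h2 : m < 2 ^ m := Nat.lt_two_pow_self
  have : 1 * 2 ^ m ≤ s0 * 2 ^ m := Nat.mul_le_mul_right _ hs0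
  omega

/-- A majorant which is defined for all `m`. -/
theorem cell_extend {B : Blk d} {bound : ℝ} {P : E d → ℝ → ℝ → Prop} {h : Prop}
    (H : h → B.Maj bound P) : ∃ F : E d → ℝ≥0∞, Measurable F ∧
      ∫⁻ x, F x ≤ ENNReal.ofReal (B.s ^ d * bound) ∧
      (h → ∀ x r v, B.near x → B.rad r → P x r v → ENNReal.ofReal v ≤ F x) := by
  by_cases hh : h
  · obtain ⟨F, h1, h2, h3⟩ := H hh
    exact ⟨F, h1, h2, fun _ => h3⟩
  · exact ⟨fun _ => 0, measurable_const, by simp, fun h' => absurd h' hh⟩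

/-- Cells with many generations: summation of the majorants. -/
theorem cell_main (hId : SpecId d) {η : ℝ} {B : Blk d} {f : E d → ℝ} (hf : ContDiff ℝ 1 f)
    (hfc : HasCompactSupport f) (hg : B.g = gradient f) {e : E d} {D : E d → ℝ} {R : ℝ} {M : ℕ}
    (hval : ∀ m ≤ M, B.valid m)
    {C2 Cb CB CB' CC CD X CX : ℝ} (hC2 : 0 < C2) (hCb : 0 < Cb) (hCB : 0 < CB) (hCB' : 0 < CB')
    (hCC : 0 < CC) (hCD : 0 < CD) (hX0 : 0 ≤ X) (hCX : 0 ≤ CX)
    (hE0 : B.E0 ≤ CX * X) (hsum : ∑ m ∈ Finset.range (M + 1), B.rho m * B.tot m ≤ CX * X)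
    (h2 : ∀ (e' : E d), ‖e'‖ = 1 → ‖e' - e‖ ≤ 1 / 50 →
      ∀ (x : E d) (D0 R r : ℝ), B.near x → B.rad r → MaxAt f x D0 R r → D0 < r → r < R →
      ∃ cost : ℕ → ℝ,
      -(∫ z in Metric.closedBall x r, inner ℝ e' (B.g z)) ≤
        C2 * (B.E0 + ∑ m ∈ Finset.range (M + 1), B.rho m * B.b m x r +
          ∑ m ∈ Finset.range (M + 1), cost m) ∧
      ∀ m ≤ M, cost m ≤ 0 ∨ (cost m ≤ B.b m x r ∧
        (m = 0 ∨
         (1 ≤ m ∧ ¬ ∃ c, B.condB m x r c) ∨
         (1 ≤ m ∧ ¬ B.condD m D0 R r) ∨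
         (1 ≤ m ∧ B.condA η m x r ∧ ∃ c, B.condB m x r c ∧ ¬ B.condC m x r c) ∨
         (∃ m', 1 ≤ m' ∧ m' + 1 ≤ M ∧ cost m ≤ B.b m' x r ∧ cost m ≤ B.b (m' + 1) x r ∧
            (m = m' ∨ m = m' + 1) ∧
            ∃ c c', B.condB m' x r c ∧ B.condB (m' + 1) x r c' ∧
              B.rho m' * B.s / 4 < ‖B.pos m' c - B.pos (m' + 1) c'‖))))
    (hb : ∀ (e' : E d), ‖e'‖ = 1 → ‖e' - e‖ ≤ 1 / 50 →
      ∀ (x : E d) (r τ : ℝ), B.near x → B.rad r → |τ| ≤ 1 / 2 →
        -(∫ z in Metric.closedBall x r, inner ℝ (e' + τ • (r⁻¹ • (z - x))) (B.g z)) ≤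
          Cb * (B.E0 + ∑ m ∈ Finset.range (M + 1), B.b m x r))
    (hMB : ∀ m, 1 ≤ m → B.valid m → B.Maj (CB * (B.rho m * B.tot m))
      (fun x r v => v ≤ B.b m x r ∧ ¬ ∃ c, B.condB m x r c))
    (hMB' : ∀ m, 1 ≤ m → B.valid (m + 1) →
      B.Maj (CB' * (B.rho m * B.tot m + B.rho (m + 1) * B.tot (m + 1)))
      (fun x r v => v ≤ B.b m x r ∧ v ≤ B.b (m + 1) x r ∧
        ∃ c c', B.condB m x r c ∧ B.condB (m + 1) x r c' ∧
            B.rho m * B.s / 4 < ‖B.pos m c - B.pos (m + 1) c'‖))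
    (hMD : ∀ m, 1 ≤ m → B.valid m → B.Maj (CD * (B.rho m * B.tot m))
      (fun x r v => v ≤ B.b m x r ∧ D x ≤ r ∧ r ≤ R ∧ ¬ B.condD m (D x) R r))
    (hMC : ∀ m, 1 ≤ m → B.valid m → B.Maj (CC * (B.rho m * B.tot m))
      (fun x r v => v ≤ B.b m x r ∧ B.condA η m x r ∧
        ∃ c, B.condB m x r c ∧ ¬ B.condC m x r c)) :
    ∃ F : E d → ℝ≥0∞, Measurable F ∧
      ∫⁻ x, F x ≤ ENNReal.ofReal (cellK d * (C2 + Cb) * (((2 * √d) ^ d * uvol d) *
        (2 * CX + (B.rho 0)⁻¹ * CX) + (CB + CD + CC + 4 * CB') * CX) * X) ∧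
      CellAt f B.j B.n e D R F := by
  classical
  have hK := cellK_pos (d := d)
  have huv := uvol_pos (d := d)
  obtain ⟨T, hT⟩ : ∃ T : ℕ → ℝ, T = fun m => B.rho m * B.tot m := ⟨_, rfl⟩
  have hT0 : ∀ m, 0 ≤ T m := fun m => by
    rw [hT]
    exact mul_nonneg (cell_rho_pos B m).le (cell_tot_nonneg B m)
  have hTe : ∀ m, B.rho m * B.tot m = T m := fun m => by rw [hT]
  simp only [hTe] at hsum hMB hMB' hMD hMC
  have hs0 : 0 < B.s ^ d := pow_pos (cell_s_pos B) d
  have hE00 := cell_E0_nonneg B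
  have hρ0 := cell_rho_pos B 0
  have hST0 : 0 ≤ ∑ m ∈ Finset.range (M + 1), T m := Finset.sum_nonneg fun m _ => hT0 m
  have htot0 : B.tot 0 ≤ (B.rho 0)⁻¹ * (CX * X) := by
    rw [← div_eq_inv_mul, le_div_iff₀ hρ0, mul_comm, hTe]
    refine le_trans ?_ hsum
    exact Finset.single_le_sum (f := T) (fun m _ => hT0 m) (Finset.mem_range.2 (Nat.succ_pos M))
  have htot00 := cell_tot_nonneg B 0
  choose FB hFB1 hFB2 hFB3 using fun m => cell_extend (fun h : 1 ≤ m ∧ B.valid m => hMB m h.1 h.2)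
  choose FD hFD1 hFD2 hFD3 using fun m => cell_extend (fun h : 1 ≤ m ∧ B.valid m => hMD m h.1 h.2)
  choose FC hFC1 hFC2 hFC3 using fun m => cell_extend (fun h : 1 ≤ m ∧ B.valid m => hMC m h.1 h.2)
  choose FP hFP1 hFP2 hFP3 using fun m =>
    cell_extend (fun h : 1 ≤ m ∧ B.valid (m + 1) => hMB' m h.1 h.2)
  clear hMB hMB' hMD hMC
  obtain ⟨G, hG⟩ : ∃ G : ℕ → E d → ℝ≥0∞, G = fun m x => FB m x + FD m x + FC m x +
      (if m < M then FP m x else 0) + (if 1 ≤ m then FP (m - 1) x else 0) := ⟨_, rfl⟩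
  have hGm : ∀ m, Measurable (G m) := by
    intro m
    rw [hG]
    refine (((((hFB1 m).add (hFD1 m)).add (hFC1 m))).add ?_).add ?_
    · by_cases h : m < M
      · simp only [h, if_true]; exact hFP1 m
      · simp only [h, if_false]; exact measurable_const
    · by_cases h : 1 ≤ m
      · simp only [h, if_true]; exact hFP1 (m - 1)
      · simp only [h, if_false]; exact measurable_const
  obtain ⟨c2, hc2⟩ : ∃ c2 : ℝ, c2 = cellK d * (B.s ^ d)⁻¹ * (C2 + Cb) := ⟨_, rfl⟩
  have hc20 : 0 ≤ c2 := by rw [hc2]; positivity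
  obtain ⟨Y, hY⟩ : ∃ Y : ℝ, Y = B.E0 + (∑ m ∈ Finset.range (M + 1), T m) + B.tot 0 := ⟨_, rfl⟩
  have hY0 : 0 ≤ Y := by rw [hY]; positivity
  refine ⟨fun x => (NT B.j B.n).indicator (fun _ => ENNReal.ofReal (c2 * Y)) x +
    ENNReal.ofReal c2 * ∑ m ∈ Finset.range (M + 1), G m x, ?_, ?_, ?_⟩
  · refine (measurable_const.indicator (ptr_isClosed_NT B.j B.n).measurableSet).add ?_
    exact (Finset.measurable_sum _ fun m _ => hGm m).const_mul _
  · rw [lintegral_add_left (measurable_const.indicator (ptr_isClosed_NT B.j B.n).measurableSet),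
      lintegral_indicator (ptr_isClosed_NT B.j B.n).measurableSet, setLIntegral_const,
      lintegral_const_mul _ (Finset.measurable_sum _ fun m _ => hGm m),
      lintegral_finsetSum _ fun m _ => hGm m]
    obtain ⟨U, hU⟩ : ∃ U : ℕ → ℝ, U = fun m => B.s ^ d * ((CB + CD + CC) * T m) +
      (if m < M then B.s ^ d * (CB' * (T m + T (m + 1))) else 0) +
      (if 1 ≤ m then B.s ^ d * (CB' * (T (m - 1) + T (m - 1 + 1))) else 0) := ⟨_, rfl⟩
    have hU1 : ∀ m, 0 ≤ (if m < M then B.s ^ d * (CB' * (T m + T (m + 1))) else 0) := by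
      intro m
      have := hT0 m
      have := hT0 (m + 1)
      split_ifs
      · positivity
      · exact le_rfl
    have hU2 : ∀ m, 0 ≤ (if 1 ≤ m then B.s ^ d * (CB' * (T (m - 1) + T (m - 1 + 1))) else 0) := by
      intro m
      have := hT0 (m - 1)
      have := hT0 (m - 1 + 1)
      split_ifs
      · positivity
      · exact le_rfl
    have hU0 : ∀ m, 0 ≤ U m := by
      intro m
      rw [hU]
      have h1 := hU1 m
      have h2 := hU2 m
      have h3 : 0 ≤ B.s ^ d * ((CB + CD + CC) * T m) := by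
        have := hT0 m
        positivity
      simp only
      linarith only [h1, h2, h3]
    have hG1 : ∀ m, ∫⁻ x, G m x ≤ ENNReal.ofReal (U m) := by
      intro m
      have hTm := hT0 m
      have e1 : ∫⁻ x, G m x = (∫⁻ x, FB m x) + (∫⁻ x, FD m x) + (∫⁻ x, FC m x) +
          (if m < M then ∫⁻ x, FP m x else 0) + (if 1 ≤ m then ∫⁻ x, FP (m - 1) x else 0) := by
        rw [hG]
        simp only
        have m1 : Measurable fun x => if m < M then FP m x else 0 := by
          by_cases h : m < M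
          · simp only [h, if_true]; exact hFP1 m
          · simp only [h, if_false]; exact measurable_const
        have m2 : Measurable fun x => FB m x + FD m x := (hFB1 m).add (hFD1 m)
        have m3 : Measurable fun x => FB m x + FD m x + FC m x := m2.add (hFC1 m)
        have m4 : Measurable fun x => FB m x + FD m x + FC m x + (if m < M then FP m x else 0) :=
          m3.add m1
        rw [lintegral_add_left m4, lintegral_add_left m3, lintegral_add_left m2,
          lintegral_add_left (hFB1 m)]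
        congr 1
        · congr 1
          by_cases h : m < M <;> simp [h]
        · by_cases h : 1 ≤ m <;> simp [h]
      rw [e1, hU]
      simp only
      rw [ENNReal.ofReal_add (add_nonneg (by positivity) (hU1 m)) (hU2 m),
        ENNReal.ofReal_add (by positivity) (hU1 m)]
      refine add_le_add (add_le_add ?_ ?_) ?_
      · have e2 : B.s ^ d * ((CB + CD + CC) * T m) = B.s ^ d * (CB * T m) +
            B.s ^ d * (CD * T m) + B.s ^ d * (CC * T m) := by ring
        rw [e2, ENNReal.ofReal_add (by positivity) (by positivity),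
          ENNReal.ofReal_add (by positivity) (by positivity)]
        exact add_le_add (add_le_add (hFB2 m) (hFD2 m)) (hFC2 m)
      · split_ifs
        · exact hFP2 m
        · simp
      · split_ifs
        · exact hFP2 (m - 1)
        · simp
    have hUs : ∑ m ∈ Finset.range (M + 1), U m ≤
        B.s ^ d * ((CB + CD + CC + 4 * CB') * (CX * X)) := by
      rw [hU]
      simp only
      rw [Finset.sum_add_distrib, Finset.sum_add_distrib, ← Finset.mul_sum, ← Finset.mul_sum]
      have h1 : ∑ m ∈ Finset.range (M + 1),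
          (if m < M then B.s ^ d * (CB' * (T m + T (m + 1))) else 0) =
          B.s ^ d * (CB' * ∑ m ∈ Finset.range M, (T m + T (m + 1))) := by
        rw [Finset.sum_range_succ, if_neg (lt_irrefl M), add_zero, Finset.mul_sum, Finset.mul_sum]
        refine Finset.sum_congr rfl fun m hm => ?_
        rw [if_pos (Finset.mem_range.1 hm)]
      have h2 : ∑ m ∈ Finset.range (M + 1),
          (if 1 ≤ m then B.s ^ d * (CB' * (T (m - 1) + T (m - 1 + 1))) else 0) =
          B.s ^ d * (CB' * ∑ m ∈ Finset.range M, (T m + T (m + 1))) := by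
        rw [Finset.sum_range_succ', if_neg (by norm_num), add_zero, Finset.mul_sum, Finset.mul_sum]
        refine Finset.sum_congr rfl fun m _ => ?_
        rw [if_pos (by omega), Nat.add_sub_cancel]
      rw [h1, h2]
      have h3 := cell_sum_shift hT0 M
      have h4 : CB' * ∑ m ∈ Finset.range M, (T m + T (m + 1)) ≤ CB' * (2 * (CX * X)) := by
        refine mul_le_mul_of_nonneg_left (h3.trans ?_) hCB'.le
        linarith only [hsum]
      have h5 : (CB + CD + CC) * ∑ m ∈ Finset.range (M + 1), T m ≤ (CB + CD + CC) * (CX * X) :=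
        mul_le_mul_of_nonneg_left hsum (by positivity)
      have h6 : B.s ^ d * (CB' * ∑ m ∈ Finset.range M, (T m + T (m + 1))) ≤
          B.s ^ d * (CB' * (2 * (CX * X))) := mul_le_mul_of_nonneg_left h4 hs0.le
      have h7 : B.s ^ d * ((CB + CD + CC) * ∑ m ∈ Finset.range (M + 1), T m) ≤
          B.s ^ d * ((CB + CD + CC) * (CX * X)) := mul_le_mul_of_nonneg_left h5 hs0.le
      calc _ ≤ B.s ^ d * ((CB + CD + CC) * (CX * X)) + B.s ^ d * (CB' * (2 * (CX * X))) +
            B.s ^ d * (CB' * (2 * (CX * X))) := add_le_add (add_le_add h7 h6) h6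
        _ = _ := by ring
    have hYle : Y ≤ 2 * (CX * X) + (B.rho 0)⁻¹ * (CX * X) := by
      rw [hY]
      linarith only [hE0, hsum, htot0]
    have h1 : ENNReal.ofReal (c2 * Y) * volume (NT B.j B.n : Set (E d)) ≤
        ENNReal.ofReal (cellK d * (C2 + Cb) * ((2 * √d) ^ d * uvol d) *
          (2 * (CX * X) + (B.rho 0)⁻¹ * (CX * X))) := by
      refine (mul_le_mul_right (cell_NT_vol B.j B.n) _).trans ?_
      rw [← ENNReal.ofReal_mul (by positivity)]
      refine ENNReal.ofReal_le_ofReal ?_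
      have e3 : c2 * Y * ((2 * √d) ^ d * uvol d * (2 ^ B.j) ^ d) =
          cellK d * (C2 + Cb) * ((2 * √d) ^ d * uvol d) * Y := by
        rw [hc2]
        have : ((2 : ℝ) ^ B.j) ^ d = B.s ^ d := rfl
        rw [this]
        field_simp
      rw [e3]
      exact mul_le_mul_of_nonneg_left hYle (by positivity)
    have h2 : ENNReal.ofReal c2 * ∑ m ∈ Finset.range (M + 1), ∫⁻ x, G m x ≤
        ENNReal.ofReal (cellK d * (C2 + Cb) * ((CB + CD + CC + 4 * CB') * (CX * X))) := by
      calc ENNReal.ofReal c2 * ∑ m ∈ Finset.range (M + 1), ∫⁻ x, G m x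
          ≤ ENNReal.ofReal c2 * ∑ m ∈ Finset.range (M + 1), ENNReal.ofReal (U m) :=
            mul_le_mul_right (Finset.sum_le_sum fun m _ => hG1 m) _
        _ = ENNReal.ofReal (c2 * ∑ m ∈ Finset.range (M + 1), U m) := by
            rw [ENNReal.ofReal_mul hc20, ENNReal.ofReal_sum_of_nonneg fun m _ => hU0 m]
        _ ≤ _ := by
            refine ENNReal.ofReal_le_ofReal ?_
            refine (mul_le_mul_of_nonneg_left hUs hc20).trans (le_of_eq ?_)
            rw [hc2]
            field_simp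
    refine (add_le_add h1 h2).trans ?_
    rw [← ENNReal.ofReal_add (by positivity) (by positivity)]
    refine ENNReal.ofReal_le_ofReal (le_of_eq ?_)
    ring
  · intro x r hx hr1 hr2 hmax e' he' hee
    have hr0 : 0 < r := lt_of_lt_of_le (by have := kap_pos d; positivity) hr1
    have hxN : x ∈ NT B.j B.n := hx
    have hnear : B.near x := hx
    have hrad : B.rad r := ⟨hr1, hr2⟩
    have hv := cell_vol_inv (x := x) hr1
    have hv0 : 0 ≤ (volume.real (Metric.closedBall x r))⁻¹ := inv_nonneg.2 measureReal_nonneg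
    have hval0 : ∀ m ≤ M, B.valid m := hval
    -- the common final step
    have fin : ∀ (I C' : ℝ) (q : ℕ → ℝ), 0 ≤ C' → C' ≤ C2 + Cb →
        I ≤ C' * (B.E0 + (∑ m ∈ Finset.range (M + 1), T m) + ∑ m ∈ Finset.range (M + 1), q m) →
        (∀ m ∈ Finset.range (M + 1), 0 ≤ q m ∧ ENNReal.ofReal (q m) ≤
          (if m = 0 then ENNReal.ofReal (B.tot 0) else 0) + G m x) →
        ENNReal.ofReal ((volume.real (Metric.closedBall x r))⁻¹ * I) ≤
          (NT B.j B.n).indicator (fun _ => ENNReal.ofReal (c2 * Y)) x +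
            ENNReal.ofReal c2 * ∑ m ∈ Finset.range (M + 1), G m x := by
      intro I C' q hC'0 hC' hI hq
      have hq0 : 0 ≤ ∑ m ∈ Finset.range (M + 1), q m := Finset.sum_nonneg fun m hm => (hq m hm).1
      have h1 : (volume.real (Metric.closedBall x r))⁻¹ * I ≤
          c2 * (B.E0 + (∑ m ∈ Finset.range (M + 1), T m)) +
            c2 * ∑ m ∈ Finset.range (M + 1), q m := by
        calc (volume.real (Metric.closedBall x r))⁻¹ * I
            ≤ (volume.real (Metric.closedBall x r))⁻¹ * ((C2 + Cb) * (B.E0 +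
              (∑ m ∈ Finset.range (M + 1), T m) + ∑ m ∈ Finset.range (M + 1), q m)) := by
              refine mul_le_mul_of_nonneg_left (hI.trans ?_) hv0
              exact mul_le_mul_of_nonneg_right hC' (by positivity)
          _ ≤ (cellK d * (B.s ^ d)⁻¹) * ((C2 + Cb) * (B.E0 +
              (∑ m ∈ Finset.range (M + 1), T m) + ∑ m ∈ Finset.range (M + 1), q m)) :=
              mul_le_mul_of_nonneg_right hv (by positivity)
          _ = _ := by rw [hc2]; ring
      refine (ENNReal.ofReal_le_ofReal h1).trans ?_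
      rw [ENNReal.ofReal_add (by positivity) (by positivity), indicator_of_mem hxN]
      have h2 : ENNReal.ofReal (c2 * ∑ m ∈ Finset.range (M + 1), q m) ≤
          ENNReal.ofReal (c2 * B.tot 0) + ENNReal.ofReal c2 * ∑ m ∈ Finset.range (M + 1), G m x := by
        rw [ENNReal.ofReal_mul hc20, ENNReal.ofReal_mul hc20, ← mul_add]
        refine mul_le_mul_right ?_ _
        rw [ENNReal.ofReal_sum_of_nonneg fun m hm => (hq m hm).1]
        refine (Finset.sum_le_sum fun m hm => (hq m hm).2).trans ?_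
        rw [Finset.sum_add_distrib]
        refine add_le_add_left (le_of_eq ?_) _
        rw [Finset.sum_ite_eq' (Finset.range (M + 1)) 0, if_pos (Finset.mem_range.2 (Nat.succ_pos M))]
      refine (add_le_add_right h2 _).trans ?_
      rw [← add_assoc, ← ENNReal.ofReal_add (by positivity) (by positivity)]
      refine add_le_add_left (ENNReal.ofReal_le_ofReal (le_of_eq ?_)) _
      rw [hY]; ring
    have hsumb : ∑ m ∈ Finset.range (M + 1), B.rho m * B.b m x r ≤
        ∑ m ∈ Finset.range (M + 1), T m := by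
      refine Finset.sum_le_sum fun m _ => ?_
      rw [← hTe]
      exact mul_le_mul_of_nonneg_left (cell_b_le_tot B m x r) (cell_rho_pos B m).le
    refine ⟨fun hDR => ?_, fun hDR τ hτ => ?_⟩
    · -- interior radius
      have e1 : fderiv ℝ (fun y => avg f y r) x e' = (volume.real (Metric.closedBall x r))⁻¹ *
          ∫ z in Metric.closedBall x r, inner ℝ e' (gradient f z) := by
        have := cell_formula hId hf hfc x hr0 e' 0
        simpa using this
      rw [e1, ← mul_neg, ← hg]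
      obtain ⟨cost, hc1, hc3⟩ := h2 e' he' hee x (D x) R r hnear hrad hmax hDR.1 hDR.2
      refine fin _ C2 (fun m => max (cost m) 0) hC2.le (by linarith only [hCb]) ?_ ?_
      · refine hc1.trans (mul_le_mul_of_nonneg_left ?_ hC2.le)
        have h5 : ∑ m ∈ Finset.range (M + 1), cost m ≤ ∑ m ∈ Finset.range (M + 1), max (cost m) 0 :=
          Finset.sum_le_sum fun m _ => le_max_left _ _
        linarith only [h5, hsumb]
      · intro m hm
        have hmM : m ≤ M := Nat.lt_succ_iff.1 (Finset.mem_range.1 hm)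
        refine ⟨le_max_right _ _, ?_⟩
        have e2 : ENNReal.ofReal (max (cost m) 0) = ENNReal.ofReal (cost m) := by
          rcases le_total (cost m) 0 with h | h
          · rw [max_eq_right h, ENNReal.ofReal_of_nonpos h, ENNReal.ofReal_zero]
          · rw [max_eq_left h]
        rw [e2]
        have gB : FB m x ≤ G m x := by
          rw [hG]; simp only
          rw [add_assoc (FB m x), add_assoc (FB m x), add_assoc (FB m x)]
          exact le_self_add
        have gD : FD m x ≤ G m x := by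
          rw [hG]; simp only
          rw [add_comm (FB m x), add_assoc (FD m x), add_assoc (FD m x), add_assoc (FD m x)]
          exact le_self_add
        have gC : FC m x ≤ G m x := by
          rw [hG]; simp only
          rw [add_comm (FB m x + FD m x), add_assoc (FC m x), add_assoc (FC m x)]
          exact le_self_add
        have gP : m < M → FP m x ≤ G m x := by
          intro h
          rw [hG]; simp only [h, if_true]
          rw [add_comm (FB m x + FD m x + FC m x), add_assoc (FP m x)]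
          exact le_self_add
        have gP' : 1 ≤ m → FP (m - 1) x ≤ G m x := by
          intro h
          rw [hG]; simp only [h, if_true]
          exact le_add_self
        rcases hc3 m hmM with h | ⟨hcb, h⟩
        · rw [ENNReal.ofReal_of_nonpos h]; exact zero_le
        rcases h with rfl | ⟨hm1, h⟩ | ⟨hm1, h⟩ | ⟨hm1, h⟩ | ⟨m', hm1, hm2, h1, h3, hmm, h4⟩
        · rw [if_pos rfl]
          refine le_trans (ENNReal.ofReal_le_ofReal (hcb.trans (cell_b_le_tot B 0 x r))) le_self_add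
        · refine ((hFB3 m ⟨hm1, hval m hmM⟩ x r _ hnear hrad ⟨hcb, h⟩).trans gB).trans le_add_self
        · refine ((hFD3 m ⟨hm1, hval m hmM⟩ x r _ hnear hrad
            ⟨hcb, hDR.1.le, hDR.2.le, h⟩).trans gD).trans le_add_self
        · refine ((hFC3 m ⟨hm1, hval m hmM⟩ x r _ hnear hrad ⟨hcb, h⟩).trans gC).trans le_add_self
        · have h5 := hFP3 m' ⟨hm1, hval (m' + 1) hm2⟩ x r _ hnear hrad ⟨h1, h3, h4⟩
          rcases hmm with rfl | rfl
          · exact (h5.trans (gP (by omega))).trans le_add_self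
          · refine (h5.trans ?_).trans le_add_self
            have := gP' (by omega)
            rwa [Nat.add_sub_cancel] at this
    · -- boundary radius
      rw [cell_formula hId hf hfc x hr0 e' τ, ← mul_neg, ← hg]
      refine fin _ Cb (fun m => B.b m x r) hCb.le (by linarith only [hC2]) ?_ ?_
      · refine (hb e' he' hee x r τ hnear hrad hτ).trans (mul_le_mul_of_nonneg_left ?_ hCb.le)
        linarith only [hST0]
      · intro m hm
        have hmM : m ≤ M := Nat.lt_succ_iff.1 (Finset.mem_range.1 hm)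
        refine ⟨cell_b_nonneg B m x r, ?_⟩
        rcases Nat.eq_zero_or_pos m with rfl | hm1
        · rw [if_pos rfl]
          exact le_trans (ENNReal.ofReal_le_ofReal (cell_b_le_tot B 0 x r)) le_self_add
        · have gD : FD m x ≤ G m x := by
            rw [hG]; simp only
            rw [add_comm (FB m x), add_assoc (FD m x), add_assoc (FD m x), add_assoc (FD m x)]
            exact le_self_add
          have hnd : ¬ B.condD m (D x) R r := by
            intro h
            have hH := cell_H_pos B (m - 1)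
            rcases hDR with h1 | h1
            · have := h.1
              linarith only [this, h1, hH]
            · have := h.2
              linarith only [this, h1, hH]
          exact ((hFD3 m ⟨hm1, hval m hmM⟩ x r _ hnear hrad
            ⟨le_rfl, hmax.lo, hmax.hi, hnd⟩).trans gD).trans le_add_self

/-- BLOCK VI.1: the cell theorem. -/
theorem cell (hII : SpecII d) (hId : SpecId d) (hPW2 : SpecPW2 d) (hPWb : SpecPWb d)
    (hB : SpecMajB d) (hB' : SpecMajB' d) (hC : SpecMajC d) (hD : SpecMajD d) : SpecCell d := by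
  obtain ⟨η, S2, hη, h2⟩ := hPW2
  obtain ⟨Sb, hb⟩ := hPWb
  obtain ⟨SB, hB⟩ := hB
  obtain ⟨SB', hB'⟩ := hB'
  obtain ⟨SC, hC⟩ := hC
  obtain ⟨SD, hD⟩ := hD
  obtain ⟨s0, hs0⟩ : ∃ s0 : ℕ, s0 = S2 + Sb + SB + SB' + SC + SD + 1 := ⟨_, rfl⟩
  obtain ⟨C2, hC2, h2⟩ := h2 s0 (by omega)
  obtain ⟨Cb, hCb, hb⟩ := hb s0 (by omega)
  obtain ⟨CB, hCB, hB⟩ := hB s0 (by omega)
  obtain ⟨CB', hCB', hB'⟩ := hB' s0 (by omega)
  obtain ⟨CC, hCC, hC⟩ := hC s0 (by omega) η hη
  obtain ⟨CD, hCD, hD⟩ := hD s0 (by omega)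
  obtain ⟨CX, hCX, hII⟩ := hII s0 (by omega)
  obtain ⟨C0, hC0, htriv⟩ := cell_trivial hId s0
  have hK := cellK_pos (d := d)
  have huv := uvol_pos (d := d)
  obtain ⟨K, hKdef⟩ : ∃ K : ℝ, K = cellK d * (C2 + Cb) * (((2 * √d) ^ d * uvol d) *
        (2 * CX + ((1 / 2 : ℝ) ^ (s0 * 2 ^ 0))⁻¹ * CX) + (CB + CD + CC + 4 * CB') * CX) := ⟨_, rfl⟩
  have hK0 : 0 ≤ K := by rw [hKdef]; positivity
  refine ⟨C0 + K, by positivity, fun f hf hfc j n e he hv D R hDl => ?_⟩
  have hgi := core_integrable_gradient hf hfc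
  have hX0 := cell_eJl_nonneg hgi j n
  by_cases hj : 16 * s0 ≤ j
  · obtain ⟨c0, hOK, hE0, hsum⟩ := hII (gradient f) hgi j n e he hv
    obtain ⟨M, hM1, hM2, hM3⟩ := cell_exists_last (by omega) hj
    obtain ⟨B, hBdef⟩ : ∃ B : Blk d, B = Blk.mk s0 j n (gradient f) c0 := ⟨_, rfl⟩
    have hBs : B.s0 = s0 := by rw [hBdef]
    have hBg : B.g = gradient f := by rw [hBdef]
    have hBj : B.j = j := by rw [hBdef]
    have hBn : B.n = n := by rw [hBdef]
    rw [← hBdef] at hOK hE0 hsum
    have hval : ∀ m ≤ M, B.valid m := by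
      intro m hm
      rw [hBdef]
      exact hM1 m hm
    have hnval : ¬ B.valid (M + 1) := by
      rw [hBdef]
      exact hM2
    have hsum' : ∑ m ∈ Finset.range (M + 1), B.rho m * B.tot m ≤
        CX * eJl (99 / 100) (v0f (gradient f)) (m0f (gradient f)) j n := by
      refine le_trans ?_ hsum
      refine Finset.sum_le_sum_of_subset_of_nonneg ?_ fun m _ _ =>
        mul_nonneg (cell_rho_pos B m).le (cell_tot_nonneg B m)
      intro m hm
      have hmM : m ≤ M := Nat.lt_succ_iff.1 (Finset.mem_range.1 hm)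
      exact Finset.mem_filter.2 ⟨Finset.mem_range.2 (hM3 m hmM), hM1 m hmM⟩
    obtain ⟨F, hF1, hF2, hF3⟩ := cell_main (η := η) hId hf hfc hBg (e := e) (D := D) (R := R)
      hval hC2 hCb hCB hCB' hCC hCD hX0 hCX.le hE0 hsum'
      (fun e' he' hee x D0 R r hx hr hmax h1 h3 =>
        h2 f hf hfc B e e' hBs hBg hOK he' hee M (hval M le_rfl) hnval x D0 R r hx hr hmax h1 h3)
      (fun e' he' hee x r τ hx hr hτ =>
        hb B e e' hBs hOK he' hee M (hval M le_rfl) hnval x r τ hx hr hτ)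
      (fun m hm hv => hB B e hBs hOK m hm hv)
      (fun m hm hv => hB' B e hBs hOK m hm hv)
      (fun m hm hv => hD B e hBs hOK D R hDl m hm hv)
      (fun m hm hv => hC B e hBs hOK m hm hv)
    refine ⟨F, hF1, hF2.trans (ENNReal.ofReal_le_ofReal ?_), ?_⟩
    · have e1 : B.rho 0 = (1 / 2 : ℝ) ^ (s0 * 2 ^ 0) := by rw [hBdef]; rfl
      rw [e1, ← hKdef]
      have := mul_nonneg hC0.le hX0
      linarith only [this]
    · rw [hBj, hBn] at hF3
      exact hF3
  · obtain ⟨F, hF1, hF2, hF3⟩ := htriv f hf hfc j n e hj D R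
    refine ⟨F, hF1, hF2.trans (ENNReal.ofReal_le_ofReal ?_), hF3⟩
    have := mul_nonneg hK0 hX0
    linarith only [this]

end Vale.Agent.P137.U.Cen
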