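import Vale.Agent.P137.Bdl.B1

/-!
# P137, centered operator: approximation of an additive lattice field by a cone valued one
-/

open MeasureTheory Set Filter Topology

namespace Vale.Agent.P137.U.Cen.Cone

open Vale.Agent.P137 Vale.Agent.P137.U

variable {d : ℕ}

/-- Sum of `F` over the cubes of level `k` in `cube K a`. -/
noncomputable def lsm (F : ℕ → Lat d → ℝ) (K : ℕ) (a : Lat d) (k : ℕ) : ℝ :=
  ∑ c ∈ blkJ (K - k) 0, F k (a + (2 : ℤ) ^ k • c)

theorem sum_blkJ_shift {M : Type*} [AddCommMonoid M] (F : Lat d → M) (j : ℕ) (m : Lat d) :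
    ∑ c ∈ blkJ j m, F c = ∑ c ∈ blkJ j 0, F (m + c) := by
  refine Finset.sum_nbij' (fun c => c - m) (fun c => m + c) ?_ ?_ ?_ ?_ ?_
  · intro c hc
    rw [mem_blkJ] at *
    intro i
    have := hc i
    simp only [Pi.sub_apply, Pi.zero_apply]
    omega
  · intro c hc
    rw [mem_blkJ] at *
    intro i
    have := hc i
    simp only [Pi.add_apply, Pi.zero_apply] at this ⊢
    omega
  · intro c _
    simp
  · intro c _
    simp
  · intro c _
    simp

theorem lsm_self (F : ℕ → Lat d → ℝ) (K : ℕ) (a : Lat d) : lsm F K a K = F K a := by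
  simp [lsm, blkJ_zero]

theorem lsm_succ (F : ℕ → Lat d → ℝ) {K k : ℕ} (h : k ≤ K) (a : Lat d) :
    lsm F (K + 1) a k = ∑ b ∈ offs d, lsm F K (a + (2 : ℤ) ^ K • b) k := by
  unfold lsm
  have h1 : K + 1 - k = (K - k) + 1 := by omega
  rw [h1, sum_blkJ_succ]
  refine Finset.sum_congr rfl fun b _ => ?_
  rw [sum_blkJ_shift]
  refine Finset.sum_congr rfl fun c _ => ?_
  congr 1
  have h2 : (2 : ℤ) ^ K = 2 ^ k * 2 ^ (K - k) := by
    rw [← pow_add]
    congr 1
    omega
  funext i
  simp only [Pi.add_apply, Pi.smul_apply, smul_eq_mul, Pi.zero_apply, h2]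
  ring

theorem lsm_mono {F G : ℕ → Lat d → ℝ} (h : ∀ k a, F k a ≤ G k a) (K : ℕ) (a : Lat d) (k : ℕ) :
    lsm F K a k ≤ lsm G K a k := Finset.sum_le_sum fun _ _ => h _ _

theorem lsm_nonneg {F : ℕ → Lat d → ℝ} (h : ∀ k a, 0 ≤ F k a) (K : ℕ) (a : Lat d) (k : ℕ) :
    0 ≤ lsm F K a k := Finset.sum_nonneg fun _ _ => h _ _

theorem lsm_add (F G : ℕ → Lat d → ℝ) (K : ℕ) (a : Lat d) (k : ℕ) :
    lsm (fun i b => F i b + G i b) K a k = lsm F K a k + lsm G K a k := by
  unfold lsm
  rw [Finset.sum_add_distrib]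

theorem vv_eq_sum (u : Lat d → E d) (K : ℕ) (a : Lat d) : vv u K a = ∑ x ∈ blkJ K a, u x := by
  have h := vv_eq_sum_blkJ u 0 K a
  have h1 : ∀ m : Lat d, co 0 m = m := by
    intro m
    funext i
    simp [co]
  simp only [h1, zero_add] at h
  exact h

theorem vv_sub (u u' : Lat d → E d) (K : ℕ) (a : Lat d) :
    vv (u - u') K a = vv u K a - vv u' K a := by
  simp only [vv_eq_sum, Pi.sub_apply, Finset.sum_sub_distrib]

theorem child_mem {K : ℕ} {a b x : Lat d} (hb : b ∈ offs d)
    (hx : x ∈ blkJ K (a + (2 : ℤ) ^ K • b)) : x ∈ blkJ (K + 1) a := by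
  rw [mem_blkJ] at *
  exact child_range hb hx

theorem lsm_vv_congr {u u' : Lat d → E d} {K : ℕ} {a : Lat d} (h : ∀ x ∈ blkJ K a, u x = u' x)
    (Φ : E d → ℝ) {k : ℕ} (hk : k ≤ K) :
    lsm (fun i b => Φ (vv u i b)) K a k = lsm (fun i b => Φ (vv u' i b)) K a k := by
  induction K generalizing a with
  | zero =>
    obtain rfl : k = 0 := by omega
    rw [lsm_self, lsm_self]
    congr 1
    exact h a (by simp [blkJ_zero])
  | succ K ih =>
    rcases Nat.lt_or_ge K k with hk' | hk'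
    · obtain rfl : k = K + 1 := by omega
      rw [lsm_self, lsm_self, vv_eq_sum, vv_eq_sum]
      congr 1
      exact Finset.sum_congr rfl h
    · rw [lsm_succ _ hk', lsm_succ _ hk']
      refine Finset.sum_congr rfl fun b hb => ?_
      exact ih (fun x hx => h x (child_mem hb hx)) hk'

theorem lsm_norm_le (u : Lat d → E d) {K k : ℕ} (hk : k ≤ K) (a : Lat d) :
    lsm (fun i b => ‖vv u i b‖) K a k ≤ ∑ x ∈ blkJ K a, ‖u x‖ := by
  induction K generalizing a with
  | zero =>
    obtain rfl : k = 0 := by omega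
    rw [lsm_self, vv_eq_sum]
    exact norm_sum_le _ _
  | succ K ih =>
    rcases Nat.lt_or_ge K k with hk' | hk'
    · obtain rfl : k = K + 1 := by omega
      rw [lsm_self, vv_eq_sum]
      exact norm_sum_le _ _
    · rw [lsm_succ _ hk', sum_blkJ_succ]
      exact Finset.sum_le_sum fun b _ => ih hk' _

/-- Defect of the direction. -/
noncomputable def bt (v0 : Lat d → E d) (e : E d) (k : ℕ) (a : Lat d) : ℝ :=
  ‖vv v0 k a‖ - inner ℝ e (vv v0 k a)

theorem bt_nonneg (v0 : Lat d → E d) {e : E d} (he : ‖e‖ ≤ 1) (k : ℕ) (a : Lat d) :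
    0 ≤ bt v0 e k a := by
  unfold bt
  have h1 := real_inner_le_norm e (vv v0 k a)
  have h2 : ‖e‖ * ‖vv v0 k a‖ ≤ 1 * ‖vv v0 k a‖ :=
    mul_le_mul_of_nonneg_right he (norm_nonneg _)
  linarith

theorem lsm_bt (v0 : Lat d → E d) (e : E d) {K k : ℕ} (hk : k ≤ K) (a : Lat d) :
    lsm (bt v0 e) K a k =
      lsm (fun i b => ‖vv v0 i b‖) K a k - inner ℝ e (vv v0 K a) := by
  induction K generalizing a with
  | zero =>
    obtain rfl : k = 0 := by omega
    rw [lsm_self, lsm_self]
    rfl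
  | succ K ih =>
    rcases Nat.lt_or_ge K k with hk' | hk'
    · obtain rfl : k = K + 1 := by omega
      rw [lsm_self, lsm_self]
      rfl
    · rw [lsm_succ _ hk', lsm_succ _ hk', vv, inner_sum, ← Finset.sum_sub_distrib]
      exact Finset.sum_congr rfl fun b _ => ih hk' _

/-- The cone. -/
def InCone (e x : E d) : Prop := 97 / 100 * ‖x‖ ≤ inner ℝ e x

theorem inCone_zero (e : E d) : InCone e 0 := by simp [InCone]

theorem inCone_sum {ι : Type*} {e : E d} {s : Finset ι} {f : ι → E d}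
    (h : ∀ i ∈ s, InCone e (f i)) : InCone e (∑ i ∈ s, f i) := by
  unfold InCone at *
  rw [inner_sum]
  calc 97 / 100 * ‖∑ i ∈ s, f i‖ ≤ 97 / 100 * ∑ i ∈ s, ‖f i‖ :=
        mul_le_mul_of_nonneg_left (norm_sum_le _ _) (by norm_num)
    _ = ∑ i ∈ s, 97 / 100 * ‖f i‖ := by rw [Finset.mul_sum]
    _ ≤ ∑ i ∈ s, inner ℝ e (f i) := Finset.sum_le_sum h

theorem inCone_vv {e : E d} {u : Lat d → E d} (h : ∀ x, InCone e (u x)) (k : ℕ) (a : Lat d) :
    InCone e (vv u k a) := by
  rw [vv_eq_sum]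
  exact inCone_sum fun x _ => h x

/-- The step: distribution of a prescribed value over the children. -/
theorem step {ι : Type*} (s : Finset ι) (v : ι → E d) (e p : E d) (he : ‖e‖ ≤ 1) :
    (∃ c : ι → E d, (∀ i ∈ s, InCone e (c i)) ∧ ∑ i ∈ s, c i = p ∧
      ∑ i ∈ s, ‖v i - c i‖ ≤ ‖∑ i ∈ s, v i - p‖ + 200 * ∑ i ∈ s, (‖v i‖ - inner ℝ e (v i))) ∨
    ‖p‖ ≤ 101 * (‖∑ i ∈ s, v i - p‖ + 100 * ∑ i ∈ s, (‖v i‖ - inner ℝ e (v i))) := by
  classical
  set A : ι → E d := fun i => if 99 / 100 * ‖v i‖ ≤ inner ℝ e (v i) then v i else 0 with hA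
  have hin : ∀ x : E d, |(inner ℝ e x : ℝ)| ≤ ‖x‖ := by
    intro x
    have h1 := abs_real_inner_le_norm e x
    have h2 : ‖e‖ * ‖x‖ ≤ 1 * ‖x‖ := mul_le_mul_of_nonneg_right he (norm_nonneg _)
    linarith
  have hA1 : ∀ i, 99 / 100 * ‖A i‖ ≤ inner ℝ e (A i) := by
    intro i
    simp only [hA]
    split_ifs with h
    · exact h
    · simp
  have hA2 : ∀ i, ‖v i - A i‖ ≤ 100 * (‖v i‖ - inner ℝ e (v i)) := by
    intro i
    simp only [hA]
    split_ifs with h
    · have := (abs_le.1 (hin (v i))).2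
      rw [sub_self, norm_zero]
      linarith
    · rw [sub_zero]
      push Not at h
      linarith
  set N : ℝ := ∑ i ∈ s, ‖A i‖ with hN
  have hN0 : 0 ≤ N := Finset.sum_nonneg fun _ _ => norm_nonneg _
  set h : E d := p - ∑ i ∈ s, A i with hh
  set β : ℝ := ∑ i ∈ s, (‖v i‖ - inner ℝ e (v i)) with hβ
  have hAs : ∑ i ∈ s, ‖v i - A i‖ ≤ 100 * β := by
    rw [hβ, Finset.mul_sum]
    exact Finset.sum_le_sum fun i _ => hA2 i
  have hnh : ‖h‖ ≤ ‖∑ i ∈ s, v i - p‖ + 100 * β := by
    have h1 : h = -(∑ i ∈ s, v i - p) + ∑ i ∈ s, (v i - A i) := by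
      rw [Finset.sum_sub_distrib, hh]
      abel
    rw [h1]
    refine (norm_add_le _ _).trans ?_
    rw [norm_neg]
    exact add_le_add_right ((norm_sum_le _ _).trans hAs) _
  rcases le_or_gt ‖h‖ (1 / 100 * N) with hc | hc
  · left
    refine ⟨fun i => A i + (‖A i‖ / N) • h, ?_, ?_, ?_⟩
    · intro i hi
      unfold InCone
      have hq : ‖A i‖ / N * ‖h‖ ≤ 1 / 100 * ‖A i‖ := by
        rcases hN0.eq_or_lt with h0 | h0
        · rw [← h0, div_zero, zero_mul]
          positivity
        · calc ‖A i‖ / N * ‖h‖ ≤ ‖A i‖ / N * (1 / 100 * N) :=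
                mul_le_mul_of_nonneg_left hc (by positivity)
            _ = 1 / 100 * ‖A i‖ := by field_simp
      have hq0 : 0 ≤ ‖A i‖ / N := by positivity
      have h1 : ‖A i + (‖A i‖ / N) • h‖ ≤ ‖A i‖ + 1 / 100 * ‖A i‖ := by
        refine (norm_add_le _ _).trans ?_
        rw [norm_smul, Real.norm_eq_abs, abs_of_nonneg hq0]
        linarith
      have h2 : (inner ℝ e (A i + (‖A i‖ / N) • h) : ℝ) =
          inner ℝ e (A i) + ‖A i‖ / N * inner ℝ e h := by
        rw [inner_add_right, inner_smul_right]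
      have h3 : -(1 / 100 * ‖A i‖) ≤ ‖A i‖ / N * inner ℝ e h := by
        have h4 := (abs_le.1 (hin h)).1
        have h5 : ‖A i‖ / N * (-‖h‖) ≤ ‖A i‖ / N * inner ℝ e h :=
          mul_le_mul_of_nonneg_left h4 hq0
        linarith
      rw [h2]
      have h6 := hA1 i
      have h7 := norm_nonneg (A i)
      linarith
    · rw [Finset.sum_add_distrib, ← Finset.sum_smul, ← Finset.sum_div, ← hN]
      rcases hN0.eq_or_lt with h0 | h0
      · rw [← h0, mul_zero] at hc
        have h1 : h = 0 := norm_le_zero_iff.1 hc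
        rw [h1, smul_zero, add_zero]
        exact (sub_eq_zero.1 (hh.symm.trans h1)).symm
      · rw [div_self h0.ne', one_smul, hh]
        abel
    · have h1 : ∀ i ∈ s, ‖v i - (A i + (‖A i‖ / N) • h)‖ ≤ ‖v i - A i‖ + ‖A i‖ / N * ‖h‖ := by
        intro i _
        have hq0 : 0 ≤ ‖A i‖ / N := by positivity
        rw [← sub_sub]
        refine (norm_sub_le _ _).trans ?_
        rw [norm_smul, Real.norm_eq_abs, abs_of_nonneg hq0]
      refine (Finset.sum_le_sum h1).trans ?_
      rw [Finset.sum_add_distrib, ← Finset.sum_mul, ← Finset.sum_div, ← hN]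
      have h2 : N / N * ‖h‖ ≤ 1 * ‖h‖ :=
        mul_le_mul_of_nonneg_right (div_self_le_one N) (norm_nonneg _)
      linarith
  · right
    have h1 : ‖p‖ ≤ ‖h‖ + N := by
      have h2 : p = h + ∑ i ∈ s, A i := by
        rw [hh]
        abel
      rw [h2]
      refine (norm_add_le _ _).trans ?_
      exact add_le_add_right (norm_sum_le _ _) _
    linarith

/-- The child of `cube (k+1) a` containing the lattice point `x`. -/
def chi (k : ℕ) (a x : Lat d) : Lat d := fun i => if x i < a i + 2 ^ k then 0 else 1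

theorem chi_mem (k : ℕ) (a x : Lat d) : chi k a x ∈ offs d := by
  rw [mem_offs]
  intro i
  unfold chi
  split_ifs
  · exact Or.inl rfl
  · exact Or.inr rfl

theorem chi_eq {k : ℕ} {a b x : Lat d} (hb : b ∈ offs d)
    (hx : x ∈ blkJ k (a + (2 : ℤ) ^ k • b)) : chi k a x = b := by
  rw [mem_blkJ] at hx
  funext i
  have h1 := hx i
  simp only [Pi.add_apply, Pi.smul_apply, smul_eq_mul] at h1
  unfold chi
  rcases mem_offs.1 hb i with h | h
  · rw [h] at h1 ⊢
    rw [if_pos]
    linarith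
  · rw [h] at h1 ⊢
    rw [if_neg]
    linarith

/-- Cone approximation with a prescribed total. -/
theorem aux (v0 : Lat d → E d) {e : E d} (he : ‖e‖ ≤ 1) (K : ℕ) :
    ∀ (a : Lat d) (p : E d), InCone e p → ∃ c0 : Lat d → E d,
      (∀ x, x ∉ blkJ K a → c0 x = 0) ∧ (∀ x, InCone e (c0 x)) ∧ vv c0 K a = p ∧
      ∀ k ≤ K, lsm (fun i b => ‖vv (v0 - c0) i b‖) K a k ≤
        203 * ‖vv v0 K a - p‖ + 40600 * ∑ l ∈ Finset.Ico k K, lsm (bt v0 e) K a l := by
  classical
  induction K with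
  | zero =>
    intro a p hp
    refine ⟨fun x => if x = a then p else 0, ?_, ?_, ?_, ?_⟩
    · intro x hx
      rw [blkJ_zero, Finset.mem_singleton] at hx
      exact if_neg hx
    · intro x
      by_cases h : x = a
      · simpa only [if_pos h] using hp
      · simpa only [if_neg h] using inCone_zero e
    · simp [vv]
    · intro k hk
      obtain rfl : k = 0 := by omega
      rw [lsm_self, Finset.Ico_self, Finset.sum_empty, mul_zero, add_zero]
      have h1 : vv (v0 - fun x => if x = a then p else 0) 0 a = vv v0 0 a - p := by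
        rw [vv_sub]
        simp [vv]
      rw [h1]
      have := norm_nonneg (vv v0 0 a - p)
      linarith
  | succ K ih =>
    intro a p hp
    have hβ0 : ∀ l, 0 ≤ lsm (bt v0 e) (K + 1) a l := fun l => lsm_nonneg (bt_nonneg v0 he) _ _ _
    have hsum : ∑ b ∈ offs d, (‖vv v0 K (a + (2 : ℤ) ^ K • b)‖ -
        inner ℝ e (vv v0 K (a + (2 : ℤ) ^ K • b))) = lsm (bt v0 e) (K + 1) a K := by
      rw [lsm_succ _ le_rfl]
      refine Finset.sum_congr rfl fun b _ => ?_
      rw [lsm_self]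
      rfl
    have hV : ∑ b ∈ offs d, vv v0 K (a + (2 : ℤ) ^ K • b) = vv v0 (K + 1) a := rfl
    rcases step (offs d) (fun b => vv v0 K (a + (2 : ℤ) ^ K • b)) e p he with h | h
    · obtain ⟨c, hc1, hc2, hc3⟩ := h
      rw [hsum, hV] at hc3
      have hex : ∀ b : Lat d, ∃ c0 : Lat d → E d, b ∈ offs d →
          ((∀ x, x ∉ blkJ K (a + (2 : ℤ) ^ K • b) → c0 x = 0) ∧ (∀ x, InCone e (c0 x)) ∧
          vv c0 K (a + (2 : ℤ) ^ K • b) = c b ∧
          ∀ k ≤ K, lsm (fun i b => ‖vv (v0 - c0) i b‖) K (a + (2 : ℤ) ^ K • b) k ≤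
            203 * ‖vv v0 K (a + (2 : ℤ) ^ K • b) - c b‖ +
            40600 * ∑ l ∈ Finset.Ico k K, lsm (bt v0 e) K (a + (2 : ℤ) ^ K • b) l) := by
        intro b
        by_cases hb : b ∈ offs d
        · obtain ⟨c0, h0⟩ := ih (a + (2 : ℤ) ^ K • b) (c b) (hc1 b hb)
          exact ⟨c0, fun _ => h0⟩
        · exact ⟨0, fun h => absurd h hb⟩
      choose cc hcc using hex
      have hloc : ∀ b ∈ offs d, ∀ x ∈ blkJ K (a + (2 : ℤ) ^ K • b),
          cc (chi K a x) x = cc b x := by
        intro b hb x hx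
        rw [chi_eq hb hx]
      refine ⟨fun x => cc (chi K a x) x, ?_, ?_, ?_, ?_⟩
      · intro x hx
        refine (hcc _ (chi_mem K a x)).1 x fun hx' => hx ?_
        exact child_mem (chi_mem K a x) hx'
      · intro x
        exact (hcc _ (chi_mem K a x)).2.1 x
      · rw [vv, ← hc2]
        refine Finset.sum_congr rfl fun b hb => ?_
        rw [← (hcc b hb).2.2.1, vv_eq_sum, vv_eq_sum]
        exact Finset.sum_congr rfl (hloc b hb)
      · intro k hk
        rcases Nat.lt_or_ge K k with hk' | hk'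
        · obtain rfl : k = K + 1 := by omega
          rw [lsm_self, Finset.Ico_self, Finset.sum_empty, mul_zero, add_zero, vv_sub]
          have h1 : vv (fun x => cc (chi K a x) x) (K + 1) a = p := by
            rw [vv, ← hc2]
            refine Finset.sum_congr rfl fun b hb => ?_
            rw [← (hcc b hb).2.2.1, vv_eq_sum, vv_eq_sum]
            exact Finset.sum_congr rfl (hloc b hb)
          rw [h1]
          have := norm_nonneg (vv v0 (K + 1) a - p)
          linarith
        · rw [lsm_succ _ hk']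
          have h1 : ∀ b ∈ offs d,
              lsm (fun i b => ‖vv (v0 - fun x => cc (chi K a x) x) i b‖) K
                (a + (2 : ℤ) ^ K • b) k ≤
              203 * ‖vv v0 K (a + (2 : ℤ) ^ K • b) - c b‖ +
              40600 * ∑ l ∈ Finset.Ico k K, lsm (bt v0 e) K (a + (2 : ℤ) ^ K • b) l := by
            intro b hb
            refine le_of_eq_of_le ?_ ((hcc b hb).2.2.2 k hk')
            refine lsm_vv_congr (u := v0 - fun x => cc (chi K a x) x) (u' := v0 - cc b)
              (fun x hx => ?_) (fun y => ‖y‖) hk'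
            simp only [Pi.sub_apply]
            rw [hloc b hb x hx]
          refine (Finset.sum_le_sum h1).trans ?_
          rw [Finset.sum_add_distrib, ← Finset.mul_sum, ← Finset.mul_sum, Finset.sum_comm]
          have h2 : ∑ l ∈ Finset.Ico k K, ∑ b ∈ offs d,
              lsm (bt v0 e) K (a + (2 : ℤ) ^ K • b) l =
              ∑ l ∈ Finset.Ico k K, lsm (bt v0 e) (K + 1) a l := by
            refine Finset.sum_congr rfl fun l hl => ?_
            rw [lsm_succ _ (Finset.mem_Ico.1 hl).2.le]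
          rw [h2, Finset.sum_Ico_succ_top hk']
          have h3 := hβ0 K
          linarith
    · rw [hsum, hV] at h
      have hsingle : vv (fun x => if x = a then p else 0) (K + 1) a = p := by
        rw [vv_eq_sum, Finset.sum_ite_eq', if_pos]
        rw [mem_blkJ]
        intro i
        have hp : (0 : ℤ) < 2 ^ (K + 1) := by positivity
        omega
      refine ⟨fun x => if x = a then p else 0, ?_, ?_, hsingle, ?_⟩
      · intro x hx
        refine if_neg ?_
        rintro rfl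
        apply hx
        rw [mem_blkJ]
        intro i
        have hp : (0 : ℤ) < 2 ^ (K + 1) := by positivity
        omega
      · intro x
        by_cases h : x = a
        · simpa only [if_pos h] using hp
        · simpa only [if_neg h] using inCone_zero e
      · intro k hk
        rcases Nat.lt_or_ge K k with hk' | hk'
        · obtain rfl : k = K + 1 := by omega
          rw [lsm_self, Finset.Ico_self, Finset.sum_empty, mul_zero, add_zero, vv_sub, hsingle]
          have := norm_nonneg (vv v0 (K + 1) a - p)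
          linarith
        · have h1 : lsm (fun i b => ‖vv (v0 - fun x => if x = a then p else 0) i b‖) (K + 1) a k ≤
              lsm (fun i b => ‖vv v0 i b‖ + ‖vv (fun x => if x = a then p else 0) i b‖)
                (K + 1) a k := by
            refine lsm_mono (fun i b => ?_) _ _ _
            rw [vv_sub]
            exact norm_sub_le _ _
          rw [lsm_add] at h1
          have h2 : lsm (fun i b => ‖vv (fun x => if x = a then p else 0) i b‖) (K + 1) a k ≤
              ‖p‖ := by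
            refine (lsm_norm_le _ hk a).trans ?_
            have h3 : ∀ x : Lat d, ‖if x = a then p else 0‖ = if x = a then ‖p‖ else 0 := by
              intro x
              split_ifs <;> simp
            simp only [h3]
            rw [Finset.sum_ite_eq']
            split_ifs
            · exact le_rfl
            · exact norm_nonneg _
          have h4 := lsm_bt v0 e hk a
          have h5 : (inner ℝ e (vv v0 (K + 1) a) : ℝ) ≤ ‖vv v0 (K + 1) a‖ := by
            have h6 := real_inner_le_norm e (vv v0 (K + 1) a)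
            have h7 : ‖e‖ * ‖vv v0 (K + 1) a‖ ≤ 1 * ‖vv v0 (K + 1) a‖ :=
              mul_le_mul_of_nonneg_right he (norm_nonneg _)
            linarith
          have h8 : ‖vv v0 (K + 1) a‖ ≤ ‖vv v0 (K + 1) a - p‖ + ‖p‖ := by
            have := norm_add_le (vv v0 (K + 1) a - p) p
            rwa [sub_add_cancel] at this
          have h9 : lsm (bt v0 e) (K + 1) a k ≤
              ∑ l ∈ Finset.Ico k (K + 1), lsm (bt v0 e) (K + 1) a l :=
            Finset.single_le_sum (f := fun l => lsm (bt v0 e) (K + 1) a l)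
              (fun l _ => hβ0 l) (Finset.mem_Ico.2 ⟨le_rfl, by omega⟩)
          have h10 : lsm (bt v0 e) (K + 1) a K ≤
              ∑ l ∈ Finset.Ico k (K + 1), lsm (bt v0 e) (K + 1) a l :=
            Finset.single_le_sum (f := fun l => lsm (bt v0 e) (K + 1) a l)
              (fun l _ => hβ0 l) (Finset.mem_Ico.2 ⟨hk', by omega⟩)
          have h11 : 0 ≤ ∑ l ∈ Finset.Ico k (K + 1), lsm (bt v0 e) (K + 1) a l :=
            Finset.sum_nonneg fun l _ => hβ0 l
          linarith

/-- **Lemma G.** Approximation of an additive lattice field by a field with values in the cone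
around its total. -/
theorem coneApprox (v0 : Lat d → E d) (K : ℕ) (a : Lat d) : ∃ c0 : Lat d → E d,
    (∀ x, x ∉ blkJ K a → c0 x = 0) ∧ vv c0 K a = vv v0 K a ∧
    (∀ k b, 97 / 100 * ‖vv c0 k b‖ * ‖vv v0 K a‖ ≤ inner ℝ (vv v0 K a) (vv c0 k b)) ∧
    (vv v0 K a = 0 → c0 = 0) ∧
    ∀ k ≤ K, lsm (fun i b => ‖vv (v0 - c0) i b‖) K a k ≤
      40600 * ∑ l ∈ Finset.Ico k K, (lsm (fun i b => ‖vv v0 i b‖) K a l - ‖vv v0 K a‖) := by
  set V := vv v0 K a with hV
  set e : E d := ‖V‖⁻¹ • V with he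
  have he1 : ‖e‖ ≤ 1 := by
    rw [he, norm_smul, norm_inv, norm_norm]
    exact inv_mul_le_one
  have heV : ‖V‖ • e = V := by
    rcases eq_or_ne V 0 with h0 | h0
    · rw [h0]
      simp
    · rw [he, smul_smul, mul_inv_cancel₀ (norm_ne_zero_iff.2 h0), one_smul]
  have heV' : (inner ℝ e V : ℝ) = ‖V‖ := by
    rw [he, inner_smul_left, real_inner_self_eq_norm_mul_norm]
    simp only [conj_trivial]
    rcases eq_or_ne V 0 with h0 | h0
    · rw [h0]
      simp
    · field_simp
  have hpV : InCone e V := by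
    unfold InCone
    rw [heV']
    have := norm_nonneg V
    linarith
  obtain ⟨c0, h1, h2, h3, h4⟩ := aux v0 he1 K a V hpV
  refine ⟨c0, h1, h3, ?_, ?_, ?_⟩
  · intro k b
    have h5 := inCone_vv h2 k b
    unfold InCone at h5
    calc 97 / 100 * ‖vv c0 k b‖ * ‖V‖ ≤ inner ℝ e (vv c0 k b) * ‖V‖ :=
          mul_le_mul_of_nonneg_right h5 (norm_nonneg _)
      _ = ‖V‖ * inner ℝ e (vv c0 k b) := mul_comm _ _
      _ = inner ℝ (‖V‖ • e) (vv c0 k b) := (real_inner_smul_left _ _ _).symm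
      _ = inner ℝ V (vv c0 k b) := by rw [heV]
  · intro h0
    funext x
    have h5 := h2 x
    have h6 : e = 0 := by rw [he, h0, smul_zero]
    unfold InCone at h5
    rw [h6, inner_zero_left] at h5
    have h7 : ‖c0 x‖ ≤ 0 := by linarith
    rw [norm_le_zero_iff.1 h7]
    rfl
  · intro k hk
    refine (h4 k hk).trans ?_
    rw [← hV, sub_self, norm_zero, mul_zero, zero_add]
    refine mul_le_mul_of_nonneg_left (le_of_eq ?_) (by norm_num)
    refine Finset.sum_congr rfl fun l hl => ?_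
    rw [lsm_bt v0 e (Finset.mem_Ico.1 hl).2.le, ← hV, heV']

/-- The cone of half-angle `arccos 0.97` around `V`, seen from a direction close to a unit vector
`e` with `15/16 * ‖V‖ ≤ ⟨e, V⟩`. -/
theorem cone_transfer {e e' V x : E d} (he : ‖e‖ = 1) (hee : ‖e' - e‖ ≤ 1 / 50)
    (hV : 15 / 16 * ‖V‖ ≤ inner ℝ e V) (hV0 : V ≠ 0)
    (hx : 97 / 100 * ‖x‖ * ‖V‖ ≤ inner ℝ V x) : 4 / 5 * ‖x‖ ≤ inner ℝ e' x := by
  have hn : 0 < ‖V‖ := norm_pos_iff.2 hV0
  set u : E d := ‖V‖⁻¹ • V with hu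
  have hu1 : (inner ℝ u u : ℝ) = 1 := by
    rw [hu, real_inner_smul_left, real_inner_smul_right, real_inner_self_eq_norm_mul_norm]
    field_simp
  have hα : 15 / 16 ≤ (inner ℝ e u : ℝ) := by
    rw [hu, real_inner_smul_right, inv_mul_eq_div, le_div_iff₀ hn]
    exact hV
  have hβ : 97 / 100 * ‖x‖ ≤ (inner ℝ u x : ℝ) := by
    rw [hu, real_inner_smul_left, inv_mul_eq_div, le_div_iff₀ hn]
    exact hx
  set α : ℝ := inner ℝ e u with hαd
  set β : ℝ := inner ℝ u x with hβd
  have hαu : (inner ℝ u e : ℝ) = α := real_inner_comm _ _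
  have hβu : (inner ℝ x u : ℝ) = β := real_inner_comm _ _
  have h1 : (inner ℝ (e - α • u) (x - β • u) : ℝ) = inner ℝ e x - α * β := by
    simp only [inner_sub_left, inner_sub_right, real_inner_smul_left, real_inner_smul_right, hu1,
      ← hαd, ← hβd]
    ring
  have he2 : (inner ℝ e e : ℝ) = 1 := by
    rw [real_inner_self_eq_norm_sq, he]
    norm_num
  have h2 : ‖e - α • u‖ ^ 2 = 1 - α ^ 2 := by
    rw [← real_inner_self_eq_norm_sq]
    simp only [inner_sub_left, inner_sub_right, real_inner_smul_left, real_inner_smul_right, hu1,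
      ← hαd, hαu, he2]
    ring
  have h3 : ‖x - β • u‖ ^ 2 = ‖x‖ ^ 2 - β ^ 2 := by
    rw [← real_inner_self_eq_norm_sq, ← real_inner_self_eq_norm_sq]
    simp only [inner_sub_left, inner_sub_right, real_inner_smul_left, real_inner_smul_right, hu1,
      ← hβd, hβu]
    ring
  have hx0 := norm_nonneg x
  have h4 : ‖e - α • u‖ ≤ 7 / 20 := by
    have h5 : ‖e - α • u‖ ^ 2 ≤ (7 / 20) ^ 2 := by
      rw [h2]
      nlinarith
    exact abs_le_of_sq_le_sq' h5 (by norm_num) |>.2
  have h5 : ‖x - β • u‖ ≤ 61 / 250 * ‖x‖ := by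
    have h6 : ‖x - β • u‖ ^ 2 ≤ (61 / 250 * ‖x‖) ^ 2 := by
      rw [h3]
      have h7 : (97 / 100 * ‖x‖) ^ 2 ≤ β ^ 2 :=
        pow_le_pow_left₀ (by positivity) hβ 2
      nlinarith
    exact abs_le_of_sq_le_sq' h6 (by positivity) |>.2
  have h6 : -(7 / 20 * (61 / 250 * ‖x‖)) ≤ (inner ℝ e x : ℝ) - α * β := by
    rw [← h1]
    have h7 := abs_real_inner_le_norm (e - α • u) (x - β • u)
    have h8 : ‖e - α • u‖ * ‖x - β • u‖ ≤ 7 / 20 * (61 / 250 * ‖x‖) :=
      mul_le_mul h4 h5 (norm_nonneg _) (by norm_num)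
    have h9 := (abs_le.1 h7).1
    linarith
  have h7 : 15 / 16 * (97 / 100 * ‖x‖) ≤ α * β :=
    mul_le_mul hα hβ (by positivity) (by linarith)
  have h8 : (inner ℝ e' x : ℝ) = inner ℝ e x + inner ℝ (e' - e) x := by
    rw [inner_sub_left]
    ring
  have h9 : -(1 / 50 * ‖x‖) ≤ (inner ℝ (e' - e) x : ℝ) := by
    have h10 := (abs_le.1 (abs_real_inner_le_norm (e' - e) x)).1
    have h11 : ‖e' - e‖ * ‖x‖ ≤ 1 / 50 * ‖x‖ := mul_le_mul_of_nonneg_right hee hx0
    linarith
  rw [h8]
  linarith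

/-- Lemma G in the form used for blocks. The sum over the cubes of level `k` is written out. -/
theorem coneApprox' (v0 : Lat d → E d) (K : ℕ) (a : Lat d) {e : E d} (he : ‖e‖ = 1)
    (hV : 15 / 16 * ‖vv v0 K a‖ ≤ inner ℝ e (vv v0 K a)) : ∃ c0 : Lat d → E d,
    (∀ x, x ∉ blkJ K a → c0 x = 0) ∧
    (∀ x, ∀ e' : E d, ‖e'‖ = 1 → ‖e' - e‖ ≤ 1 / 50 → 4 / 5 * ‖c0 x‖ ≤ inner ℝ e' (c0 x)) ∧
    vv c0 K a = vv v0 K a ∧
    ∀ k ≤ K, ∑ c ∈ blkJ (K - k) 0, ‖vv (fun x => v0 x - c0 x) k (a + (2 : ℤ) ^ k • c)‖ ≤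
      40600 * ∑ l ∈ Finset.Ico k K,
        ((∑ c ∈ blkJ (K - l) 0, ‖vv v0 l (a + (2 : ℤ) ^ l • c)‖) - ‖vv v0 K a‖) := by
  obtain ⟨c0, h1, h2, h3, h4, h5⟩ := coneApprox v0 K a
  refine ⟨c0, h1, ?_, h2, h5⟩
  intro x e' _ hee
  rcases eq_or_ne (vv v0 K a) 0 with h0 | h0
  · rw [h4 h0]
    simp
  · exact cone_transfer he hee hV h0 (h3 0 x)

end Vale.Agent.P137.U.Cen.Cone
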