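import Vale.Agent.P137.C.Pack

/-!
# P137, centered operator, block II: Lemma G (cone approximation of an additive field)
-/

open MeasureTheory Set
open scoped ENNReal NNReal

namespace Vale.Agent.P137.U.Cen.Cone2

open Vale.Agent.P137 Vale.Agent.P137.U Vale.Agent.P137.U.Cen Vale.Agent.P137.U.Cen.Pack

variable {d : ℕ}

theorem vv_sub' (v c : Lat d → E d) (k : ℕ) (a : Lat d) :
    vv (fun b => v b - c b) k a = vv v k a - vv c k a := by
  induction k generalizing a with
  | zero => rfl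
  | succ k ih =>
    simp only [vv, ih, Finset.sum_sub_distrib]

theorem vv_const (q : E d) (k : ℕ) (a : Lat d) :
    vv (fun _ => q) k a = ((2 : ℝ) ^ d) ^ k • q := by
  induction k generalizing a with
  | zero => simp [vv]
  | succ k ih =>
    simp only [vv, ih, Finset.sum_const, card_offs]
    rw [← Nat.cast_smul_eq_nsmul ℝ, smul_smul]
    congr 1
    push_cast
    ring

theorem nv_const (q : E d) (K : ℕ) : ∀ (a : Lat d) (k : ℕ), k ≤ K →
    nv (fun _ => q) K a k = ((2 : ℝ) ^ d) ^ K * ‖q‖ := by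
  induction K with
  | zero =>
    intro a k hk
    have : k = 0 := by omega
    subst this
    rw [nv_self, vv_const, norm_smul]
    simp
  | succ K ih =>
    intro a k hk
    by_cases h : k = K + 1
    · subst h
      rw [nv_self, vv_const, norm_smul, Real.norm_of_nonneg (by positivity)]
    · have hk' : k ≤ K := by omega
      unfold nv
      rw [lsum_succ_top _ hk']
      have : ∀ b ∈ offs d, lsum (fun k a => ‖vv (fun _ => q) k a‖) K (a + (2 : ℤ) ^ K • b) k =
          ((2 : ℝ) ^ d) ^ K * ‖q‖ := fun b _ => ih _ k hk'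
      rw [Finset.sum_congr rfl this, Finset.sum_const, card_offs, nsmul_eq_mul]
      push_cast
      ring

theorem nv_sub_le (v c : Lat d → E d) (K : ℕ) (a : Lat d) (k : ℕ) :
    nv (fun b => v b - c b) K a k ≤ nv v K a k + nv c K a k := by
  unfold nv lsum
  rw [← Finset.sum_add_distrib]
  apply Finset.sum_le_sum
  intro c' _
  simp only [vv_sub']
  exact norm_sub_le _ _

theorem nv_succ (v : Lat d → E d) (K : ℕ) (a : Lat d) {k : ℕ} (h : k ≤ K) :
    nv v (K + 1) a k = ∑ b ∈ offs d, nv v K (a + (2 : ℤ) ^ K • b) k :=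
  lsum_succ_top _ h a

theorem lsum_congr {F F' : ℕ → Lat d → ℝ} {K : ℕ} {a : Lat d} {k : ℕ}
    (h : ∀ c ∈ blkJ (K - k) (0 : Lat d), F k (a + (2 : ℤ) ^ k • c) = F' k (a + (2 : ℤ) ^ k • c)) :
    lsum F K a k = lsum F' K a k := Finset.sum_congr rfl h

/-- `nv` only depends on the block. -/
theorem nv_congr {v v' : Lat d → E d} {K : ℕ} {a : Lat d}
    (h : ∀ c ∈ blkJ K a, v c = v' c) {k : ℕ} (hk : k ≤ K) : nv v K a k = nv v' K a k := by
  unfold nv
  apply lsum_congr
  intro c hc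
  congr 1
  apply vv_congr
  intro b hb
  apply h
  rw [mem_blkJ] at hc ⊢
  intro i
  have h1 := hc i
  have h2 := hb i
  simp only [Pi.add_apply, Pi.smul_apply, smul_eq_mul, Pi.zero_apply, zero_add] at h1 h2
  have h3 : (2 : ℤ) ^ K = 2 ^ k * 2 ^ (K - k) := by rw [← pow_add, Nat.add_sub_cancel' hk]
  have hp : (0 : ℤ) < 2 ^ k := by positivity
  rw [h3]
  constructor
  · nlinarith [h1.1, h2.1]
  · nlinarith [h1.2, h2.2]

/-- Bad vectors are controlled by the excess. -/
theorem norm_le_we_of_bad {e v : E d} (h : inner ℝ e v < 99 / 100 * ‖v‖) :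
    ‖v‖ ≤ 100 * we e v := by
  unfold we
  linarith

/-- the perturbed vector stays in the cone -/
theorem split_cone {e x h : E d} (he : ‖e‖ = 1) {A : ℝ} (hA0 : 0 ≤ A)
    (hcase : ‖h‖ ≤ 1 / 100 * A) (h1 : 99 / 100 * ‖x‖ ≤ inner ℝ e x) :
    97 / 100 * ‖x + (‖x‖ / A) • h‖ ≤ inner ℝ e (x + (‖x‖ / A) • h) := by
  have h2 : ‖(‖x‖ / A) • h‖ ≤ 1 / 100 * ‖x‖ := by
    rw [norm_smul, Real.norm_of_nonneg (by positivity)]
    by_cases hA' : A = 0
    · rw [hA', div_zero, zero_mul]
      positivity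
    · have hAp : 0 < A := lt_of_le_of_ne hA0 (Ne.symm hA')
      calc ‖x‖ / A * ‖h‖ ≤ ‖x‖ / A * (1 / 100 * A) := by gcongr
        _ = 1 / 100 * ‖x‖ := by field_simp
  have h3 : -(1 / 100 * ‖x‖) ≤ inner ℝ e ((‖x‖ / A) • h) := by
    have h4 := abs_real_inner_le_norm e ((‖x‖ / A) • h)
    rw [he, one_mul] at h4
    exact (abs_le.1 (h4.trans h2)).1
  have h6 : ‖x + (‖x‖ / A) • h‖ ≤ 101 / 100 * ‖x‖ := by
    have := norm_add_le x ((‖x‖ / A) • h)
    linarith
  rw [inner_add_right]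
  have := norm_nonneg x
  linarith

/-- sum of the perturbed vectors -/
theorem split_sum {ι : Type} (s : Finset ι) (x : ι → E d) (p : E d)
    (hcase : ‖p - ∑ b ∈ s, x b‖ ≤ 1 / 100 * ∑ b ∈ s, ‖x b‖) :
    ∑ b ∈ s, (x b + (‖x b‖ / ∑ b ∈ s, ‖x b‖) • (p - ∑ b ∈ s, x b)) = p := by
  rw [Finset.sum_add_distrib, ← Finset.sum_smul, ← Finset.sum_div]
  by_cases hA' : ∑ b ∈ s, ‖x b‖ = 0
  · have h0 : p - ∑ b ∈ s, x b = 0 := by
      rw [hA', mul_zero] at hcase
      exact norm_le_zero_iff.1 hcase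
    rw [h0, smul_zero, add_zero]
    exact (sub_eq_zero.1 h0).symm
  · rw [div_self hA', one_smul]
    abel

/-- distance of the perturbed vectors -/
theorem split_dist {ι : Type} (s : Finset ι) (v x : ι → E d) (h : E d) {A : ℝ}
    (hA : A = ∑ b ∈ s, ‖x b‖) :
    ∑ b ∈ s, ‖v b - (x b + (‖x b‖ / A) • h)‖ ≤ ∑ b ∈ s, ‖v b - x b‖ + ‖h‖ := by
  have hA0 : 0 ≤ A := by rw [hA]; exact Finset.sum_nonneg fun _ _ => norm_nonneg _
  calc ∑ b ∈ s, ‖v b - (x b + (‖x b‖ / A) • h)‖
      ≤ ∑ b ∈ s, (‖v b - x b‖ + ‖x b‖ / A * ‖h‖) := by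
        apply Finset.sum_le_sum
        intro b _
        have h1 : v b - (x b + (‖x b‖ / A) • h) = (v b - x b) - (‖x b‖ / A) • h := by abel
        rw [h1]
        refine (norm_sub_le _ _).trans ?_
        rw [norm_smul, Real.norm_of_nonneg (by positivity)]
    _ = ∑ b ∈ s, ‖v b - x b‖ + A / A * ‖h‖ := by
        rw [Finset.sum_add_distrib, ← Finset.sum_mul, ← Finset.sum_div, ← hA]
    _ ≤ ∑ b ∈ s, ‖v b - x b‖ + 1 * ‖h‖ := by
        gcongr
        exact div_self_le_one A
    _ = _ := by rw [one_mul]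

/-- The one step splitting, with the good parts as data. -/
theorem split_aux {e p : E d} (he : ‖e‖ = 1) {ι : Type} (s : Finset ι) (v x : ι → E d)
    (hx : ∀ b, 99 / 100 * ‖x b‖ ≤ inner ℝ e (x b)) (w : ℝ)
    (hbadsum : ∑ b ∈ s, ‖v b - x b‖ ≤ w) :
    (∃ q : ι → E d, ∑ b ∈ s, q b = p ∧ (∀ b ∈ s, 97 / 100 * ‖q b‖ ≤ inner ℝ e (q b)) ∧
      ∑ b ∈ s, ‖v b - q b‖ ≤ ‖(∑ b ∈ s, v b) - p‖ + 2 * w) ∨
    ‖p‖ ≤ 101 * (‖(∑ b ∈ s, v b) - p‖ + w) := by
  have hA0 : 0 ≤ ∑ b ∈ s, ‖x b‖ := Finset.sum_nonneg fun _ _ => norm_nonneg _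
  have hhn : ‖p - ∑ b ∈ s, x b‖ ≤ ‖(∑ b ∈ s, v b) - p‖ + w := by
    have h1 : p - ∑ b ∈ s, x b = -((∑ b ∈ s, v b) - p) + ∑ b ∈ s, (v b - x b) := by
      rw [Finset.sum_sub_distrib]
      abel
    rw [h1]
    refine (norm_add_le _ _).trans ?_
    rw [norm_neg]
    have h2 : ‖∑ b ∈ s, (v b - x b)‖ ≤ ∑ b ∈ s, ‖v b - x b‖ := norm_sum_le _ _
    linarith
  by_cases hcase : ‖p - ∑ b ∈ s, x b‖ ≤ 1 / 100 * ∑ b ∈ s, ‖x b‖
  · left
    refine ⟨fun b => x b + (‖x b‖ / ∑ b ∈ s, ‖x b‖) • (p - ∑ b ∈ s, x b),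
      split_sum s x p hcase, fun b _ => split_cone he hA0 hcase (hx b), ?_⟩
    have := split_dist s v x (p - ∑ b ∈ s, x b) rfl
    linarith
  · right
    push Not at hcase
    have h1 : ‖p‖ ≤ ‖p - ∑ b ∈ s, x b‖ + ∑ b ∈ s, ‖x b‖ := by
      have h2 : ‖∑ b ∈ s, x b‖ ≤ ∑ b ∈ s, ‖x b‖ := norm_sum_le _ _
      have h3 : ‖p‖ ≤ ‖p - ∑ b ∈ s, x b‖ + ‖∑ b ∈ s, x b‖ := by
        have := norm_add_le (p - ∑ b ∈ s, x b) (∑ b ∈ s, x b)
        rwa [sub_add_cancel] at this
      linarith
    linarith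

/-- The one step splitting. -/
theorem split {e p : E d} (he : ‖e‖ = 1) {ι : Type} (s : Finset ι) (v : ι → E d) :
    (∃ q : ι → E d, ∑ b ∈ s, q b = p ∧ (∀ b ∈ s, 97 / 100 * ‖q b‖ ≤ inner ℝ e (q b)) ∧
      ∑ b ∈ s, ‖v b - q b‖ ≤ ‖(∑ b ∈ s, v b) - p‖ + 2 * (100 * ∑ b ∈ s, we e (v b))) ∨
    ‖p‖ ≤ 101 * (‖(∑ b ∈ s, v b) - p‖ + 100 * ∑ b ∈ s, we e (v b)) := by
  classical
  refine split_aux he s v (fun b => if 99 / 100 * ‖v b‖ ≤ inner ℝ e (v b) then v b else 0)
    ?_ _ ?_
  · intro b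
    split_ifs with h
    · exact h
    · simp
  · rw [Finset.mul_sum]
    refine Finset.sum_le_sum fun b _ => ?_
    split_ifs with hb
    · rw [sub_self, norm_zero]
      have := we_nonneg he.le (v b)
      positivity
    · rw [sub_zero]
      exact norm_le_we_of_bad (not_le.1 hb)

/-- which child contains a point -/
def chld (K : ℕ) (a x : Lat d) : Lat d := fun i => if x i < a i + 2 ^ K then 0 else 1

theorem chld_mem (K : ℕ) (a x : Lat d) : chld K a x ∈ offs d := by
  rw [mem_offs]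
  intro i
  unfold chld
  split_ifs
  · left; rfl
  · right; rfl

theorem chld_eq {K : ℕ} {a b x : Lat d} (hb : b ∈ offs d)
    (hx : x ∈ blkJ K (a + (2 : ℤ) ^ K • b)) : chld K a x = b := by
  rw [mem_offs] at hb
  rw [mem_blkJ] at hx
  funext i
  have h1 := hx i
  simp only [Pi.add_apply, Pi.smul_apply, smul_eq_mul] at h1
  have hp : (0 : ℤ) < 2 ^ K := by positivity
  unfold chld
  rcases hb i with h | h
  · rw [h] at h1 ⊢
    rw [if_pos (by linarith [h1.2])]
  · rw [h] at h1 ⊢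
    rw [if_neg (by linarith [h1.1])]

theorem mem_child {K : ℕ} {a x : Lat d} (hx : x ∈ blkJ (K + 1) a) :
    x ∈ blkJ K (a + (2 : ℤ) ^ K • chld K a x) := by
  rw [mem_blkJ] at hx ⊢
  intro i
  have h1 := hx i
  have hp : (0 : ℤ) < 2 ^ K := by positivity
  have h2 : (2 : ℤ) ^ (K + 1) = 2 * 2 ^ K := by ring
  rw [h2] at h1
  simp only [Pi.add_apply, Pi.smul_apply, smul_eq_mul, chld]
  split_ifs with h
  · constructor <;> linarith [h1.1, h1.2]
  · push Not at h
    constructor <;> linarith [h1.1, h1.2]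

/-- sums of the excess -/
noncomputable def sw (e : E d) (v0 : Lat d → E d) (K : ℕ) (a : Lat d) (l : ℕ) : ℝ :=
  lsum (fun l a => we e (vv v0 l a)) K a l

theorem sw_nonneg {e : E d} (he : ‖e‖ = 1) (v0 : Lat d → E d) (K : ℕ) (a : Lat d) (l : ℕ) :
    0 ≤ sw e v0 K a l := lsum_nonneg (fun _ _ => we_nonneg he.le _) _ _ _

theorem sw_succ (e : E d) (v0 : Lat d → E d) (K : ℕ) (a : Lat d) {l : ℕ} (h : l ≤ K) :
    sw e v0 (K + 1) a l = ∑ b ∈ offs d, sw e v0 K (a + (2 : ℤ) ^ K • b) l :=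
  lsum_succ_top _ h a

theorem sw_top (e : E d) (v0 : Lat d → E d) (K : ℕ) (a : Lat d) :
    sw e v0 (K + 1) a K = ∑ b ∈ offs d, we e (vv v0 K (a + (2 : ℤ) ^ K • b)) := by
  rw [sw_succ e v0 K a le_rfl]
  refine Finset.sum_congr rfl fun b _ => ?_
  exact lsum_self _ _ _

theorem ext {e : E d} (he : ‖e‖ = 1) (v0 : Lat d → E d) : ∀ (K : ℕ) (a : Lat d) (p : E d),
    97 / 100 * ‖p‖ ≤ inner ℝ e p → ∃ c0 : Lat d → E d, vv c0 K a = p ∧
      (∀ b ∈ blkJ K a, 97 / 100 * ‖c0 b‖ ≤ inner ℝ e (c0 b)) ∧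
      ∀ k ≤ K, nv (fun b => v0 b - c0 b) K a k ≤ 203 * ‖vv v0 K a - p‖ +
        40600 * ∑ l ∈ Finset.Ico k K, sw e v0 K a l + (nv v0 K a k - ‖vv v0 K a‖) := by
  intro K
  induction K with
  | zero =>
    intro a p hp
    refine ⟨fun _ => p, rfl, fun _ _ => hp, ?_⟩
    intro k hk
    have : k = 0 := by omega
    subst this
    rw [nv_self, nv_self]
    simp only [vv, Finset.Ico_self, Finset.sum_empty, mul_zero, add_zero, sub_self]
    have := norm_nonneg (v0 a - p)
    linarith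
  | succ K ih =>
    intro a p hp
    -- the top level bound
    have top : ∀ c0 : Lat d → E d, vv c0 (K + 1) a = p →
        nv (fun b => v0 b - c0 b) (K + 1) a (K + 1) ≤ 203 * ‖vv v0 (K + 1) a - p‖ +
        40600 * ∑ l ∈ Finset.Ico (K + 1) (K + 1), sw e v0 (K + 1) a l +
          (nv v0 (K + 1) a (K + 1) - ‖vv v0 (K + 1) a‖) := by
      intro c0 hc0
      rw [nv_self, nv_self, vv_sub', hc0]
      simp only [Finset.Ico_self, Finset.sum_empty, mul_zero, add_zero, sub_self]
      have := norm_nonneg (vv v0 (K + 1) a - p)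
      linarith
    have hsum : vv v0 (K + 1) a = ∑ b ∈ offs d, vv v0 K (a + (2 : ℤ) ^ K • b) := rfl
    have hW := sw_top e v0 K a
    rcases split (p := p) he (offs d) (fun b => vv v0 K (a + (2 : ℤ) ^ K • b)) with
      ⟨q, hq1, hq2, hq3⟩ | hgu
    · -- recursive case
      have h1 : ∀ b ∈ offs d, ∃ c0 : Lat d → E d, vv c0 K (a + (2 : ℤ) ^ K • b) = q b ∧
          (∀ c ∈ blkJ K (a + (2 : ℤ) ^ K • b), 97 / 100 * ‖c0 c‖ ≤ inner ℝ e (c0 c)) ∧
          ∀ k ≤ K, nv (fun c => v0 c - c0 c) K (a + (2 : ℤ) ^ K • b) k ≤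
            203 * ‖vv v0 K (a + (2 : ℤ) ^ K • b) - q b‖ +
            40600 * ∑ l ∈ Finset.Ico k K, sw e v0 K (a + (2 : ℤ) ^ K • b) l +
            (nv v0 K (a + (2 : ℤ) ^ K • b) k - ‖vv v0 K (a + (2 : ℤ) ^ K • b)‖) :=
        fun b hb => ih _ _ (hq2 b hb)
      choose! cc hc1 hc2 hc3 using h1
      let c0 : Lat d → E d := fun x => cc (chld K a x) x
      have hc0 : ∀ b ∈ offs d, ∀ x ∈ blkJ K (a + (2 : ℤ) ^ K • b), c0 x = cc b x := by
        intro b hb x hx
        simp only [c0]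
        rw [chld_eq hb hx]
      have hv : vv c0 (K + 1) a = p := by
        rw [← hq1]
        change ∑ b ∈ offs d, vv c0 K (a + (2 : ℤ) ^ K • b) = _
        refine Finset.sum_congr rfl fun b hb => ?_
        rw [← hc1 b hb]
        apply vv_congr
        intro c hc
        exact hc0 b hb c (mem_blkJ.2 hc)
      refine ⟨c0, hv, ?_, ?_⟩
      · intro x hx
        exact hc2 _ (chld_mem K a x) x (mem_child hx)
      · intro k hk
        by_cases hkK : k = K + 1
        · subst hkK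
          exact top c0 hv
        have hk' : k ≤ K := by omega
        rw [nv_succ _ K a hk', nv_succ v0 K a hk']
        calc ∑ b ∈ offs d, nv (fun c => v0 c - c0 c) K (a + (2 : ℤ) ^ K • b) k
            ≤ ∑ b ∈ offs d, (203 * ‖vv v0 K (a + (2 : ℤ) ^ K • b) - q b‖ +
              40600 * ∑ l ∈ Finset.Ico k K, sw e v0 K (a + (2 : ℤ) ^ K • b) l +
              (nv v0 K (a + (2 : ℤ) ^ K • b) k - ‖vv v0 K (a + (2 : ℤ) ^ K • b)‖)) := by
              apply Finset.sum_le_sum
              intro b hb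
              rw [nv_congr (v := fun c => v0 c - c0 c) (v' := fun c => v0 c - cc b c)
                (fun c hc => by rw [hc0 b hb c hc]) hk']
              exact hc3 b hb k hk'
          _ = 203 * ∑ b ∈ offs d, ‖vv v0 K (a + (2 : ℤ) ^ K • b) - q b‖ +
              40600 * ∑ l ∈ Finset.Ico k K, sw e v0 (K + 1) a l +
              (∑ b ∈ offs d, nv v0 K (a + (2 : ℤ) ^ K • b) k -
                ∑ b ∈ offs d, ‖vv v0 K (a + (2 : ℤ) ^ K • b)‖) := by
              rw [Finset.sum_add_distrib, Finset.sum_add_distrib, Finset.sum_sub_distrib,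
                ← Finset.mul_sum, ← Finset.mul_sum, Finset.sum_comm]
              congr 3
              refine Finset.sum_congr rfl fun l hl => ?_
              rw [sw_succ e v0 K a (Finset.mem_Ico.1 hl).2.le]
          _ ≤ _ := by
              rw [Finset.sum_Ico_succ_top hk', hW]
              have h2 : ‖vv v0 (K + 1) a‖ ≤ ∑ b ∈ offs d, ‖vv v0 K (a + (2 : ℤ) ^ K • b)‖ :=
                norm_vv_succ_le _ _ _
              rw [hsum] at h2 ⊢
              linarith
    · -- give up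
      let q : E d := (((2 : ℝ) ^ d) ^ (K + 1))⁻¹ • p
      have hpos : (0 : ℝ) < ((2 : ℝ) ^ d) ^ (K + 1) := by positivity
      have hv : vv (fun _ => q) (K + 1) a = p := by
        rw [vv_const, smul_smul, mul_inv_cancel₀ hpos.ne', one_smul]
      refine ⟨fun _ => q, hv, ?_, ?_⟩
      · intro x _
        simp only [q]
        rw [norm_smul, inner_smul_right, Real.norm_of_nonneg (by positivity)]
        have : (0 : ℝ) ≤ (((2 : ℝ) ^ d) ^ (K + 1))⁻¹ := by positivity
        nlinarith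
      · intro k hk
        by_cases hkK : k = K + 1
        · subst hkK
          exact top _ hv
        have hk' : k ≤ K := by omega
        have h1 : nv (fun b => v0 b - (fun _ => q) b) (K + 1) a k ≤
            nv v0 (K + 1) a k + ‖p‖ := by
          refine (nv_sub_le v0 (fun _ => q) _ _ _).trans ?_
          rw [nv_const q (K + 1) a k hk]
          simp only [q]
          rw [norm_smul, Real.norm_of_nonneg (by positivity), ← mul_assoc,
            mul_inv_cancel₀ hpos.ne', one_mul]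
        have h2 : ‖vv v0 (K + 1) a‖ ≤ ‖vv v0 (K + 1) a - p‖ + ‖p‖ := by
          calc ‖vv v0 (K + 1) a‖ = ‖(vv v0 (K + 1) a - p) + p‖ := by rw [sub_add_cancel]
            _ ≤ _ := norm_add_le _ _
        have h3 : ∑ b ∈ offs d, we e (vv v0 K (a + (2 : ℤ) ^ K • b)) ≤
            ∑ l ∈ Finset.Ico k (K + 1), sw e v0 (K + 1) a l := by
          rw [← hW]
          exact Finset.single_le_sum (f := fun l => sw e v0 (K + 1) a l)
            (fun l _ => sw_nonneg he _ _ _ _) (Finset.mem_Ico.2 ⟨hk', Nat.lt_succ_self K⟩)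
        have h4 : 0 ≤ ∑ b ∈ offs d, we e (vv v0 K (a + (2 : ℤ) ^ K • b)) :=
          Finset.sum_nonneg fun b _ => we_nonneg he.le _
        rw [← hsum] at hgu
        linarith

/-- Lemma G. -/
theorem lemG (d : ℕ) : LemG d := by
  refine ⟨40601, by norm_num, ?_⟩
  intro v0 K a
  by_cases hv : vv v0 K a = 0
  · refine ⟨fun _ => 0, ?_, ?_, fun _ _ _ => rfl, ?_⟩
    · rw [hv, vv_const, smul_zero]
    · intro b _
      simp
    · intro k hk
      rw [nv_self, hv, norm_zero]
      simp only [sub_zero]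
      have h1 : nv (fun b => v0 b - 0) K a k = nv v0 K a k := by simp
      have h2 : nv v0 K a k ≤ ∑ l ∈ Finset.Icc k K, nv v0 K a l :=
        Finset.single_le_sum (f := fun l => nv v0 K a l) (fun l _ => nv_nonneg _ _ _ _)
          (Finset.mem_Icc.2 ⟨le_rfl, hk⟩)
      have h3 : 0 ≤ ∑ l ∈ Finset.Icc k K, nv v0 K a l :=
        Finset.sum_nonneg fun l _ => nv_nonneg _ _ _ _
      linarith
  · have hn : 0 < ‖vv v0 K a‖ := norm_pos_iff.2 hv
    set e : E d := ‖vv v0 K a‖⁻¹ • vv v0 K a with he_def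
    have he : ‖e‖ = 1 := by
      rw [he_def, norm_smul, norm_inv, norm_norm, inv_mul_cancel₀ hn.ne']
    have hin : inner ℝ e (vv v0 K a) = ‖vv v0 K a‖ := by
      rw [he_def, inner_smul_left, real_inner_self_eq_norm_sq]
      simp only [conj_trivial]
      field_simp
    obtain ⟨c0, h1, h2, h3⟩ := ext he v0 K a (vv v0 K a) (by rw [hin]; linarith)
    refine ⟨c0, h1, ?_, fun h => absurd h hv, ?_⟩
    · intro b hb
      have h4 := h2 b hb
      have h5 : inner ℝ (vv v0 K a) (c0 b) = ‖vv v0 K a‖ * inner ℝ e (c0 b) := by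
        rw [he_def, inner_smul_left]
        simp only [conj_trivial]
        field_simp
      rw [h5]
      nlinarith
    · intro k hk
      have h4 := h3 k hk
      rw [sub_self, norm_zero, mul_zero, zero_add] at h4
      have h5 : ∀ l ≤ K, sw e v0 K a l = nv v0 K a l - nv v0 K a K := by
        intro l hl
        rw [nv_self]
        -- additivity of the inner product
        have h6 : ∀ (K : ℕ) (a : Lat d) (l : ℕ), l ≤ K →
            lsum (fun l a => inner ℝ e (vv v0 l a)) K a l = inner ℝ e (vv v0 K a) := by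
          intro K
          induction K with
          | zero =>
            intro a l hl
            have : l = 0 := by omega
            subst this
            exact lsum_self _ _ _
          | succ K ih =>
            intro a l hl
            by_cases hlK : l = K + 1
            · subst hlK
              exact lsum_self _ _ _
            · rw [lsum_succ_top _ (by omega : l ≤ K)]
              have h7 : ∀ b ∈ offs d, lsum (fun l a => inner ℝ e (vv v0 l a)) K
                  (a + (2 : ℤ) ^ K • b) l = inner ℝ e (vv v0 K (a + (2 : ℤ) ^ K • b)) :=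
                fun b _ => ih _ l (by omega)
              rw [Finset.sum_congr rfl h7]
              change _ = inner ℝ e (∑ b ∈ offs d, vv v0 K (a + (2 : ℤ) ^ K • b))
              rw [inner_sum]
        have h8 := h6 K a l hl
        rw [hin] at h8
        rw [← h8]
        unfold sw nv lsum we
        rw [← Finset.sum_sub_distrib]
      have h9 : ∑ l ∈ Finset.Ico k K, sw e v0 K a l ≤
          ∑ l ∈ Finset.Icc k K, (nv v0 K a l - nv v0 K a K) := by
        rw [Finset.sum_congr rfl (fun l hl => h5 l (Finset.mem_Ico.1 hl).2.le)]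
        apply Finset.sum_le_sum_of_subset_of_nonneg Finset.Ico_subset_Icc_self
        intro l hl _
        rw [← h5 l (Finset.mem_Icc.1 hl).2]
        exact sw_nonneg he _ _ _ _
      have h10 : nv v0 K a k - ‖vv v0 K a‖ ≤
          ∑ l ∈ Finset.Icc k K, (nv v0 K a l - nv v0 K a K) := by
        rw [← nv_self v0 K a]
        exact Finset.single_le_sum (f := fun l => nv v0 K a l - nv v0 K a K)
          (fun l hl => by
            rw [← h5 l (Finset.mem_Icc.1 hl).2]
            exact sw_nonneg he _ _ _ _) (Finset.mem_Icc.2 ⟨le_rfl, hk⟩)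
      linarith

end Vale.Agent.P137.U.Cen.Cone2
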