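import Vale.Agent.P137.C.Cu

/-!
# P137, centered operator, block VII-b: from the per-tree estimate to the scaled core estimate

`core_scaled_c` : conditional on `SpecPerTree`, `SpecForest`, `SpecOrigin`.
-/

open MeasureTheory Set Filter Topology
open scoped ENNReal NNReal

namespace Vale.Agent.P137.U.Cen

open Vale.Agent.P137 Vale.Agent.P137.U

variable {d : ℕ}

theorem el_congr {lam : ℝ} {v0 v0' : Lat d → E d} {m0 m0' : Lat d → ℝ} {k : ℕ} {a : Lat d}
    (h : ∀ c : Lat d, (∀ i, a i ≤ c i ∧ c i < a i + 2 ^ k) → v0 c = v0' c)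
    (h' : ∀ c : Lat d, (∀ i, a i ≤ c i ∧ c i < a i + 2 ^ k) → m0 c = m0' c) :
    el lam v0 m0 k a = el lam v0' m0' k a := by
  induction k generalizing a with
  | zero =>
    exact h' a fun i => ⟨le_rfl, by simp only [pow_zero, lt_add_iff_pos_right, zero_lt_one]⟩
  | succ k ih =>
    have hv : ∀ b ∈ offs d, vv v0 k (a + (2 : ℤ) ^ k • b) = vv v0' k (a + (2 : ℤ) ^ k • b) :=
      fun b hb => vv_congr fun c hc => h c (child_range hb hc)
    have hd' : dl v0 k a = dl v0' k a := by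
      simp only [dl]
      congr 1
      · exact Finset.sum_congr rfl fun b hb => by rw [hv b hb]
      · rw [vv_congr (k := k + 1) h]
    simp only [el, hd']
    congr 2
    refine Finset.sum_congr rfl fun b hb => ih (fun c hc => h c (child_range hb hc))
      (fun c hc => h' c (child_range hb hc))

/-- translation of `cu` -/
theorem core_cu_shift (f : E d → ℝ) (p : E d) (R : ℝ) (x : E d) :
    cu (fun x => f (x + p)) (fun _ => 1) R x = cu f (fun _ => 1) R (x + p) := by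
  unfold cu
  congr 1
  ext t
  simp only [mem_ofPred_eq, core_avg_shift]

theorem core_cT_le {f : E d → ℝ} (hf : Continuous f) (hfc : HasCompactSupport f)
    {W : Finset (ℕ × Lat d)} {kT K : ℕ} (hk : kT ≤ K) (x : E d) :
    cT f W kT x ≤ cu f (fun _ => 1) (2 * 2 ^ K) x := by
  obtain ⟨r, h1, h2, h4, -⟩ := cT_attained hf hfc W kT x
  have h5 : (2 : ℝ) ^ kT ≤ 2 ^ K := pow_le_pow_right₀ (by norm_num) hk
  rw [← h4]
  exact avg_le_cu (D := fun _ => 1) hf hfc ((core_one_le_DW W kT x).trans h1)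
    (by linarith only [h2, h5])

theorem core_cu_lipschitz {f : E d → ℝ} {L : ℝ≥0} (hf : LipschitzWith L f)
    (hfc : HasCompactSupport f) (K : ℕ) :
    LipschitzWith (2 * L) (cu f (fun _ => 1) (2 * 2 ^ K)) := by
  have h1 : (1 : ℝ) ≤ 2 ^ K := one_le_pow₀ (by norm_num)
  refine cu_lipschitz hf hfc (κ := 0) zero_le_one (LipschitzWith.const 1)
    (fun _ => by linarith only [h1])

theorem core_one_c (hforest' : SpecForest d) (htree' : SpecPerTree d) :
    ∃ C : ℝ≥0, ∀ (f : E d → ℝ), ContDiff ℝ 1 f →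
    HasCompactSupport f → ∀ (K : ℕ) (S : Set (E d)), MeasurableSet S →
    ∀ (v0 : Lat d → E d) (m0 : Lat d → ℝ), (∀ a, ‖v0 a‖ ≤ m0 a) →
    (∀ x ∈ S, ∀ c : Lat d, (∀ i, |x i - c i| ≤ 34 * 2 ^ K) →
      v0 c = v0f (gradient f) c ∧ m0 c = m0f (gradient f) c) →
    ∫⁻ x in S, ‖fderiv ℝ (cu f (fun _ => 1) (2 * 2 ^ K)) x‖ₑ ≤
      C * (∑' a, ENNReal.ofReal (m0 a) +
        ∑ k ∈ Finset.range (K + 1), ∑' n, ENNReal.ofReal (eJl (99 / 100) v0 m0 k n)) := by
  obtain ⟨C2, hforest⟩ := hforest'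
  obtain ⟨C3, htree⟩ := htree'
  refine ⟨C3 * C2, fun f hf hfc K S hS v0 m0 hv hloc => ?_⟩
  obtain ⟨tops, e, W, htops, hcov, hsum⟩ := hforest K v0 m0 hv
  obtain ⟨L, hL⟩ := ContDiff.lipschitzWith_of_hasCompactSupport hfc hf one_ne_zero
  set u := cu f (fun _ => 1) (2 * 2 ^ K) with hu
  -- relevant tops
  let rel : Set (ℕ × Lat d) :=
    {T | T ∈ tops ∧ ∃ x ∈ S, x ∈ cube K (co K (anc (K - T.1) T.2))}
  have hWne : ∀ T ∈ tops, (W T).Nonempty := fun T hT => ⟨_, (htops T hT).2.top_mem⟩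
  -- on relevant tops the truncated field is the true field
  have hagree : ∀ T ∈ rel, ∀ Q ∈ W T,
      vJ v0 Q.1 Q.2 = vJ (v0f (gradient f)) Q.1 Q.2 ∧
      eJl (99 / 100) v0 m0 Q.1 Q.2 =
        eJl (99 / 100) (v0f (gradient f)) (m0f (gradient f)) Q.1 Q.2 := by
    rintro T ⟨hT, x, hxS, hxc⟩ Q hQ
    obtain ⟨hTK, htr⟩ := htops T hT
    have hq : Q.1 ≤ T.1 := htr.le_top Q hQ
    have hanc : anc (K - Q.1) Q.2 = anc (K - T.1) T.2 := by
      rw [← htr.anc_top Q hQ, core_anc_anc]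
      congr 1; (clear * - hTK hq; omega)
    have hc : ∀ c : Lat d, (∀ i, bc Q.1 Q.2 i ≤ c i ∧ c i < bc Q.1 Q.2 i + 2 ^ (Q.1 + 6)) →
        v0 c = v0f (gradient f) c ∧ m0 c = m0f (gradient f) c := fun c hcc =>
      hloc x hxS c (core_loc (hq.trans hTK) hanc hxc hcc)
    exact ⟨vv_congr fun c hcc => (hc c hcc).1,
      el_congr (fun c hcc => (hc c hcc).1) (fun c hcc => (hc c hcc).2)⟩
  have htree' : ∀ T ∈ rel, ∫⁻ x in cube T.1 (co T.1 T.2), ‖fderiv ℝ (cT f (W T) T.1) x‖ₑ ≤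
      C3 * (ENNReal.ofReal ‖vJ v0 T.1 T.2‖ +
        ∑ Q ∈ W T, ENNReal.ofReal (eJl (99 / 100) v0 m0 Q.1 Q.2)) := by
    intro T hT
    have htr := (htops T hT.1).2
    have htr' : IsTree (v0f (gradient f)) T.1 T.2 (e T) (W T) :=
      { norm_e := htr.norm_e
        top_mem := htr.top_mem
        le_top := htr.le_top
        anc_top := htr.anc_top
        parent := htr.parent
        cone := fun Q hQ => by
          rw [← (hagree T hT Q hQ).1]
          exact htr.cone Q hQ }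
    refine (htree f hf hfc T.1 T.2 (e T) (W T) htr').trans (le_of_eq ?_)
    have e1 := (hagree T hT _ htr.top_mem).1
    have e2 : ∑ Q ∈ W T, ENNReal.ofReal (eJl (99 / 100) v0 m0 Q.1 Q.2) =
        ∑ Q ∈ W T, ENNReal.ofReal
          (eJl (99 / 100) (v0f (gradient f)) (m0f (gradient f)) Q.1 Q.2) :=
      Finset.sum_congr rfl fun Q hQ => by rw [(hagree T hT Q hQ).2]
    simp only at e1
    rw [e1, e2]
  -- pointwise bound
  have hcount : Countable tops := Set.to_countable tops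
  have hdiff : ∀ᵐ x : E d, DifferentiableAt ℝ u x ∧
      ∀ T : tops, DifferentiableAt ℝ (cT f (W T.1) T.1.1) x := by
    have h1 : ∀ᵐ x : E d, DifferentiableAt ℝ u x := (core_cu_lipschitz hL hfc K).ae_differentiableAt
    have h2 : ∀ᵐ x : E d, ∀ T : tops, DifferentiableAt ℝ (cT f (W T.1) T.1.1) x := by
      rw [ae_all_iff]
      intro T
      exact (cT_lipschitz hL hfc (hWne T.1 T.2) T.1.1).ae_differentiableAt
    filter_upwards [h1, h2] with x hx1 hx2 using ⟨hx1, hx2⟩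
  have hpt : ∀ᵐ x ∂(volume.restrict S), ‖fderiv ℝ u x‖ₑ ≤ ∑' T : rel,
      (cube T.1.1 (co T.1.1 T.1.2)).indicator (fun x => ‖fderiv ℝ (cT f (W T.1) T.1.1) x‖ₑ) x := by
    filter_upwards [ae_restrict_of_ae hdiff, ae_restrict_mem hS] with x hx hxS
    obtain ⟨hxu, hxT⟩ := hx
    have h2K : (1 : ℝ) ≤ 2 ^ K := one_le_pow₀ (by norm_num)
    obtain ⟨r, h1, h2, h4⟩ := cu_attained (D := fun _ : E d => 1) (R := 2 * 2 ^ K)
      hf.continuous hfc (x := x) (by linarith only [h2K])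
    obtain ⟨k, hkK, hk1, hk2⟩ := core_level h1 h2
    obtain ⟨n, hn, -⟩ := existsUnique_cell k x
    obtain ⟨T, hT, hkT, hancT, n', hn', hnn'⟩ := hcov k hkK n
    have hTK := (htops T hT).1
    have hxT' : x ∈ cube T.1 (co T.1 T.2) := by
      have := mem_cell_anc (j := T.1 - k) hn
      rw [hancT] at this
      have e1 : k + (T.1 - k) = T.1 := by (clear * - hkT; omega)
      rwa [e1] at this
    have hxK : x ∈ cube K (co K (anc (K - T.1) T.2)) := by
      have := mem_cell_anc (j := K - T.1) hxT'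
      have e1 : T.1 + (K - T.1) = K := by (clear * - hTK; omega)
      rwa [e1] at this
    have hrel : T ∈ rel := ⟨hT, x, hxS, hxK⟩
    have hDr : DW (W T) T.1 x ≤ r := by
      unfold DW
      refine max_le h1 ((min_le_left _ _).trans ?_)
      have hs : 0 ≤ √(d : ℝ) := Real.sqrt_nonneg _
      have hk0 : (0 : ℝ) < 2 ^ k := by (clear * -; positivity)
      have h5 : dW (W T) x ≤ (101 * √d + 2) * r := by
        refine (core_dW_le hn' x).trans ?_
        have h6 : ‖x - pt (co k n')‖ ≤ √d * (101 * 2 ^ k) := by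
          refine norm_le_of_abs_apply_le (by (clear * -; positivity)) fun i => ?_
          have h7 := hn i
          have h8 := hnn' i
          have h9 : (x - pt (co k n')) i = x i - 2 ^ k * n' i := by
            simp [pt_apply, co]
          have h10a : (2 : ℝ) ^ k * n i ≤ x i := by
            have := h7.1; unfold co at this; push_cast at this; exact this
          have h10b : x i < (2 : ℝ) ^ k * n i + 2 ^ k := by
            have := h7.2; unfold co at this; push_cast at this; exact this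
          have h11 : |(n i : ℝ) - n' i| ≤ 100 := by exact_mod_cast h8
          rw [abs_le] at h11
          rw [h9, abs_le]
          constructor <;> nlinarith only [h10a, h10b, h11]
        simp only
        nlinarith only [hk1, hs, h6, hk0]
      calc kap d * dW (W T) x ≤ kap d * ((101 * √d + 2) * r) :=
            mul_le_mul_of_nonneg_left h5 (core_kap_pos d).le
        _ = r := by rw [← mul_assoc, core_kap_mul, one_mul]
    have hle : ∀ z, cT f (W T) T.1 z ≤ u z := core_cT_le hf.continuous hfc hTK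
    have hge : u x ≤ cT f (W T) T.1 x := by
      rw [hu, ← h4]
      have h5 : (2 : ℝ) ^ k ≤ 2 ^ T.1 := pow_le_pow_right₀ (by norm_num) hkT
      exact avg_le_cT hf.continuous hfc hDr (by linarith only [hk2, h5])
    rw [core_fderiv_eq hle hge hxu (hxT ⟨T, hT⟩)]
    refine le_trans ?_ (ENNReal.le_tsum (⟨T, hrel⟩ : rel))
    simp only [indicator_of_mem hxT', le_refl]
  have hrelc : Countable rel := Set.to_countable rel
  calc ∫⁻ x in S, ‖fderiv ℝ u x‖ₑ
      ≤ ∫⁻ x in S, ∑' T : rel, (cube T.1.1 (co T.1.1 T.1.2)).indicator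
          (fun x => ‖fderiv ℝ (cT f (W T.1) T.1.1) x‖ₑ) x := lintegral_mono_ae hpt
    _ ≤ ∫⁻ x, ∑' T : rel, (cube T.1.1 (co T.1.1 T.1.2)).indicator
          (fun x => ‖fderiv ℝ (cT f (W T.1) T.1.1) x‖ₑ) x := setLIntegral_le_lintegral _ _
    _ = ∑' T : rel, ∫⁻ x, (cube T.1.1 (co T.1.1 T.1.2)).indicator
          (fun x => ‖fderiv ℝ (cT f (W T.1) T.1.1) x‖ₑ) x := by
        refine lintegral_tsum fun T => ?_
        refine (Measurable.indicator ?_ (measurableSet_cube _ _)).aemeasurable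
        exact (measurable_fderiv ℝ _).enorm
    _ = ∑' T : rel, ∫⁻ x in cube T.1.1 (co T.1.1 T.1.2),
          ‖fderiv ℝ (cT f (W T.1) T.1.1) x‖ₑ := by
        refine tsum_congr fun T => ?_
        rw [lintegral_indicator (measurableSet_cube _ _)]
    _ ≤ ∑' T : rel, C3 * (ENNReal.ofReal ‖vJ v0 T.1.1 T.1.2‖ +
        ∑ Q ∈ W T.1, ENNReal.ofReal (eJl (99 / 100) v0 m0 Q.1 Q.2)) :=
        ENNReal.tsum_le_tsum fun T => htree' T.1 T.2
    _ = C3 * ∑' T : rel, (ENNReal.ofReal ‖vJ v0 T.1.1 T.1.2‖ +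
        ∑ Q ∈ W T.1, ENNReal.ofReal (eJl (99 / 100) v0 m0 Q.1 Q.2)) := ENNReal.tsum_mul_left
    _ ≤ C3 * ∑' T : tops, (ENNReal.ofReal ‖vJ v0 T.1.1 T.1.2‖ +
        ∑ Q ∈ W T.1, ENNReal.ofReal (eJl (99 / 100) v0 m0 Q.1 Q.2)) := by
        refine mul_le_mul_right ?_ _
        exact ENNReal.tsum_mono_subtype (fun T : ℕ × Lat d => (ENNReal.ofReal ‖vJ v0 T.1 T.2‖ +
          ∑ Q ∈ W T, ENNReal.ofReal (eJl (99 / 100) v0 m0 Q.1 Q.2))) (fun T hT => hT.1)
    _ ≤ C3 * (C2 * (∑' a, ENNReal.ofReal (m0 a) +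
        ∑ k ∈ Finset.range (K + 1), ∑' n, ENNReal.ofReal (eJl (99 / 100) v0 m0 k n))) :=
        mul_le_mul_right hsum _
    _ = _ := by rw [ENNReal.coe_mul, mul_assoc]

theorem core_local_c (hforest : SpecForest d) (horigin' : SpecOrigin d)
    (htree : SpecPerTree d) : ∃ C C' : ℝ≥0, ∀ (f : E d → ℝ),
    ContDiff ℝ 1 f → HasCompactSupport f → ∀ (K : ℕ) (S : Set (E d)), MeasurableSet S →
    ∫⁻ x in S, ‖fderiv ℝ (cu f (fun _ => 1) (2 * 2 ^ K)) x‖ₑ ≤
      C * ∫⁻ x in Metric.thickening (C' * 2 ^ K) S, ‖fderiv ℝ f x‖ₑ := by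
  classical
  obtain ⟨C1, horigin⟩ := horigin'
  obtain ⟨C, hone⟩ := core_one_c hforest htree
  refine ⟨C * (1 + C1), ⟨35 * √d + 1, by positivity⟩, fun f hf hfc K S hS => ?_⟩
  set g := gradient f with hg
  have hgi : Integrable g := core_integrable_gradient hf hfc
  set A : Set (Lat d) := {a | ∃ x ∈ S, ∀ i, |x i - a i| ≤ 34 * 2 ^ K} with hA
  set v0 : Lat d → E d := A.indicator (v0f g) with hv0
  set m0 : Lat d → ℝ := A.indicator (m0f g) with hm0
  set U := Metric.thickening (((⟨35 * √d + 1, by positivity⟩ : ℝ≥0) : ℝ) * 2 ^ K) S with hU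
  have h2K : (1 : ℝ) ≤ 2 ^ K := one_le_pow₀ (by norm_num)
  have hsd : 0 ≤ √(d : ℝ) := Real.sqrt_nonneg _
  have hvm : ∀ a, ‖v0 a‖ ≤ m0 a := by
    intro a
    by_cases ha : a ∈ A
    · rw [hv0, hm0, indicator_of_mem ha, indicator_of_mem ha]
      exact norm_v0f_le g a
    · rw [hv0, hm0, indicator_of_notMem ha, indicator_of_notMem ha, norm_zero]
  have hms : Summable m0 := by
    rw [hm0]
    exact (summable_m0f hgi).indicator A
  -- Step 1
  have hstep1 : ∑' a, ENNReal.ofReal (m0 a) ≤ ∫⁻ x in U, ‖fderiv ℝ f x‖ₑ := by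
    have hUo : MeasurableSet U := Metric.isOpen_thickening.measurableSet
    have hgU : Integrable (U.indicator g) := hgi.indicator hUo
    have h1 := tsum_m0f hgU
    have h2 : ∫⁻ x, ‖U.indicator g x‖ₑ = ∫⁻ x in U, ‖fderiv ℝ f x‖ₑ := by
      rw [← lintegral_indicator hUo]
      refine lintegral_congr fun x => ?_
      by_cases hx : x ∈ U
      · rw [indicator_of_mem hx, indicator_of_mem hx, hg, core_enorm_gradient]
      · rw [indicator_of_notMem hx, indicator_of_notMem hx, enorm_zero]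
    rw [← h2, ← h1]
    refine ENNReal.tsum_le_tsum fun a => ENNReal.ofReal_le_ofReal ?_
    by_cases ha : a ∈ A
    · rw [hm0, indicator_of_mem ha]
      unfold m0f
      refine le_of_eq (setIntegral_congr_fun (measurableSet_cube 0 a) fun z hz => ?_)
      rw [indicator_of_mem]
      obtain ⟨x, hxS, hx⟩ := ha
      rw [hU, Metric.mem_thickening_iff]
      refine ⟨x, hxS, ?_⟩
      have h3 : ‖z - x‖ ≤ √d * (35 * 2 ^ K) := by
        refine norm_le_of_abs_apply_le (by (clear * -; positivity)) fun i => ?_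
        have h4 := hz i
        have h5 := hx i
        rw [pow_zero] at h4
        have h6 : (z - x) i = z i - x i := rfl
        rw [abs_le] at h5
        rw [h6, abs_le]
        constructor <;> linarith only [h2K, h4.1, h5.2, h4.2, h5.1]
      rw [dist_eq_norm]
      refine lt_of_le_of_lt h3 ?_
      have : ((⟨35 * √d + 1, by positivity⟩ : ℝ≥0) : ℝ) = 35 * √d + 1 := rfl
      rw [this]
      linarith only [h2K]
    · rw [hm0, indicator_of_notMem ha]
      exact m0f_nonneg _ _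
  -- Step 2
  have hstep2 : ∀ ω : Lat d, ∫⁻ x in S, ‖fderiv ℝ (cu f (fun _ => 1) (2 * 2 ^ K)) x‖ₑ ≤
      C * (∑' a, ENNReal.ofReal (m0 a) + ∑ k ∈ Finset.range (K + 1), ∑' n : Lat d,
        ENNReal.ofReal (eJl (99 / 100) (fun a => v0 (a + ω)) (fun a => m0 (a + ω)) k n)) := by
    intro ω
    set fω : E d → ℝ := fun x => f (x + pt ω) with hfω
    have hfω1 : ContDiff ℝ 1 fω := hf.comp (contDiff_id.add contDiff_const)
    have hfω2 : HasCompactSupport fω := hfc.comp_homeomorph (Homeomorph.addRight (pt ω))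
    have hgω : gradient fω = fun x => g (x + pt ω) := by
      funext x
      exact core_gradient_shift f (pt ω) x
    have hmeas : MeasurableSet ((fun x : E d => x + pt ω) ⁻¹' S) :=
      hS.preimage (measurable_add_const _)
    have h1 := hone fω hfω1 hfω2 K ((fun x : E d => x + pt ω) ⁻¹' S) hmeas
      (fun a => v0 (a + ω)) (fun a => m0 (a + ω)) (fun a => hvm (a + ω)) ?_
    · have h2 : ∑' a, ENNReal.ofReal (m0 (a + ω)) = ∑' a, ENNReal.ofReal (m0 a) :=
        (Equiv.addRight ω).tsum_eq (fun a => ENNReal.ofReal (m0 a))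
      have h3 : ∫⁻ x in (fun x : E d => x + pt ω) ⁻¹' S,
          ‖fderiv ℝ (cu fω (fun _ => 1) (2 * 2 ^ K)) x‖ₑ =
          ∫⁻ x in S, ‖fderiv ℝ (cu f (fun _ => 1) (2 * 2 ^ K)) x‖ₑ := by
        have h4 : cu fω (fun _ => 1) (2 * 2 ^ K) =
            fun x => cu f (fun _ => 1) (2 * 2 ^ K) (x + pt ω) := by
          funext x
          exact core_cu_shift f (pt ω) _ x
        have h5 : ∀ x, ‖fderiv ℝ (cu fω (fun _ => 1) (2 * 2 ^ K)) x‖ₑ =
            (fun z => ‖fderiv ℝ (cu f (fun _ => 1) (2 * 2 ^ K)) z‖ₑ) (x + pt ω) := by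
          intro x
          rw [h4, fderiv_comp_add_right]
        simp_rw [h5]
        exact (measurePreserving_add_right volume (pt ω)).setLIntegral_comp_preimage hS
          (measurable_fderiv ℝ _).enorm
      rw [h2, h3] at h1
      exact h1
    · intro x hx c hc
      have hcA : c + ω ∈ A := by
        refine ⟨x + pt ω, hx, fun i => ?_⟩
        have : (x + pt ω) i - ((c + ω) i : ℤ) = x i - c i := by
          have h6 : (x + pt ω) i = x i + ω i := rfl
          have h7 : (c + ω) i = c i + ω i := rfl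
          rw [h6, h7]; push_cast; ring
        rw [this]
        exact hc i
      rw [hv0, hm0, indicator_of_mem hcA, indicator_of_mem hcA, hgω, v0f_shift, m0f_shift]
      exact ⟨rfl, rfl⟩
  -- Step 3
  set I := ∫⁻ x in S, ‖fderiv ℝ (cu f (fun _ => 1) (2 * 2 ^ K)) x‖ₑ with hI
  set P := Fintype.piFinset (fun _ : Fin d => Finset.Ico (0 : ℤ) (2 ^ K)) with hP
  have hcard : ((P.card : ℕ) : ℝ≥0∞) = 2 ^ (K * d) := by
    rw [hP, Fintype.card_piFinset]
    simp only [Int.card_Ico, sub_zero, Finset.prod_const, Finset.card_univ, Fintype.card_fin]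
    have : ((2 : ℤ) ^ K).toNat = 2 ^ K := by
      have h : ((2 : ℤ) ^ K) = ((2 ^ K : ℕ) : ℤ) := by push_cast; rfl
      rw [h, Int.toNat_natCast]
    rw [this, ← pow_mul]
    push_cast
    rfl
  have hsum : (2 : ℝ≥0∞) ^ (K * d) * I ≤
      2 ^ (K * d) * (C * ((1 + C1) * ∑' a, ENNReal.ofReal (m0 a))) := by
    calc (2 : ℝ≥0∞) ^ (K * d) * I = ∑ ω ∈ P, I := by
          rw [Finset.sum_const, nsmul_eq_mul, hcard]
      _ ≤ ∑ ω ∈ P, (C * (∑' a, ENNReal.ofReal (m0 a) + ∑ k ∈ Finset.range (K + 1), ∑' n : Lat d,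
            ENNReal.ofReal (eJl (99 / 100) (fun a => v0 (a + ω)) (fun a => m0 (a + ω)) k n))) :=
          Finset.sum_le_sum fun ω _ => hstep2 ω
      _ = C * (2 ^ (K * d) * ∑' a, ENNReal.ofReal (m0 a) +
            ∑ ω ∈ P, ∑ k ∈ Finset.range (K + 1), ∑' n : Lat d,
            ENNReal.ofReal (eJl (99 / 100) (fun a => v0 (a + ω)) (fun a => m0 (a + ω)) k n)) := by
          rw [← Finset.mul_sum, Finset.sum_add_distrib, Finset.sum_const, nsmul_eq_mul, hcard]
      _ ≤ C * (2 ^ (K * d) * ∑' a, ENNReal.ofReal (m0 a) +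
            C1 * 2 ^ (K * d) * ∑' a, ENNReal.ofReal (m0 a)) := by
          gcongr
          exact horigin K v0 m0 hvm hms
      _ = 2 ^ (K * d) * (C * ((1 + C1) * ∑' a, ENNReal.ofReal (m0 a))) := by ring
  have hI2 : I ≤ C * ((1 + C1) * ∑' a, ENNReal.ofReal (m0 a)) := by
    rwa [ENNReal.mul_le_mul_iff_right (by (clear * -; positivity)) (by finiteness)] at hsum
  calc I ≤ C * ((1 + C1) * ∑' a, ENNReal.ofReal (m0 a)) := hI2
    _ ≤ C * ((1 + C1) * ∫⁻ x in U, ‖fderiv ℝ f x‖ₑ) := by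
        (clear * - hstep1; gcongr)
    _ = _ := by
        rw [ENNReal.coe_mul, ENNReal.coe_add, ENNReal.coe_one, mul_assoc, hU]
        rfl

/-- dilation of `cu` -/
theorem cu_dil (f : E d → ℝ) {δ : ℝ} (hδ : 0 < δ) (R : ℝ) (x : E d) :
    cu (fun x => f (δ • x)) (fun _ => 1) R x = cu f (fun _ => δ) (R * δ) (δ • x) := by
  unfold cu
  congr 1
  ext t
  constructor
  · rintro ⟨r, h1, h2, h4⟩
    refine ⟨δ * r, ?_, ?_, ?_⟩
    · nlinarith only [hδ, h1]
    · nlinarith only [hδ, h2]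
    · rw [← h4, avg_dil]
  · rintro ⟨r, h1, h2, h4⟩
    refine ⟨δ⁻¹ * r, ?_, ?_, ?_⟩
    · rw [← div_eq_inv_mul, le_div_iff₀ hδ]
      linarith only [h1]
    · rw [← div_eq_inv_mul, div_le_iff₀ hδ]
      exact h2
    · rw [← h4, avg_dil, ← mul_assoc, mul_inv_cancel₀ hδ.ne', one_mul]

/-- The scaled core estimate for the truncated centered maximal function. -/
theorem core_scaled_c (hforest : SpecForest d) (horigin : SpecOrigin d) (htree : SpecPerTree d) :
    ∃ C C' : ℝ≥0, ∀ (f : E d → ℝ),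
    ContDiff ℝ 1 f → HasCompactSupport f → ∀ (δ : ℝ), 0 < δ → ∀ (K : ℕ) (S : Set (E d)),
    MeasurableSet S →
    ∫⁻ x in S, ‖fderiv ℝ (cu f (fun _ => δ) (2 * 2 ^ K * δ)) x‖ₑ ≤
      C * ∫⁻ x in Metric.thickening (C' * 2 ^ K * δ) S, ‖fderiv ℝ f x‖ₑ := by
  obtain ⟨C, C', hC⟩ := core_local_c hforest horigin htree
  refine ⟨C, C', fun f hf hfc δ hδ K S hS => ?_⟩
  set U := cu f (fun _ => δ) (2 * 2 ^ K * δ) with hU
  set fδ : E d → ℝ := fun x => f (δ • x) with hfδ
  have hfδ1 : ContDiff ℝ 1 fδ := hf.comp (contDiff_const_smul δ)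
  have hfδ2 : HasCompactSupport fδ := by
    have := hfc.comp_homeomorph (dil d δ hδ).toHomeomorph
    exact this
  set S' : Set (E d) := (fun y : E d => δ • y) ⁻¹' S with hS'
  have hmeas : Measurable fun y : E d => δ • y := by fun_prop
  have hS'm : MeasurableSet S' := hmeas hS
  have h1 := hC fδ hfδ1 hfδ2 K S' hS'm
  have hu : cu fδ (fun _ => 1) (2 * 2 ^ K) = fun x => U (δ • x) := by
    funext x
    exact cu_dil f hδ _ x
  rw [hu] at h1
  have e1 : ∀ x, ‖fderiv ℝ (fun x => U (δ • x)) x‖ₑ = ENNReal.ofReal δ * ‖fderiv ℝ U (δ • x)‖ₑ :=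
    fun x => fderiv_dil U hδ x
  have e2 : ∀ x, ‖fderiv ℝ fδ x‖ₑ = ENNReal.ofReal δ * ‖fderiv ℝ f (δ • x)‖ₑ :=
    fun x => fderiv_dil f hδ x
  simp_rw [e1, e2] at h1
  have hδt : ENNReal.ofReal δ ≠ ∞ := ENNReal.ofReal_ne_top
  have hδ0 : ENNReal.ofReal δ ≠ 0 := by
    rw [Ne, ENNReal.ofReal_eq_zero, not_le]
    exact hδ
  rw [lintegral_const_mul' _ _ hδt, lintegral_const_mul' _ _ hδt] at h1
  have h2 : ∫⁻ x in S', ‖fderiv ℝ U (δ • x)‖ₑ ≤
      C * ∫⁻ x in Metric.thickening (C' * 2 ^ K) S', ‖fderiv ℝ f (δ • x)‖ₑ := by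
    have h3 : ENNReal.ofReal δ * ∫⁻ x in S', ‖fderiv ℝ U (δ • x)‖ₑ ≤ ENNReal.ofReal δ *
        (C * ∫⁻ x in Metric.thickening (C' * 2 ^ K) S', ‖fderiv ℝ f (δ • x)‖ₑ) := by
      refine h1.trans (le_of_eq ?_)
      ring
    exact (ENNReal.mul_le_mul_iff_right hδ0 hδt).1 h3
  have hsub : Metric.thickening (C' * 2 ^ K) S' ⊆
      (fun y : E d => δ • y) ⁻¹' Metric.thickening (C' * 2 ^ K * δ) S := by
    intro x hx
    rw [Metric.mem_thickening_iff] at hx
    obtain ⟨z, hz, hxz⟩ := hx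
    rw [mem_preimage, Metric.mem_thickening_iff]
    refine ⟨δ • z, hz, ?_⟩
    rw [dist_smul₀, Real.norm_eq_abs, abs_of_pos hδ, mul_comm]
    exact mul_lt_mul_of_pos_right hxz hδ
  have h4 := h2.trans (mul_le_mul_right (lintegral_mono_set hsub) _)
  rw [hS', lint_dil hδ (fun x => ‖fderiv ℝ U x‖ₑ) S, lint_dil hδ (fun x => ‖fderiv ℝ f x‖ₑ)] at h4
  have hc0 : ENNReal.ofReal ((δ ^ d)⁻¹) ≠ 0 := by
    rw [Ne, ENNReal.ofReal_eq_zero, not_le]
    (clear * - hδ; positivity)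
  have hct : ENNReal.ofReal ((δ ^ d)⁻¹) ≠ ∞ := ENNReal.ofReal_ne_top
  have h5 : ENNReal.ofReal ((δ ^ d)⁻¹) * ∫⁻ x in S, ‖fderiv ℝ U x‖ₑ ≤
      ENNReal.ofReal ((δ ^ d)⁻¹) *
        (C * ∫⁻ x in Metric.thickening (C' * 2 ^ K * δ) S, ‖fderiv ℝ f x‖ₑ) := by
    refine h4.trans (le_of_eq ?_)
    ring
  exact (ENNReal.mul_le_mul_iff_right hc0 hct).1 h5

end Vale.Agent.P137.U.Cen
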