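import Vale.Agent.P137.C.Spec

/-!
# P137, centered operator, block VII-a: the truncated centered maximal function `cu`

Bounds, attained radii, Lipschitz continuity, and the derivative at a point of differentiability in
terms of the derivatives of the averages at a maximising radius.
-/

open MeasureTheory Set Filter Topology
open scoped ENNReal NNReal

namespace Vale.Agent.P137.U.Cen

open Vale.Agent.P137 Vale.Agent.P137.U

variable {d : ℕ}

theorem cu_bddAbove {f : E d → ℝ} (D : E d → ℝ) (R : ℝ) (hf : Continuous f)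
    (hfc : HasCompactSupport f) (x : E d) :
    BddAbove {t | ∃ r, D x ≤ r ∧ r ≤ R ∧ avg f x r = t} := by
  obtain ⟨C, hC⟩ := exists_le_of_compact hf hfc
  refine ⟨C, ?_⟩
  rintro t ⟨r, -, -, rfl⟩
  exact avg_le_of_le hf fun w _ => hC _

theorem avg_le_cu {f : E d → ℝ} {D : E d → ℝ} {R : ℝ} (hf : Continuous f)
    (hfc : HasCompactSupport f) {x : E d} {r : ℝ} (h1 : D x ≤ r) (h2 : r ≤ R) :
    avg f x r ≤ cu f D R x :=
  le_csSup (cu_bddAbove D R hf hfc x) ⟨r, h1, h2, rfl⟩

theorem cu_attained {f : E d → ℝ} {D : E d → ℝ} {R : ℝ} (hf : Continuous f)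
    (hfc : HasCompactSupport f) {x : E d} (hDR : D x ≤ R) :
    ∃ r, D x ≤ r ∧ r ≤ R ∧ avg f x r = cu f D R x := by
  have hc : ContinuousOn (fun r => avg f x r) (Icc (D x) R) :=
    ((continuous_avg hf).comp (by fun_prop : Continuous fun r : ℝ => (x, r))).continuousOn
  obtain ⟨r, hr, hmax⟩ := isCompact_Icc.exists_isMaxOn (nonempty_Icc.2 hDR) hc
  refine ⟨r, hr.1, hr.2, le_antisymm (avg_le_cu hf hfc hr.1 hr.2) ?_⟩
  refine csSup_le ⟨_, r, hr.1, hr.2, rfl⟩ ?_
  rintro t ⟨r', h1', h2', rfl⟩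
  exact hmax (a := r') ⟨h1', h2'⟩

/-- A radius where the supremum is attained is a maximising radius. -/
theorem maxAt_of_eq {f : E d → ℝ} {D : E d → ℝ} {R : ℝ} (hf : Continuous f)
    (hfc : HasCompactSupport f) {x : E d} {r : ℝ} (h1 : D x ≤ r) (h2 : r ≤ R)
    (h3 : avg f x r = cu f D R x) : MaxAt f x (D x) R r :=
  ⟨h1, h2, fun r' h1' h2' => by rw [h3]; exact avg_le_cu hf hfc h1' h2'⟩

theorem cu_lipschitz {f : E d → ℝ} {D : E d → ℝ} {R : ℝ} {L κ : ℝ≥0} (hf : LipschitzWith L f)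
    (hfc : HasCompactSupport f) (hκ : κ ≤ 1) (hD : LipschitzWith κ D)
    (hDR : ∀ y, D y ≤ R) : LipschitzWith (2 * L) (cu f D R) := by
  have key : ∀ x x' : E d, cu f D R x ≤ cu f D R x' + (2 * L : ℝ≥0) * dist x x' := by
    intro x x'
    obtain ⟨r, h1, h2, h4⟩ := cu_attained (D := D) (R := R) hf.continuous hfc (hDR x)
    have hκ0 : (0 : ℝ) ≤ κ := κ.coe_nonneg
    have hκ1 : (κ : ℝ) ≤ 1 := by exact_mod_cast hκ
    have hd0 : 0 ≤ dist x x' := dist_nonneg
    set r' : ℝ := min (r + κ * dist x x') R with hr'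
    have hr1 : r ≤ r' := le_min (by nlinarith only [hκ0, hd0]) h2
    have hr2 : r' ≤ r + κ * dist x x' := min_le_left _ _
    have h5 : D x' ≤ r' := by
      refine le_min ?_ (hDR _)
      have := hD.dist_le_mul x x'
      rw [Real.dist_eq] at this
      have h6 := (abs_le.1 this).1
      linarith only [h1, h6]
    have h7 := avg_le_cu (D := D) (R := R) hf.continuous hfc h5 (min_le_right _ _)
    have h8 := avg_dist_le hf x x' r r'
    have h9 := (abs_le.1 h8).2
    have h10 : ‖x - x'‖ = dist x x' := (dist_eq_norm _ _).symm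
    have h11 : |r - r'| ≤ dist x x' := by
      rw [abs_sub_comm, abs_of_nonneg (by linarith only [hr1])]
      nlinarith only [hκ1, hr2, hd0]
    rw [← h4]
    have h12 : (L : ℝ) * (‖x - x'‖ + |r - r'|) ≤ L * (2 * dist x x') := by
      refine mul_le_mul_of_nonneg_left ?_ L.coe_nonneg
      rw [h10]; linarith only [h11]
    push_cast
    linarith only [h7, h9, h12]
  refine LipschitzWith.of_dist_le_mul fun x x' => ?_
  rw [Real.dist_eq, abs_le]
  have k1 := key x x'
  have k2 := key x' x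
  rw [dist_comm x' x] at k2
  constructor <;> linarith

/-- Joint derivative of the average in the centre and the radius. -/
theorem avg_hasFDerivAt_joint {f : E d → ℝ} (hf : ContDiff ℝ 1 f) (hfc : HasCompactSupport f)
    (p : E d × ℝ) :
    HasFDerivAt (fun q : E d × ℝ => avg f q.1 q.2)
      (⨍ w in Metric.closedBall (0 : E d) 1, (fderiv ℝ f (p.1 + p.2 • w)).comp
        (ContinuousLinearMap.fst ℝ (E d) ℝ +
          (ContinuousLinearMap.snd ℝ (E d) ℝ).smulRight w)) p := by
  have hfd : Continuous (fderiv ℝ f) := hf.continuous_fderiv one_ne_zero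
  have hfdc : HasCompactSupport (fderiv ℝ f) := hfc.fderiv ℝ
  obtain ⟨C, hC⟩ := hfdc.exists_bound_of_continuous hfd
  have hC0 : 0 ≤ C := (norm_nonneg _).trans (hC 0)
  have hB : volume (Metric.closedBall (0 : E d) 1) < ∞ := measure_closedBall_lt_top
  have : IsFiniteMeasure (volume.restrict (Metric.closedBall (0 : E d) 1)) :=
    ⟨by rwa [Measure.restrict_apply_univ]⟩
  have hcont : ∀ q : E d × ℝ, Continuous fun w : E d => (fderiv ℝ f (q.1 + q.2 • w)).comp
        (ContinuousLinearMap.fst ℝ (E d) ℝ +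
          (ContinuousLinearMap.snd ℝ (E d) ℝ).smulRight w) := by
    intro q
    have e1 : Continuous fun w : E d => fderiv ℝ f (q.1 + q.2 • w) := hfd.comp (by fun_prop)
    have e2 : Continuous fun w : E d => (ContinuousLinearMap.fst ℝ (E d) ℝ +
          (ContinuousLinearMap.snd ℝ (E d) ℝ).smulRight w) := by
      refine continuous_const.add ?_
      exact (ContinuousLinearMap.smulRightL ℝ (E d × ℝ) (E d)
        (ContinuousLinearMap.snd ℝ (E d) ℝ)).continuous
    exact e1.clm_comp e2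
  have key := hasFDerivAt_integral_of_dominated_of_fderiv_le (𝕜 := ℝ)
    (μ := volume.restrict (Metric.closedBall (0 : E d) 1))
    (F := fun q w => f (q.1 + q.2 • w)) (F' := fun q w => (fderiv ℝ f (q.1 + q.2 • w)).comp
        (ContinuousLinearMap.fst ℝ (E d) ℝ +
          (ContinuousLinearMap.snd ℝ (E d) ℝ).smulRight w))
    (x₀ := p) (bound := fun _ => C * 2) (s := univ) univ_mem ?_ ?_ ?_ ?_ ?_ ?_
  · have h2 := key.const_smul (volume.real (Metric.closedBall (0 : E d) 1))⁻¹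
    have h3 : (fun q : E d × ℝ => avg f q.1 q.2) = fun q : E d × ℝ =>
        (volume.real (Metric.closedBall (0 : E d) 1))⁻¹ •
          ∫ w in Metric.closedBall (0 : E d) 1, f (q.1 + q.2 • w) := by
      funext q
      simp only [avg, setAverage_eq]
    rw [h3, setAverage_eq]
    exact h2
  · refine Eventually.of_forall fun h => ?_
    have := hf.continuous
    exact Continuous.aestronglyMeasurable (by fun_prop)
  · obtain ⟨D, hD⟩ := hfc.exists_bound_of_continuous hf.continuous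
    refine (integrable_const D).mono' ?_ (Eventually.of_forall fun w => hD _)
    have := hf.continuous
    exact Continuous.aestronglyMeasurable (by fun_prop)
  · exact (hcont p).aestronglyMeasurable
  · refine (ae_restrict_iff' Metric.isClosed_closedBall.measurableSet).2
      (Eventually.of_forall fun w hw q _ => ?_)
    rw [mem_closedBall_zero_iff] at hw
    refine (ContinuousLinearMap.opNorm_comp_le _ _).trans ?_
    refine mul_le_mul (hC _) ?_ (norm_nonneg _) hC0
    refine (norm_add_le _ _).trans ?_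
    have h1 : ‖ContinuousLinearMap.fst ℝ (E d) ℝ‖ ≤ 1 := ContinuousLinearMap.norm_fst_le ℝ _ _
    have h2 : ‖ContinuousLinearMap.snd ℝ (E d) ℝ‖ ≤ 1 := ContinuousLinearMap.norm_snd_le ℝ _ _
    have h3 : ‖(ContinuousLinearMap.snd ℝ (E d) ℝ).smulRight w‖ ≤ 1 * 1 := by
      rw [ContinuousLinearMap.norm_smulRight_apply]
      exact mul_le_mul h2 hw (norm_nonneg _) zero_le_one
    linarith only [h1, h3]
  · exact integrable_const _
  · refine Eventually.of_forall fun w q _ => ?_
    have h1 : HasFDerivAt f (fderiv ℝ f (q.1 + q.2 • w)) (q.1 + q.2 • w) :=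
      (hf.differentiable one_ne_zero _).hasFDerivAt
    have h2 : HasFDerivAt (fun q : E d × ℝ => q.1 + q.2 • w)
        (ContinuousLinearMap.fst ℝ (E d) ℝ +
          (ContinuousLinearMap.snd ℝ (E d) ℝ).smulRight w) q :=
      hasFDerivAt_fst.add (hasFDerivAt_snd.smul_const w)
    exact h1.comp q h2

theorem avg_differentiable_joint {f : E d → ℝ} (hf : ContDiff ℝ 1 f) (hfc : HasCompactSupport f) :
    Differentiable ℝ (fun q : E d × ℝ => avg f q.1 q.2) :=
  fun p => (avg_hasFDerivAt_joint hf hfc p).differentiableAt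

theorem avg_differentiable_center {f : E d → ℝ} (hf : ContDiff ℝ 1 f) (hfc : HasCompactSupport f)
    (r : ℝ) : Differentiable ℝ (fun y => avg f y r) :=
  (avg_differentiable_joint hf hfc).comp
    (by fun_prop : Differentiable ℝ fun y : E d => (y, r))

theorem avg_differentiable_radius {f : E d → ℝ} (hf : ContDiff ℝ 1 f) (hfc : HasCompactSupport f)
    (x : E d) : Differentiable ℝ (fun r => avg f x r) :=
  (avg_differentiable_joint hf hfc).comp
    (by fun_prop : Differentiable ℝ fun r : ℝ => (x, r))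

/-- Derivative of the average along a moving ball. -/
theorem avg_hasDerivAt_line {f : E d → ℝ} (hf : ContDiff ℝ 1 f) (hfc : HasCompactSupport f)
    (x v : E d) (r s : ℝ) :
    HasDerivAt (fun t : ℝ => avg f (x + t • v) (r + t * s))
      (fderiv ℝ (fun y => avg f y r) x v + s * deriv (fun ρ => avg f x ρ) r) 0 := by
  set A : E d × ℝ → ℝ := fun q => avg f q.1 q.2 with hA
  have hj : HasFDerivAt A (fderiv ℝ A (x, r)) (x, r) :=
    (avg_differentiable_joint hf hfc (x, r)).hasFDerivAt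
  have h1 : HasDerivAt (fun t : ℝ => ((x + t • v, r + t * s) : E d × ℝ)) (v, s) 0 := by
    have e1 : HasDerivAt (fun t : ℝ => x + t • v) v 0 := by
      simpa using ((hasDerivAt_id (0 : ℝ)).smul_const v).const_add x
    have e2 : HasDerivAt (fun t : ℝ => r + t * s) s 0 := by
      simpa using ((hasDerivAt_id (0 : ℝ)).mul_const s).const_add r
    exact e1.prodMk e2
  have h2 : HasDerivAt (fun t : ℝ => avg f (x + t • v) (r + t * s)) (fderiv ℝ A (x, r) (v, s)) 0 := by
    have hj' : HasFDerivAt A (fderiv ℝ A (x, r)) ((x + (0 : ℝ) • v, r + 0 * s) : E d × ℝ) := by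
      simpa using hj
    exact hj'.comp_hasDerivAt (0 : ℝ) h1
  have h3 : fderiv ℝ (fun y => avg f y r) x v = fderiv ℝ A (x, r) (v, 0) := by
    have e1 : HasFDerivAt (fun y : E d => ((y, r) : E d × ℝ))
        (ContinuousLinearMap.inl ℝ (E d) ℝ) x := by
      exact (hasFDerivAt_id x).prodMk (hasFDerivAt_const r x)
    have e2 : HasFDerivAt (A ∘ fun y : E d => ((y, r) : E d × ℝ))
        ((fderiv ℝ A (x, r)).comp (ContinuousLinearMap.inl ℝ (E d) ℝ)) x :=
      HasFDerivAt.comp x hj e1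
    have e3 : fderiv ℝ (fun y => avg f y r) x =
        (fderiv ℝ A (x, r)).comp (ContinuousLinearMap.inl ℝ (E d) ℝ) := e2.fderiv
    rw [e3]
    rfl
  have h4 : deriv (fun ρ => avg f x ρ) r = fderiv ℝ A (x, r) (0, 1) := by
    have e1 : HasDerivAt (fun ρ : ℝ => ((x, ρ) : E d × ℝ)) (0, 1) r :=
      (hasDerivAt_const r x).prodMk (hasDerivAt_id r)
    have e2 : HasDerivAt (A ∘ fun ρ : ℝ => ((x, ρ) : E d × ℝ)) (fderiv ℝ A (x, r) (0, 1)) r :=
      HasFDerivAt.comp_hasDerivAt r hj e1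
    exact e2.deriv
  have h5 : fderiv ℝ A (x, r) (v, s) =
      fderiv ℝ (fun y => avg f y r) x v + s * deriv (fun ρ => avg f x ρ) r := by
    rw [h3, h4, ← smul_eq_mul, ← map_smul, ← map_add]
    congr 1
    ext <;> simp
  rw [← h5]
  exact h2

/-- If the same radius is admissible at all nearby points then the derivative of `cu` is the
derivative of the average. -/
theorem fderiv_cu_of_nhds {f : E d → ℝ} {D : E d → ℝ} {R : ℝ} (hf : ContDiff ℝ 1 f)
    (hfc : HasCompactSupport f) {x : E d} {r : ℝ} (h1 : ∀ᶠ z in 𝓝 x, D z ≤ r) (h2 : r ≤ R)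
    (h3 : avg f x r = cu f D R x) (h4 : DifferentiableAt ℝ (cu f D R) x) :
    fderiv ℝ (cu f D R) x = fderiv ℝ (fun y => avg f y r) x := by
  have hmin : IsLocalMin (fun z => cu f D R z - avg f z r) x := by
    filter_upwards [h1] with z hz
    rw [← h3, sub_self]
    exact sub_nonneg.2 (avg_le_cu hf.continuous hfc hz h2)
  have h5 := hmin.hasFDerivAt_eq_zero
    (h4.hasFDerivAt.sub (avg_differentiable_center hf hfc r x).hasFDerivAt)
  exact sub_eq_zero.1 h5

/-- Interior radius. -/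
theorem fderiv_cu_of_lt {f : E d → ℝ} {D : E d → ℝ} {R : ℝ} (hf : ContDiff ℝ 1 f)
    (hfc : HasCompactSupport f) (hD : Continuous D) {x : E d} {r : ℝ} (h1 : D x < r) (h2 : r ≤ R)
    (h3 : avg f x r = cu f D R x) (h4 : DifferentiableAt ℝ (cu f D R) x) :
    fderiv ℝ (cu f D R) x = fderiv ℝ (fun y => avg f y r) x := by
  refine fderiv_cu_of_nhds hf hfc ?_ h2 h3 h4
  exact (hD.continuousAt.eventually_lt continuousAt_const h1).mono fun z hz => hz.le

/-- Top radius. -/
theorem fderiv_cu_top {f : E d → ℝ} {D : E d → ℝ} {R : ℝ} (hf : ContDiff ℝ 1 f)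
    (hfc : HasCompactSupport f) {x : E d} (hDR : ∀ y, D y ≤ R)
    (h3 : avg f x R = cu f D R x) (h4 : DifferentiableAt ℝ (cu f D R) x) :
    fderiv ℝ (cu f D R) x = fderiv ℝ (fun y => avg f y R) x :=
  fderiv_cu_of_nhds hf hfc (Eventually.of_forall hDR) le_rfl h3 h4

/-- Lowest radius: one sided bound. -/
theorem fderiv_cu_bot {f : E d → ℝ} {D : E d → ℝ} {R : ℝ} {κ : ℝ≥0} (hf : ContDiff ℝ 1 f)
    (hfc : HasCompactSupport f) (hD : LipschitzWith κ D) {x : E d} (h1 : D x < R)
    (h3 : avg f x (D x) = cu f D R x) (h4 : DifferentiableAt ℝ (cu f D R) x) (v : E d) :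
    fderiv ℝ (fun y => avg f y (D x)) x v +
      κ * ‖v‖ * deriv (fun ρ => avg f x ρ) (D x) ≤ fderiv ℝ (cu f D R) x v := by
  set u := cu f D R with hu
  have hder : HasDerivAt (fun t : ℝ => u (x + t • v)) (fderiv ℝ u x v) 0 := by
    have h6 : HasFDerivAt u (fderiv ℝ u x) (x + (0 : ℝ) • v) := by
      rw [zero_smul, add_zero]; exact h4.hasFDerivAt
    have h7 : HasDerivAt (fun t : ℝ => x + t • v) v 0 := by
      simpa using ((hasDerivAt_id (0 : ℝ)).smul_const v).const_add x
    exact h6.comp_hasDerivAt (0 : ℝ) h7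
  have hder2 := hder.sub (avg_hasDerivAt_line hf hfc x v (D x) (κ * ‖v‖))
  rw [← sub_nonneg]
  have h12 := (hder2.tendsto_slope_zero).mono_left
    (nhdsWithin_mono (0 : ℝ) (fun t (ht : t ∈ Ioi (0 : ℝ)) => (ne_of_gt ht)))
  refine ge_of_tendsto h12 ?_
  have h8 : ∀ᶠ t : ℝ in 𝓝[>] (0:ℝ), D x + t * (κ * ‖v‖) < R := by
    have hc : ContinuousAt (fun t : ℝ => D x + t * (κ * ‖v‖)) 0 := by fun_prop
    have h9 := hc.eventually_lt (continuousAt_const (y := R)) (by simpa using h1)
    exact h9.filter_mono nhdsWithin_le_nhds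
  filter_upwards [h8, self_mem_nhdsWithin] with t ht ht0
  rw [mem_Ioi] at ht0
  have h9 : D (x + t • v) ≤ D x + t * (κ * ‖v‖) := by
    have := hD.dist_le_mul (x + t • v) x
    rw [Real.dist_eq, dist_eq_norm, add_sub_cancel_left, norm_smul, Real.norm_of_nonneg ht0.le]
      at this
    have h := (abs_le.1 this).2
    linarith only [h]
  have h10 := avg_le_cu (D := D) (R := R) hf.continuous hfc h9 ht.le
  rw [smul_eq_mul]
  refine mul_nonneg (inv_nonneg.2 ht0.le) ?_
  simp only [zero_add, zero_smul, add_zero, zero_mul, Pi.sub_apply]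
  have h11 : u x = avg f x (D x) := h3.symm
  linarith only [h10, h11]

/-- All cases of the maximising radius at once, in the form of the conclusion of the cell
theorem. -/
theorem cu_dir {f : E d → ℝ} {D : E d → ℝ} {R : ℝ} (hf : ContDiff ℝ 1 f)
    (hfc : HasCompactSupport f) (hD : LipschitzWith (1 / 4) D) (hDR : ∀ y, D y ≤ R) {x : E d}
    {r : ℝ} (h1 : D x ≤ r) (h2 : r ≤ R) (h3 : avg f x r = cu f D R x)
    (h4 : DifferentiableAt ℝ (cu f D R) x) {e' : E d} (he' : ‖e'‖ = 1) {b : ℝ≥0∞}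
    (hb : ((D x < r ∧ r < R) →
          ENNReal.ofReal (-(fderiv ℝ (fun y => avg f y r) x e')) ≤ b) ∧
        ((r = D x ∨ r = R) → ∀ τ : ℝ, |τ| ≤ 1 / 2 →
          ENNReal.ofReal (-(fderiv ℝ (fun y => avg f y r) x e' +
            τ * deriv (fun ρ => avg f x ρ) r)) ≤ b)) :
    ENNReal.ofReal (-(fderiv ℝ (cu f D R) x e')) ≤ b := by
  rcases h2.eq_or_lt with hr | hr
  · subst hr
    rw [fderiv_cu_top hf hfc hDR h3 h4]
    have := hb.2 (Or.inr rfl) 0 (by norm_num)
    simpa using this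
  · rcases h1.eq_or_lt with hr' | hr'
    · subst hr'
      have h5 := fderiv_cu_bot hf hfc hD hr h3 h4 e'
      have h6 := hb.2 (Or.inl rfl) (1 / 4) (by rw [abs_of_pos (by norm_num)]; norm_num)
      refine (ENNReal.ofReal_le_ofReal ?_).trans h6
      rw [he'] at h5
      have h7 : (((1 / 4 : ℝ≥0) : ℝ)) = 1 / 4 := by norm_num
      rw [h7, mul_one] at h5
      linarith only [h5]
    · rw [fderiv_cu_of_lt hf hfc hD.continuous hr' h2 h3 h4]
      exact hb.1 ⟨hr', hr⟩

/-! ### The tree version -/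

theorem cT_DW_lip (hd : 0 < d) {W : Finset (ℕ × Lat d)} (hW : W.Nonempty) (kT : ℕ) :
    LipschitzWith (1 / 4) (DW W kT : E d → ℝ) := by
  refine (core_DW_lipschitz hW kT).weaken ?_
  have h1 := kap_le hd
  have h2 : ((kap d).toNNReal : ℝ) ≤ ((1 / 4 : ℝ≥0) : ℝ) := by
    rw [Real.coe_toNNReal _ (kap_pos d).le]
    push_cast
    linarith only [h1]
  exact_mod_cast h2

theorem cT_lipschitz {f : E d → ℝ} {L : ℝ≥0} (hf : LipschitzWith L f)
    (hfc : HasCompactSupport f) {W : Finset (ℕ × Lat d)} (hW : W.Nonempty) (kT : ℕ) :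
    LipschitzWith (2 * L) (cT f W kT) := by
  refine cu_lipschitz hf hfc (κ := (kap d).toNNReal) ?_ (core_DW_lipschitz hW kT)
    (core_DW_le W kT)
  rw [Real.toNNReal_le_one]
  exact core_kap_le_one d

theorem cT_attained {f : E d → ℝ} (hf : Continuous f) (hfc : HasCompactSupport f)
    (W : Finset (ℕ × Lat d)) (kT : ℕ) (x : E d) :
    ∃ r, DW W kT x ≤ r ∧ r ≤ 2 * 2 ^ kT ∧ avg f x r = cT f W kT x ∧
      MaxAt f x (DW W kT x) (2 * 2 ^ kT) r := by
  obtain ⟨r, h1, h2, h3⟩ := cu_attained (D := DW W kT) (R := 2 * 2 ^ kT) hf hfc (core_DW_le W kT x)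
  exact ⟨r, h1, h2, h3, maxAt_of_eq hf hfc h1 h2 h3⟩

theorem avg_le_cT {f : E d → ℝ} (hf : Continuous f) (hfc : HasCompactSupport f)
    {W : Finset (ℕ × Lat d)} {kT : ℕ} {x : E d} {r : ℝ} (h1 : DW W kT x ≤ r)
    (h2 : r ≤ 2 * 2 ^ kT) : avg f x r ≤ cT f W kT x :=
  avg_le_cu hf hfc h1 h2

theorem cT_dir (hd : 0 < d) {f : E d → ℝ} (hf : ContDiff ℝ 1 f)
    (hfc : HasCompactSupport f) {W : Finset (ℕ × Lat d)} (hW : W.Nonempty) {kT : ℕ} {x : E d}
    {r : ℝ} (h1 : DW W kT x ≤ r) (h2 : r ≤ 2 * 2 ^ kT) (h3 : avg f x r = cT f W kT x)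
    (h4 : DifferentiableAt ℝ (cT f W kT) x) {e' : E d} (he' : ‖e'‖ = 1) {b : ℝ≥0∞}
    (hb : ((DW W kT x < r ∧ r < 2 * 2 ^ kT) →
          ENNReal.ofReal (-(fderiv ℝ (fun y => avg f y r) x e')) ≤ b) ∧
        ((r = DW W kT x ∨ r = 2 * 2 ^ kT) → ∀ τ : ℝ, |τ| ≤ 1 / 2 →
          ENNReal.ofReal (-(fderiv ℝ (fun y => avg f y r) x e' +
            τ * deriv (fun ρ => avg f x ρ) r)) ≤ b)) :
    ENNReal.ofReal (-(fderiv ℝ (cT f W kT) x e')) ≤ b :=
  cu_dir hf hfc (cT_DW_lip hd hW kT) (core_DW_le W kT) h1 h2 h3 h4 he' hb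

end Vale.Agent.P137.U.Cen
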