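import Vale.Agent.P137.C.Cu
import Vale.Agent.P137.StatementC

/-!
# P137, centered operator, block VII-c: passage to the limit

The global theorem `centeredBound_of` from the scaled estimate `FaCore` for truncated centered
maximal functions of smooth functions.
-/

open MeasureTheory Set Filter Topology
open scoped ENNReal NNReal ContDiff

namespace Vale.Agent.P137.U.Cen

open Vale.Agent.P137 Vale.Agent.P137.U

variable {d : ℕ}

/-! ### Centered maximal function and its truncations -/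

theorem tt_A_le_cmax {f : E d → ℝ} (hf : Integrable f) (x : E d) {r : ℝ} (hr : 0 < r) :
    ENNReal.ofReal (ttA f x r) ≤ centeredMax f x := by
  rw [tt_A_ofReal hf x hr]
  unfold centeredMax
  exact le_iSup_of_le r (le_iSup_of_le hr le_rfl)

theorem cu_tendsto (f : E d → ℝ) (hf : Integrable f) (φ : ℕ → E d → ℝ) (hφ : ∀ n, Continuous (φ n))
    (hφc : ∀ n, HasCompactSupport (φ n))
    (hφf : ∀ n, ∃ a b : ℝ, 0 ≤ a ∧ 0 ≤ b ∧ a ≤ 2⁻¹ ^ n ∧ b ≤ 2⁻¹ ^ (n * (d + 1)) ∧
      ∃ ψ : E d → ℝ, Integrable ψ ∧ (∀ x, 0 ≤ ψ x) ∧ (∀ x, |φ n x - abs (f x)| ≤ a + ψ x) ∧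
        ∫ x, ψ x ≤ b) (x : E d) :
    Tendsto (fun n => ENNReal.ofReal (cu (φ n) (fun _ => 2⁻¹ ^ n) (2 ^ n) x)) atTop
      (𝓝 (centeredMax f x)) := by
  have hv := tt_vol_pos (d := d)
  set v := volume.real (Metric.ball (0 : E d) 1) with hvdef
  have key : ∀ (n : ℕ) (r : ℝ), (2⁻¹ : ℝ) ^ n ≤ r →
      |avg (φ n) x r - ttA f x r| ≤ 2⁻¹ ^ n * (1 + 1 / v) := by
    intro n r hr
    obtain ⟨a, b, ha, hb, ha2, hb2, ψ, hψi, hψ0, hψ, hψb⟩ := hφf n
    have h1 := tt_avg_close hf ((hφ n).integrable_of_hasCompactSupport (hφc n)) hψi hψ0 hψ hψb x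
      (s := 2⁻¹ ^ n) (by positivity) hr
    refine h1.trans ?_
    have h2 : b / ((2⁻¹ ^ n) ^ d * v) ≤ 2⁻¹ ^ (n * (d + 1)) / ((2⁻¹ ^ n) ^ d * v) := by
      gcongr
    have h3 : (2⁻¹ : ℝ) ^ (n * (d + 1)) / ((2⁻¹ ^ n) ^ d * v) = 2⁻¹ ^ n * (1 / v) := by
      rw [pow_mul, pow_succ]
      field_simp
    rw [← hvdef]
    linarith only [ha2, h2, h3]
  have hc : Tendsto (fun n : ℕ => (2⁻¹ : ℝ) ^ n * (1 + 1 / v)) atTop (𝓝 0) := by
    have h1 : Tendsto (fun n : ℕ => (2⁻¹ : ℝ) ^ n) atTop (𝓝 0) :=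
      tendsto_pow_atTop_nhds_zero_of_lt_one (by norm_num) (by norm_num)
    simpa only [inv_pow, one_div, zero_mul] using h1.mul_const (1 + 1 / v)
  have hR : ∀ n : ℕ, (2⁻¹ : ℝ) ^ n ≤ 2 ^ n := fun n =>
    pow_le_pow_left₀ (by norm_num) (by norm_num) n
  rw [tendsto_order]
  constructor
  · intro a' ha'
    unfold centeredMax at ha'
    simp only [lt_iSup_iff] at ha'
    obtain ⟨r, hr, h⟩ := ha'
    rw [← tt_A_ofReal hf x hr] at h
    have h1 : Tendsto (fun n : ℕ => ENNReal.ofReal (ttA f x r - 2⁻¹ ^ n * (1 + 1 / v))) atTop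
        (𝓝 (ENNReal.ofReal (ttA f x r))) := by
      apply ENNReal.tendsto_ofReal
      simpa only [inv_pow, one_div, sub_zero] using hc.const_sub (ttA f x r)
    have h2 : ∀ᶠ n : ℕ in atTop, (2⁻¹ : ℝ) ^ n < r :=
      (tendsto_pow_atTop_nhds_zero_of_lt_one (by norm_num) (by norm_num :
        (2⁻¹ : ℝ) < 1)).eventually_lt_const hr
    have h3 : ∀ᶠ n : ℕ in atTop, r ≤ (2 : ℝ) ^ n :=
      (tendsto_pow_atTop_atTop_of_one_lt (by norm_num : (1 : ℝ) < 2)).eventually_ge_atTop r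
    filter_upwards [h1.eventually_const_lt h, h2, h3] with n h4 h5 h6
    refine h4.trans_le (ENNReal.ofReal_le_ofReal ?_)
    have h7 := avg_le_cu (f := φ n) (D := fun _ => 2⁻¹ ^ n) (R := 2 ^ n) (hφ n) (hφc n)
      (x := x) (r := r) h5.le h6
    have h8 := abs_le.1 (key n r h5.le)
    linarith only [h7, h8]
  · intro a' ha'
    have h1 : Tendsto (fun n : ℕ => centeredMax f x + ENNReal.ofReal (2⁻¹ ^ n * (1 + 1 / v)))
        atTop (𝓝 (centeredMax f x + ENNReal.ofReal 0)) :=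
      (ENNReal.tendsto_ofReal hc).const_add _
    rw [ENNReal.ofReal_zero, add_zero] at h1
    filter_upwards [h1.eventually_lt_const ha'] with n hn
    refine lt_of_le_of_lt ?_ hn
    by_cases htop : centeredMax f x = ⊤
    · rw [htop, top_add]
      exact le_top
    · rw [← ENNReal.ofReal_toReal htop, ← ENNReal.ofReal_add ENNReal.toReal_nonneg (by positivity)]
      apply ENNReal.ofReal_le_ofReal
      unfold cu
      apply csSup_le
      · exact ⟨_, 2 ^ n, hR n, le_rfl, rfl⟩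
      · rintro t ⟨r, hr1, hr2, rfl⟩
        have hr0 : 0 < r := lt_of_lt_of_le (by positivity) hr1
        have h8 := abs_le.1 (key n r hr1)
        have h9 := tt_A_le_cmax hf x hr0
        rw [← ENNReal.ofReal_toReal htop] at h9
        have h10 := (ENNReal.ofReal_le_ofReal_iff ENNReal.toReal_nonneg).1 h9
        linarith only [h8, h10]

theorem fderiv_cu_large (f : E d → ℝ) (hf : ContDiff ℝ 1 f) (hfc : HasCompactSupport f)
    (δ₀ δ R : ℝ) (hδ : 0 < δ) (hδ₀ : δ ≤ δ₀) (hR : δ₀ ≤ R) (x : E d)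
    (h1 : DifferentiableAt ℝ (cu f (fun _ => δ) R) x)
    (h2 : DifferentiableAt ℝ (cu f (fun _ => δ) δ₀) x) :
    ‖fderiv ℝ (cu f (fun _ => δ) R) x‖ₑ ≤ ‖fderiv ℝ (cu f (fun _ => δ) δ₀) x‖ₑ +
      (∫⁻ z, ‖fderiv ℝ f z‖ₑ) / volume (Metric.ball (0 : E d) δ₀) := by
  obtain ⟨r, hr1, hr2, hr4⟩ := cu_attained (D := fun _ : E d => δ) (R := R) hf.continuous
    hfc (x := x) (hδ₀.trans hR)
  rcases le_or_gt r δ₀ with hr | hr
  · refine le_trans (le_of_eq ?_) le_self_add
    congr 1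
    refine core_fderiv_eq (fun z => ?_) ?_ h1 h2
    · obtain ⟨r', hr1', hr2', hr4'⟩ := cu_attained (D := fun _ : E d => δ) (R := δ₀)
        hf.continuous hfc (x := z) hδ₀
      rw [← hr4']
      exact avg_le_cu hf.continuous hfc hr1' (hr2'.trans hR)
    · rw [← hr4]
      exact avg_le_cu hf.continuous hfc hr1 hr
  · refine le_trans ?_ le_add_self
    have e3 : fderiv ℝ (cu f (fun _ => δ) R) x = fderiv ℝ (fun y => avg f y r) x :=
      fderiv_cu_of_nhds hf hfc (Eventually.of_forall fun _ => hr1) hr2 hr4 h1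
    have e2 := avg_hasFDerivAt hf hfc r x
    have e4 : fderiv ℝ (fun y => avg f y r) x =
        ⨍ w in Metric.closedBall (0 : E d) 1, fderiv ℝ f (x + r • w) := by
      rw [← e2.fderiv]
      have h3 : HasFDerivAt (fun y => avg f y r) (fderiv ℝ (fun y => avg f y r) x) (x + 0) := by
        rw [add_zero]
        exact (avg_differentiable_center hf hfc r x).hasFDerivAt
      have h4 : HasFDerivAt (fun h : E d => x + h) (ContinuousLinearMap.id ℝ (E d)) 0 :=
        (hasFDerivAt_id 0).const_add x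
      have h5 := h3.comp 0 h4
      rw [ContinuousLinearMap.comp_id] at h5
      exact h5.fderiv.symm
    rw [e3, e4]
    exact enorm_avg_fderiv_le hf (hδ.trans_le hδ₀) hr.le x

/-! ### Elementary properties of the truncated maximal function -/

theorem fa_cu_lip {F : E d → ℝ} (hF : ContDiff ℝ 1 F) (hc : HasCompactSupport F) {δ R : ℝ}
    (_hδ : 0 < δ) (hR : δ ≤ R) : ∃ L : ℝ≥0, LipschitzWith L (cu F (fun _ => δ) R) := by
  obtain ⟨L, hL⟩ := fa_lip hF hc
  exact ⟨2 * L, cu_lipschitz (κ := 0) hL hc zero_le_one (LipschitzWith.const δ) (fun _ => hR)⟩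

theorem fa_cu_nonneg {F : E d → ℝ} (hF : Continuous F) (hc : HasCompactSupport F)
    (h0 : ∀ x, 0 ≤ F x) {δ R : ℝ} (hδ : 0 < δ) (hR : δ ≤ R) (x : E d) :
    0 ≤ cu F (fun _ => δ) R x := by
  have h1 := avg_le_cu (f := F) (D := fun _ => δ) (R := R) hF hc (x := x) (r := R) hR le_rfl
  refine le_trans ?_ h1
  rw [tt_avg_eq F x (hδ.trans_le hR)]
  exact mul_nonneg (inv_nonneg.2 measureReal_nonneg) (integral_nonneg h0)

theorem fa_cu_compact {F : E d → ℝ} (hc : HasCompactSupport F) {δ R : ℝ}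
    (hδ : 0 < δ) (hR : δ ≤ R) : HasCompactSupport (cu F (fun _ => δ) R) := by
  obtain ⟨ρ, hρ⟩ := hc.isCompact.isBounded.subset_closedBall (0 : E d)
  apply HasCompactSupport.intro (isCompact_closedBall (0 : E d) (ρ + R))
  intro x hx
  have h0 : ∀ r, δ ≤ r → r ≤ R → avg F x r = 0 := by
    intro r h1 h2
    rw [tt_avg_eq F x (hδ.trans_le h1)]
    have : ∫ z in Metric.closedBall x r, F z = 0 := by
      apply setIntegral_eq_zero_of_forall_eq_zero
      intro z hz
      by_contra hne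
      apply hx
      have h4 := hρ (subset_tsupport F (Function.mem_support.2 hne))
      rw [Metric.mem_closedBall] at h4 hz ⊢
      calc dist x 0 ≤ dist x z + dist z 0 := dist_triangle _ _ _
        _ ≤ r + ρ := by
          gcongr
          rw [dist_comm]
          exact hz
        _ ≤ ρ + R := by linarith only [h2]
    rw [this, mul_zero]
  have h1 : {t | ∃ r, δ ≤ r ∧ r ≤ R ∧ avg F x r = t} = {0} := by
    ext t
    simp only [mem_ofPred_eq, mem_singleton_iff]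
    constructor
    · rintro ⟨r, h1, h2, rfl⟩
      exact h0 r h1 h2
    · rintro rfl
      exact ⟨R, hR, le_rfl, h0 R hR le_rfl⟩
  unfold cu
  rw [h1, csSup_singleton]

/-- The truncated maximal function of a nonnegative function is below the full one. -/
theorem fa_cu_le_max {F φ : E d → ℝ} (hF : Integrable F) (hφ : Integrable φ)
    (h : ∀ x, F x ≤ |φ x|) {δ R : ℝ} (hδ : 0 < δ) (hR : δ ≤ R) (x : E d) :
    ENNReal.ofReal (cu F (fun _ => δ) R x) ≤ centeredMax φ x := by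
  by_cases htop : centeredMax φ x = ⊤
  · simp [htop]
  rw [← ENNReal.ofReal_toReal htop]
  apply ENNReal.ofReal_le_ofReal
  unfold cu
  apply csSup_le
  · exact ⟨_, R, hR, le_rfl, rfl⟩
  · rintro t ⟨r, hr1, hr2, rfl⟩
    have hr0 : 0 < r := hδ.trans_le hr1
    have h9 := tt_A_le_cmax hφ x hr0
    rw [← ENNReal.ofReal_toReal htop] at h9
    have h10 := (ENNReal.ofReal_le_ofReal_iff ENNReal.toReal_nonneg).1 h9
    refine le_trans ?_ h10
    rw [tt_avg_eq F x hr0, ttA]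
    apply mul_le_mul_of_nonneg_left _ (inv_nonneg.2 measureReal_nonneg)
    exact integral_mono hF.restrict hφ.abs.restrict h

/-! ### Sublinearity -/

theorem fa_cmax_add {f g : E d → ℝ} (hf : Integrable f) (x : E d) :
    centeredMax (fun z => f z + g z) x ≤ centeredMax f x + centeredMax g x := by
  unfold centeredMax
  refine iSup_le fun r => iSup_le fun hr => ?_
  have h1 : ∫⁻ z in Metric.ball x r, ‖f z + g z‖ₑ ≤
      (∫⁻ z in Metric.ball x r, ‖f z‖ₑ) + ∫⁻ z in Metric.ball x r, ‖g z‖ₑ := by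
    rw [← lintegral_add_left' hf.aestronglyMeasurable.restrict.enorm]
    exact lintegral_mono fun z => enorm_add_le _ _
  calc (∫⁻ z in Metric.ball x r, ‖f z + g z‖ₑ) / volume (Metric.ball x r)
      ≤ ((∫⁻ z in Metric.ball x r, ‖f z‖ₑ) + ∫⁻ z in Metric.ball x r, ‖g z‖ₑ) /
        volume (Metric.ball x r) := by gcongr
    _ = (∫⁻ z in Metric.ball x r, ‖f z‖ₑ) / volume (Metric.ball x r) +
        (∫⁻ z in Metric.ball x r, ‖g z‖ₑ) / volume (Metric.ball x r) := ENNReal.add_div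
    _ ≤ _ := by
      gcongr
      · exact le_iSup_of_le r (le_iSup_of_le hr le_rfl)
      · exact le_iSup_of_le r (le_iSup_of_le hr le_rfl)

theorem fa_cmax_telescope {φ : ℕ → E d → ℝ} (hφ : ∀ n, Integrable (φ n)) (x : E d) (m : ℕ) :
    centeredMax (φ m) x ≤ centeredMax (φ 0) x +
      ∑ k ∈ Finset.range m, centeredMax (fun z => φ (k + 1) z - φ k z) x := by
  induction m with
  | zero => simp
  | succ m ih =>
    have h1 : φ (m + 1) = fun z => φ m z + (fun z => φ (m + 1) z - φ m z) z := by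
      ext z
      simp
    have h2 := fa_cmax_add (f := φ m) (g := fun z => φ (m + 1) z - φ m z) (hφ m) x
    rw [← h1] at h2
    rw [Finset.sum_range_succ, ← add_assoc]
    exact h2.trans (by gcongr)

/-! ### Approximation by smooth functions -/

/-- The scaled core estimate with constants `C`, `C'`. -/
def FaCore (d : ℕ) (C C' : ℝ≥0) : Prop := ∀ (f : E d → ℝ),
    ContDiff ℝ 1 f → HasCompactSupport f → ∀ (δ : ℝ), 0 < δ → ∀ (K : ℕ) (S : Set (E d)),
    MeasurableSet S →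
    ∫⁻ x in S, ‖fderiv ℝ (cu f (fun _ => δ) (2 * 2 ^ K * δ)) x‖ₑ ≤
      C * ∫⁻ x in Metric.thickening (C' * 2 ^ K * δ) S, ‖fderiv ℝ f x‖ₑ

/-- A sequence of smooth compactly supported functions converging quickly to `f` in `L^1`. -/
structure FaApprox (f : E d → ℝ) (φ : ℕ → E d → ℝ) : Prop where
  smooth : ∀ n, ContDiff ℝ ∞ (φ n)
  compact : ∀ n, HasCompactSupport (φ n)
  close : ∀ n, ∫ x, ‖f x - φ n x‖ ≤ 2⁻¹ ^ (n * (d + 1))

/-- The approximating truncated maximal functions. -/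
noncomputable def faU (φ : ℕ → E d → ℝ) (n : ℕ) : E d → ℝ :=
  cu (faS (2⁻¹ ^ n) (φ n)) (fun _ => 2⁻¹ ^ n) (2 ^ n)

theorem fa_pow_le (n : ℕ) : (2⁻¹ : ℝ) ^ n ≤ 2 ^ n :=
  pow_le_pow_left₀ (by norm_num) (by norm_num) n

theorem fa_pow_pos (n : ℕ) : (0 : ℝ) < 2⁻¹ ^ n := by positivity

namespace FaApprox

variable {f : E d → ℝ} {φ : ℕ → E d → ℝ}

theorem integrable (h : FaApprox f φ) (n : ℕ) : Integrable (φ n) :=
  (h.smooth n).continuous.integrable_of_hasCompactSupport (h.compact n)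

theorem tendsto (h : FaApprox f φ) (hf : Integrable f) (x : E d) :
    Tendsto (fun n => ENNReal.ofReal (faU φ n x)) atTop (𝓝 (centeredMax f x)) := by
  apply cu_tendsto f hf (fun n => faS (2⁻¹ ^ n) (φ n))
  · exact fun n => (faS_contDiff (fa_pow_pos n) (h.smooth n)).continuous
  · exact fun n => faS_compact (fa_pow_pos n) (h.compact n)
  · intro n
    refine ⟨2⁻¹ ^ n, 2⁻¹ ^ (n * (d + 1)), by positivity, by positivity, le_rfl, le_rfl,
      fun x => ‖f x - φ n x‖, (hf.sub (h.integrable n)).norm, fun x => norm_nonneg _, ?_,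
      h.close n⟩
    intro x
    have h1 := faS_le (fa_pow_pos n) (φ n) x
    have h2 := faS_ge (ε := 2⁻¹ ^ n) (φ n) x
    have h3 : |abs (φ n x) - abs (f x)| ≤ ‖f x - φ n x‖ := by
      rw [Real.norm_eq_abs, abs_sub_comm (f x)]
      exact abs_abs_sub_abs_le _ _
    have h4 := abs_le.1 h3
    have h5 := fa_pow_pos n
    rw [abs_le]
    constructor <;> linarith only [h1, h5, h4.2, h2, h4.1]

theorem lip (h : FaApprox f φ) (n : ℕ) : ∃ L : ℝ≥0, LipschitzWith L (faU φ n) :=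
  fa_cu_lip (faS_contDiff (fa_pow_pos n) (h.smooth n)) (faS_compact (fa_pow_pos n) (h.compact n))
    (fa_pow_pos n) (fa_pow_le n)

theorem cont (h : FaApprox f φ) (n : ℕ) : Continuous (faU φ n) := by
  obtain ⟨L, hL⟩ := h.lip n
  exact hL.continuous

theorem compactU (h : FaApprox f φ) (n : ℕ) : HasCompactSupport (faU φ n) :=
  fa_cu_compact (faS_compact (fa_pow_pos n) (h.compact n)) (fa_pow_pos n) (fa_pow_le n)

theorem nonneg (h : FaApprox f φ) (n : ℕ) (x : E d) : 0 ≤ faU φ n x :=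
  fa_cu_nonneg (faS_contDiff (fa_pow_pos n) (h.smooth n)).continuous
    (faS_compact (fa_pow_pos n) (h.compact n)) (fun _ => faS_nonneg _ _) (fa_pow_pos n)
    (fa_pow_le n) x

theorem measurable (h : FaApprox f φ) (hf : Integrable f) : Measurable (centeredMax f) :=
  measurable_of_tendsto_metrizable (fun n => (ENNReal.measurable_ofReal.comp (h.cont n).measurable))
    (tendsto_pi_nhds.2 fun x => h.tendsto hf x)

theorem le_max (h : FaApprox f φ) (n : ℕ) (x : E d) :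
    ENNReal.ofReal (faU φ n x) ≤ centeredMax (φ n) x :=
  fa_cu_le_max ((faS_contDiff (fa_pow_pos n) (h.smooth n)).continuous.integrable_of_hasCompactSupport
    (faS_compact (fa_pow_pos n) (h.compact n))) (h.integrable n)
    (fun x => faS_le (fa_pow_pos n) (φ n) x) (fa_pow_pos n) (fa_pow_le n) x

/-- Integral of the gradient of the smoothed absolute value. -/
theorem lintegral_faS (h : FaApprox f φ) (n : ℕ) (μ : Measure (E d)) :
    ∫⁻ x, ‖fderiv ℝ (faS (2⁻¹ ^ n) (φ n)) x‖ₑ ∂μ ≤ ∫⁻ x, ‖fderiv ℝ (φ n) x‖ₑ ∂μ := by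
  apply lintegral_mono
  intro x
  rw [enorm_le_iff_norm_le]
  exact faS_fderiv (fa_pow_pos n) (h.smooth n) x

theorem grad_bound {C C' : ℝ≥0} (hC : FaCore d C C') (h : FaApprox f φ) (n : ℕ) (hn : 1 ≤ n) :
    ∫⁻ x, ‖fderiv ℝ (faU φ n) x‖ₑ ≤ C * ∫⁻ x, ‖fderiv ℝ (φ n) x‖ₑ := by
  have h1 := hC (faS (2⁻¹ ^ n) (φ n)) (faS_contDiff (fa_pow_pos n) (h.smooth n))
    (faS_compact (fa_pow_pos n) (h.compact n)) (2⁻¹ ^ n) (fa_pow_pos n) (2 * n - 1) univ
    MeasurableSet.univ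
  have h2 : (2 : ℝ) * 2 ^ (2 * n - 1) * 2⁻¹ ^ n = 2 ^ n := by
    rw [← pow_succ', show 2 * n - 1 + 1 = n + n by omega, pow_add, mul_assoc, ← mul_pow]
    norm_num
  rw [h2, Measure.restrict_univ] at h1
  refine h1.trans ?_
  exact mul_le_mul_right ((setLIntegral_le_lintegral _ _).trans (h.lintegral_faS n volume)) _

theorem ball_bound (hd : 0 < d) {C C' : ℝ≥0} (hC : FaCore d C C') (h : FaApprox f φ)
    (hf : Integrable f) {B : ℝ≥0∞} (hB : ∀ n, ∫⁻ x, ‖fderiv ℝ (φ n) x‖ₑ ≤ B) {R : ℝ}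
    (hR : 0 < R) :
    ∫⁻ x in Metric.ball (0 : E d) R, centeredMax f x ≤ ENNReal.ofReal R * (C * B) := by
  have h1 : ∀ x, centeredMax f x = liminf (fun n => ENNReal.ofReal (faU φ n x)) atTop :=
    fun x => (h.tendsto hf x).liminf_eq.symm
  calc ∫⁻ x in Metric.ball (0 : E d) R, centeredMax f x
      = ∫⁻ x in Metric.ball (0 : E d) R, liminf (fun n => ENNReal.ofReal (faU φ n x)) atTop :=
        lintegral_congr fun x => h1 x
    _ ≤ liminf (fun n => ∫⁻ x in Metric.ball (0 : E d) R, ENNReal.ofReal (faU φ n x)) atTop :=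
        lintegral_liminf_le fun n => ENNReal.measurable_ofReal.comp (h.cont n).measurable
    _ ≤ ENNReal.ofReal R * (C * B) := by
        apply liminf_le_of_le
        · exact isBoundedUnder_of ⟨0, fun _ => bot_le⟩
        · intro b hb
          obtain ⟨n, hn1, hn2⟩ := (hb.and (eventually_ge_atTop 1)).exists
          refine hn1.trans ?_
          obtain ⟨L, hL⟩ := h.lip n
          have h2 := slab_bound hd (faU φ n) L hL (h.compactU n) (h.nonneg n) R hR
          have h3 : ∫⁻ x in Metric.ball (0 : E d) R, ENNReal.ofReal (faU φ n x) =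
              ∫⁻ x in Metric.ball (0 : E d) R, ‖faU φ n x‖ₑ := by
            apply lintegral_congr
            intro x
            rw [Real.enorm_of_nonneg (h.nonneg n x)]
          rw [h3]
          refine h2.trans ?_
          gcongr
          refine (h.grad_bound hC n hn2).trans ?_
          gcongr
          exact hB n

end FaApprox

theorem faApprox_const {φ : E d → ℝ} (h1 : ContDiff ℝ ∞ φ) (h2 : HasCompactSupport φ) :
    FaApprox φ (fun _ => φ) where
  smooth _ := h1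
  compact _ := h2
  close n := by simp only [sub_self, norm_zero, integral_zero, inv_pow, inv_nonneg, Nat.ofNat_nonneg, pow_nonneg]

theorem fa_ball_smooth (hd : 0 < d) {C C' : ℝ≥0} (hC : FaCore d C C') {φ : E d → ℝ}
    (h1 : ContDiff ℝ ∞ φ) (h2 : HasCompactSupport φ) {R : ℝ} (hR : 0 < R) :
    ∫⁻ x in Metric.ball (0 : E d) R, centeredMax φ x ≤
      ENNReal.ofReal R * (C * ∫⁻ x, ‖fderiv ℝ φ x‖ₑ) :=
  (faApprox_const h1 h2).ball_bound hd hC (h1.continuous.integrable_of_hasCompactSupport h2)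
    (fun _ => le_rfl) hR

theorem fa_measurable_smooth {φ : E d → ℝ}
    (h1 : ContDiff ℝ ∞ φ) (h2 : HasCompactSupport φ) : Measurable (centeredMax φ) :=
  (faApprox_const h1 h2).measurable (h1.continuous.integrable_of_hasCompactSupport h2)

namespace FaApprox

variable {f : E d → ℝ} {φ : ℕ → E d → ℝ}

/-- The dominating function. -/
theorem dominate (h : FaApprox f φ) (n : ℕ) (x : E d) :
    ENNReal.ofReal (faU φ n x) ≤ centeredMax (φ 0) x +
      ∑' k, centeredMax (fun z => φ (k + 1) z - φ k z) x :=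
  (h.le_max n x).trans ((fa_cmax_telescope h.integrable x n).trans (by
    gcongr
    exact ENNReal.sum_le_tsum _))

theorem dominate_lt (hd : 0 < d) {C C' : ℝ≥0} (hC : FaCore d C C') (h : FaApprox f φ)
    (hsum : ∑' k, ∫⁻ x, ‖fderiv ℝ (fun z => φ (k + 1) z - φ k z) x‖ₑ ≠ ⊤) {R : ℝ}
    (hR : 0 < R) :
    ∫⁻ x in Metric.ball (0 : E d) R, (centeredMax (φ 0) x +
      ∑' k, centeredMax (fun z => φ (k + 1) z - φ k z) x) ≠ ⊤ := by
  have hs : ∀ k, ContDiff ℝ ∞ (fun z => φ (k + 1) z - φ k z) := fun k =>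
    (h.smooth (k + 1)).sub (h.smooth k)
  have hc : ∀ k, HasCompactSupport (fun z => φ (k + 1) z - φ k z) := fun k =>
    (h.compact (k + 1)).sub (h.compact k)
  rw [lintegral_add_left (fa_measurable_smooth (h.smooth 0) (h.compact 0)),
    lintegral_tsum fun k => (fa_measurable_smooth (hs k) (hc k)).aemeasurable]
  have h1 : ∫⁻ x in Metric.ball (0 : E d) R, centeredMax (φ 0) x ≠ ⊤ := by
    refine ne_top_of_le_ne_top ?_ (fa_ball_smooth hd hC (h.smooth 0) (h.compact 0) hR)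
    apply ENNReal.mul_ne_top ENNReal.ofReal_ne_top
    apply ENNReal.mul_ne_top ENNReal.coe_ne_top
    have h2 : Integrable (fderiv ℝ (φ 0)) :=
      ((h.smooth 0).continuous_fderiv (by simp)).integrable_of_hasCompactSupport
        ((h.compact 0).fderiv ℝ)
    exact h2.2.ne
  have h2 : ∑' k, ∫⁻ x in Metric.ball (0 : E d) R,
      centeredMax (fun z => φ (k + 1) z - φ k z) x ≠ ⊤ := by
    have h3 : ∑' k, ∫⁻ x in Metric.ball (0 : E d) R,
        centeredMax (fun z => φ (k + 1) z - φ k z) x ≤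
        ∑' k, ENNReal.ofReal R * (C * ∫⁻ x, ‖fderiv ℝ (fun z => φ (k + 1) z - φ k z) x‖ₑ) :=
      ENNReal.tsum_le_tsum fun k => fa_ball_smooth hd hC (hs k) (hc k) hR
    refine ne_top_of_le_ne_top ?_ h3
    rw [ENNReal.tsum_mul_left, ENNReal.tsum_mul_left]
    exact ENNReal.mul_ne_top ENNReal.ofReal_ne_top (ENNReal.mul_ne_top ENNReal.coe_ne_top hsum)
  exact ENNReal.add_ne_top.2 ⟨h1, h2⟩

theorem ae_lt_top (hd : 0 < d) {C C' : ℝ≥0} (hC : FaCore d C C') (h : FaApprox f φ)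
    (hf : Integrable f) {B : ℝ≥0∞} (hB : ∀ n, ∫⁻ x, ‖fderiv ℝ (φ n) x‖ₑ ≤ B) (hB' : B ≠ ⊤) :
    ∀ᵐ x, centeredMax f x < ⊤ := by
  have h1 : ∀ k : ℕ, ∀ᵐ x : E d, x ∈ Metric.ball (0 : E d) (k + 1) → centeredMax f x < ⊤ := by
    intro k
    rw [← ae_restrict_iff' measurableSet_ball]
    apply MeasureTheory.ae_lt_top (h.measurable hf)
    refine ne_top_of_le_ne_top ?_ (h.ball_bound hd hC hf hB (by (clear * -; positivity)))
    exact ENNReal.mul_ne_top ENNReal.ofReal_ne_top (ENNReal.mul_ne_top ENNReal.coe_ne_top hB')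
  rw [← ae_all_iff] at h1
  filter_upwards [h1] with x hx
  obtain ⟨k, hk⟩ := exists_nat_gt ‖x‖
  apply hx k
  rw [mem_ball_zero_iff]
  linarith only [hk]

theorem L1 (hd : 0 < d) {C C' : ℝ≥0} (hC : FaCore d C C') (h : FaApprox f φ)
    (hf : Integrable f) {B : ℝ≥0∞} (hB : ∀ n, ∫⁻ x, ‖fderiv ℝ (φ n) x‖ₑ ≤ B) (hB' : B ≠ ⊤)
    (hsum : ∑' k, ∫⁻ x, ‖fderiv ℝ (fun z => φ (k + 1) z - φ k z) x‖ₑ ≠ ⊤) (R : ℝ) :
    Tendsto (fun n => ∫⁻ x in Metric.ball (0 : E d) R,
      ‖faU φ n x - (centeredMax f x).toReal‖ₑ) atTop (𝓝 0) := by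
  rcases le_or_gt R 0 with hR | hR
  · simp only [Metric.ball_eq_empty.2 hR, Measure.restrict_empty, lintegral_zero_measure, tendsto_const_nhds_iff]
  set Φ : E d → ℝ≥0∞ := fun x => centeredMax (φ 0) x +
      ∑' k, centeredMax (fun z => φ (k + 1) z - φ k z) x with hΦ
  have hΦm : Measurable Φ := by
    apply (fa_measurable_smooth (h.smooth 0) (h.compact 0)).add
    apply Measurable.tsum
    intro k
    exact fa_measurable_smooth ((h.smooth (k + 1)).sub (h.smooth k))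
      ((h.compact (k + 1)).sub (h.compact k))
  have h1 : Tendsto (fun n => ∫⁻ x in Metric.ball (0 : E d) R,
      ‖faU φ n x - (centeredMax f x).toReal‖ₑ) atTop
      (𝓝 (∫⁻ x in Metric.ball (0 : E d) R, 0)) := by
    apply tendsto_lintegral_of_dominated_convergence (fun x => Φ x + Φ x)
    · intro n
      exact ((h.cont n).measurable.sub (h.measurable hf).ennreal_toReal).enorm
    · intro n
      apply Eventually.of_forall
      intro x
      calc ‖faU φ n x - (centeredMax f x).toReal‖ₑ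
          ≤ ‖faU φ n x‖ₑ + ‖(centeredMax f x).toReal‖ₑ := enorm_sub_le
        _ ≤ Φ x + Φ x := by
          gcongr
          · rw [Real.enorm_of_nonneg (h.nonneg n x)]
            exact h.dominate n x
          · rw [Real.enorm_of_nonneg ENNReal.toReal_nonneg]
            refine ENNReal.ofReal_toReal_le.trans ?_
            exact le_of_tendsto' (h.tendsto hf x) fun n => h.dominate n x
    · rw [lintegral_add_left hΦm]
      have := h.dominate_lt hd hC hsum hR
      exact ENNReal.add_ne_top.2 ⟨this, this⟩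
    · apply ae_restrict_of_ae
      filter_upwards [h.ae_lt_top hd hC hf hB hB'] with x hx
      have h2 : Tendsto (fun n => faU φ n x) atTop (𝓝 (centeredMax f x).toReal) := by
        have h3 := (ENNReal.tendsto_toReal hx.ne).comp (h.tendsto hf x)
        refine h3.congr fun n => ?_
        exact ENNReal.toReal_ofReal (h.nonneg n x)
      have h3 : Tendsto (fun n => faU φ n x - (centeredMax f x).toReal) atTop (𝓝 0) := by
        simpa only [sub_self] using h2.sub_const (centeredMax f x).toReal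
      have h4 := (continuous_enorm.tendsto (0 : ℝ)).comp h3
      rw [enorm_zero] at h4
      exact h4
  simpa only [lintegral_const, MeasurableSet.univ, Measure.restrict_apply, univ_inter, zero_mul] using h1

end FaApprox

namespace FaApprox

variable {f : E d → ℝ} {φ : ℕ → E d → ℝ}

theorem local_bound {C C' : ℝ≥0} (hC : FaCore d C C') (h : FaApprox f φ) {n j : ℕ}
    (hn : j + 1 ≤ n) {O : Set (E d)} (hO : MeasurableSet O) :
    ∫⁻ x in O, ‖fderiv ℝ (faU φ n) x‖ₑ ≤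
      C * (∫⁻ x in Metric.thickening (C' * 2⁻¹ ^ (j + 1)) O, ‖fderiv ℝ (φ n) x‖ₑ) +
        (∫⁻ x, ‖fderiv ℝ (φ n) x‖ₑ) / volume (Metric.ball (0 : E d) (2⁻¹ ^ j)) * volume O := by
  have hF := faS_contDiff (fa_pow_pos n) (h.smooth n)
  have hFc := faS_compact (fa_pow_pos n) (h.compact n)
  have hle : (2⁻¹ : ℝ) ^ n ≤ 2⁻¹ ^ j :=
    pow_le_pow_of_le_one (by norm_num) (by norm_num) (by omega)
  have hle2 : (2⁻¹ : ℝ) ^ j ≤ 2 ^ n :=
    (pow_le_one₀ (by norm_num) (by norm_num)).trans (one_le_pow₀ (by norm_num))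
  have hK : (2 : ℝ) * 2 ^ (n - j - 1) * 2⁻¹ ^ n = 2⁻¹ ^ j := by
    obtain ⟨k, rfl⟩ := Nat.exists_eq_add_of_le hn
    rw [show j + 1 + k - j - 1 = k by omega, pow_add, pow_add]
    simp only [inv_pow, pow_one]
    field_simp
  have hK2 : (2 : ℝ) ^ (n - j - 1) * 2⁻¹ ^ n = 2⁻¹ ^ (j + 1) := by
    rw [pow_succ]
    linarith only [hK]
  have h1 := hC (faS (2⁻¹ ^ n) (φ n)) hF hFc (2⁻¹ ^ n) (fa_pow_pos n) (n - j - 1) O hO
  rw [hK, mul_assoc, hK2] at h1
  obtain ⟨L1, hL1⟩ := h.lip n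
  obtain ⟨L2, hL2⟩ := fa_cu_lip hF hFc (fa_pow_pos n) hle
  have h2 : ∀ᵐ x : E d, ‖fderiv ℝ (faU φ n) x‖ₑ ≤
      ‖fderiv ℝ (cu (faS (2⁻¹ ^ n) (φ n)) (fun _ => 2⁻¹ ^ n) (2⁻¹ ^ j)) x‖ₑ +
      (∫⁻ z, ‖fderiv ℝ (faS (2⁻¹ ^ n) (φ n)) z‖ₑ) /
        volume (Metric.ball (0 : E d) (2⁻¹ ^ j)) := by
    filter_upwards [hL1.ae_differentiableAt, hL2.ae_differentiableAt] with x hx1 hx2
    exact fderiv_cu_large (faS (2⁻¹ ^ n) (φ n)) hF hFc (2⁻¹ ^ j) (2⁻¹ ^ n) (2 ^ n)
      (fa_pow_pos n) hle hle2 x hx1 hx2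
  calc ∫⁻ x in O, ‖fderiv ℝ (faU φ n) x‖ₑ
      ≤ ∫⁻ x in O, (‖fderiv ℝ (cu (faS (2⁻¹ ^ n) (φ n)) (fun _ => 2⁻¹ ^ n) (2⁻¹ ^ j)) x‖ₑ +
      (∫⁻ z, ‖fderiv ℝ (faS (2⁻¹ ^ n) (φ n)) z‖ₑ) /
        volume (Metric.ball (0 : E d) (2⁻¹ ^ j))) := lintegral_mono_ae (ae_restrict_of_ae h2)
    _ = (∫⁻ x in O, ‖fderiv ℝ (cu (faS (2⁻¹ ^ n) (φ n)) (fun _ => 2⁻¹ ^ n) (2⁻¹ ^ j)) x‖ₑ) +
      (∫⁻ z, ‖fderiv ℝ (faS (2⁻¹ ^ n) (φ n)) z‖ₑ) /
        volume (Metric.ball (0 : E d) (2⁻¹ ^ j)) * volume O := by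
        rw [lintegral_add_right _ measurable_const, setLIntegral_const]
    _ ≤ _ := by
        refine add_le_add (h1.trans (mul_le_mul_right (h.lintegral_faS n _) _)) ?_
        exact mul_le_mul_left (ENNReal.div_le_div_right (h.lintegral_faS n _) _) _

theorem hac {C C' : ℝ≥0} (hC : FaCore d C C') (h : FaApprox f φ) {g : E d → E d}
    (hg : Integrable g)
    (hgφ : ∀ n, ∫⁻ x, ‖g x - gradient (φ n) x‖ₑ ≤ ENNReal.ofReal (2⁻¹ ^ n))
    (G : Set (E d)) (hG : IsCompact G) (hG0 : volume G = 0) (ε : ℝ≥0∞) (hε : 0 < ε) :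
    ∃ O : Set (E d), IsOpen O ∧ G ⊆ O ∧
      ∀ᶠ n in atTop, ∫⁻ x in O, ‖fderiv ℝ (faU φ n) x‖ₑ ≤ ε := by
  -- step 1: choose the scale `2⁻¹ ^ j`
  set ν : Measure (E d) := volume.withDensity fun x => ‖g x‖ₑ with hν
  have hνfin : IsFiniteMeasure ν := isFiniteMeasure_withDensity hg.2.ne
  have hνG : ν G = 0 := withDensity_absolutelyContinuous _ _ hG0
  have ht1 : Tendsto (fun r => ν (Metric.thickening r G)) (𝓝[>] 0) (𝓝 0) := by
    rw [← hνG]
    exact tendsto_measure_thickening_of_isClosed ⟨1, one_pos, measure_ne_top _ _⟩ hG.isClosed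
  have ht2 : Tendsto (fun r => volume (Metric.thickening r G)) (𝓝[>] 0) (𝓝 0) := by
    rw [← hG0]
    have hGb : Bornology.IsBounded (Metric.thickening 1 G) := hG.isBounded.thickening
    have hGfin : volume (Metric.thickening 1 G) < ⊤ :=
      Bornology.IsBounded.measure_lt_top (μ := volume) hGb
    exact tendsto_measure_thickening_of_isClosed ⟨1, one_pos, hGfin.ne⟩ hG.isClosed
  have hj : Tendsto (fun j : ℕ => ((C' : ℝ) + 1) * 2⁻¹ ^ j) atTop (𝓝[>] 0) := by
    rw [tendsto_nhdsWithin_iff]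
    constructor
    · have h1 : Tendsto (fun n : ℕ => (2⁻¹ : ℝ) ^ n) atTop (𝓝 0) :=
        tendsto_pow_atTop_nhds_zero_of_lt_one (by norm_num) (by norm_num)
      simpa only [inv_pow, mul_zero] using h1.const_mul ((C' : ℝ) + 1)
    · exact Eventually.of_forall fun n => by
        simp only [mem_Ioi]
        (clear * -; positivity)
  have hC1 : Tendsto (fun j : ℕ => (C : ℝ≥0∞) * ν (Metric.thickening (((C' : ℝ) + 1) * 2⁻¹ ^ j) G))
      atTop (𝓝 0) := by
    have h2 := ENNReal.Tendsto.const_mul (ht1.comp hj) (Or.inr (ENNReal.coe_ne_top (r := C)))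
    rw [mul_zero] at h2
    exact h2
  have hε3 : 0 < ε / 3 := ENNReal.div_pos hε.ne' (by norm_num)
  obtain ⟨j, hj1⟩ := (hC1.eventually_lt_const hε3).exists
  -- step 2: choose the radius of the neighbourhood
  set B : ℝ≥0∞ := ((∫⁻ x, ‖g x‖ₑ) + 1) / volume (Metric.ball (0 : E d) (2⁻¹ ^ j)) with hB
  have hBtop : B ≠ ⊤ := by
    apply ENNReal.div_ne_top
    · exact ENNReal.add_ne_top.2 ⟨hg.2.ne, ENNReal.one_ne_top⟩
    · exact (Metric.measure_ball_pos volume 0 (fa_pow_pos j)).ne'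
  have ht3 : Tendsto (fun r => B * volume (Metric.thickening r G)) (𝓝[>] 0) (𝓝 0) := by
    have h2 := ENNReal.Tendsto.const_mul ht2 (Or.inr hBtop)
    rw [mul_zero] at h2
    exact h2
  have hsmall : ∀ᶠ r : ℝ in 𝓝[>] 0, r < 2⁻¹ ^ (j + 1) :=
    (eventually_lt_nhds (fa_pow_pos (j + 1))).filter_mono nhdsWithin_le_nhds
  obtain ⟨η, hη1, hη2, hη0⟩ :=
    ((ht3.eventually_lt_const hε3).and (hsmall.and eventually_mem_nhdsWithin)).exists
  simp only [mem_Ioi] at hη0
  refine ⟨Metric.thickening η G, Metric.isOpen_thickening, Metric.self_subset_thickening hη0 G, ?_⟩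
  -- step 3: large `n`
  have ht4 : Tendsto (fun n : ℕ => (C : ℝ≥0∞) * ENNReal.ofReal (2⁻¹ ^ n)) atTop (𝓝 0) := by
    have h1 : Tendsto (fun n : ℕ => (2⁻¹ : ℝ) ^ n) atTop (𝓝 0) :=
      tendsto_pow_atTop_nhds_zero_of_lt_one (by norm_num) (by norm_num)
    have h2 := ENNReal.Tendsto.const_mul (ENNReal.tendsto_ofReal h1)
      (Or.inr (ENNReal.coe_ne_top (r := C)))
    rw [ENNReal.ofReal_zero, mul_zero] at h2
    exact h2
  filter_upwards [ht4.eventually_lt_const hε3, eventually_ge_atTop (j + 1)] with n hn1 hn2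
  refine (h.local_bound hC hn2 Metric.isOpen_thickening.measurableSet).trans ?_
  have h5 : ∫⁻ x in Metric.thickening (C' * 2⁻¹ ^ (j + 1)) (Metric.thickening η G),
      ‖fderiv ℝ (φ n) x‖ₑ ≤ ν (Metric.thickening (((C' : ℝ) + 1) * 2⁻¹ ^ j) G) +
        ENNReal.ofReal (2⁻¹ ^ n) := by
    refine (fa_set_grad hg (hgφ n) _).trans ?_
    gcongr
    rw [hν, withDensity_apply _ Metric.isOpen_thickening.measurableSet]
    apply lintegral_mono_set
    refine (Metric.thickening_thickening_subset _ _ _).trans (Metric.thickening_mono ?_ _)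
    have hC'0 : (0 : ℝ) ≤ C' := C'.2
    have hp := fa_pow_pos j
    rw [pow_succ] at hη2 ⊢
    linarith only [hη2, hp, mul_nonneg hC'0 hp.le]
  have h6 : ∫⁻ x, ‖fderiv ℝ (φ n) x‖ₑ ≤ (∫⁻ x, ‖g x‖ₑ) + 1 := by
    have h7 := fa_set_grad hg (hgφ n) univ
    rw [Measure.restrict_univ] at h7
    refine h7.trans ?_
    gcongr
    rw [← ENNReal.ofReal_one]
    exact ENNReal.ofReal_le_ofReal (pow_le_one₀ (by norm_num) (by norm_num))
  calc _ ≤ C * (ν (Metric.thickening (((C' : ℝ) + 1) * 2⁻¹ ^ j) G) +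
        ENNReal.ofReal (2⁻¹ ^ n)) + B * volume (Metric.thickening η G) := by
        refine add_le_add (mul_le_mul_right h5 _) ?_
        exact mul_le_mul_left (ENNReal.div_le_div_right h6 _) _
    _ ≤ ε / 3 + ε / 3 + ε / 3 := by
        rw [mul_add]
        (clear * - hj1 hη1 hn1; gcongr)
    _ = ε := ENNReal.add_thirds ε

end FaApprox

/-- Final theorem. -/
theorem final_of (hd : 0 < d) {C C' : ℝ≥0} (hCore : FaCore d C C') : ∃ C : ℝ, ∀ (f : E d → ℝ) (g : E d → E d), Integrable f →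
    Integrable g → IsWeakGradient f g →
    (∀ᵐ x, centeredMax f x < ⊤) ∧
    ∃ h : E d → E d, IsWeakGradient (fun x => (centeredMax f x).toReal) h ∧ Integrable h ∧
      ∫ x, ‖h x‖ ≤ C * ∫ x, ‖g x‖ := by
  refine ⟨2 * d * C, ?_⟩
  intro f g hf hg hw
  have hdens : ∀ n : ℕ, ∃ φ : E d → ℝ, ContDiff ℝ ∞ φ ∧ HasCompactSupport φ ∧
      ∫ x, ‖f x - φ x‖ ≤ 2⁻¹ ^ (n * (d + 1)) ∧ ∫ x, ‖g x - gradient φ x‖ ≤ 2⁻¹ ^ (n * (d + 1)) :=
    fun n => density hf hg hw (by positivity)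
  choose φ hφ1 hφ2 hφ3 hφ4 using hdens
  have h : FaApprox f φ := ⟨hφ1, hφ2, hφ3⟩
  have hgφ : ∀ n, ∫⁻ x, ‖g x - gradient (φ n) x‖ₑ ≤ ENNReal.ofReal (2⁻¹ ^ n) := by
    intro n
    have h1 : ENNReal.ofReal (∫ x, ‖g x - gradient (φ n) x‖) =
        ∫⁻ x, ‖g x - gradient (φ n) x‖ₑ :=
      ofReal_integral_norm_eq_lintegral_enorm (hg.sub (fa_integrable_gradient (hφ1 n) (hφ2 n)))
    rw [← h1]
    apply ENNReal.ofReal_le_ofReal
    refine (hφ4 n).trans (pow_le_pow_of_le_one (by norm_num) (by norm_num) ?_)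
    nlinarith only []
  have hgn : ∀ n, ∫⁻ x, ‖fderiv ℝ (φ n) x‖ₑ ≤ (∫⁻ x, ‖g x‖ₑ) + ENNReal.ofReal (2⁻¹ ^ n) := by
    intro n
    have h7 := fa_set_grad hg (hgφ n) univ
    rwa [Measure.restrict_univ] at h7
  have hB : ∀ n, ∫⁻ x, ‖fderiv ℝ (φ n) x‖ₑ ≤ (∫⁻ x, ‖g x‖ₑ) + 1 := by
    intro n
    refine (hgn n).trans ?_
    gcongr
    rw [← ENNReal.ofReal_one]
    exact ENNReal.ofReal_le_ofReal (pow_le_one₀ (by norm_num) (by norm_num))
  have hB' : (∫⁻ x, ‖g x‖ₑ) + 1 ≠ ⊤ := ENNReal.add_ne_top.2 ⟨hg.2.ne, ENNReal.one_ne_top⟩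
  have hsum : ∑' k, ∫⁻ x, ‖fderiv ℝ (fun z => φ (k + 1) z - φ k z) x‖ₑ ≠ ⊤ := by
    have h1 : ∀ k, ∫⁻ x, ‖fderiv ℝ (fun z => φ (k + 1) z - φ k z) x‖ₑ ≤
        ENNReal.ofReal (2⁻¹ ^ (k + 1)) + ENNReal.ofReal (2⁻¹ ^ k) := by
      intro k
      have h2 : ∀ x, ‖fderiv ℝ (fun z => φ (k + 1) z - φ k z) x‖ₑ ≤
          ‖g x - gradient (φ (k + 1)) x‖ₑ + ‖g x - gradient (φ k) x‖ₑ := by
        intro x
        have e1 : fderiv ℝ (fun z => φ (k + 1) z - φ k z) x =
            fderiv ℝ (φ (k + 1)) x - fderiv ℝ (φ k) x :=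
          fderiv_fun_sub ((hφ1 (k + 1)).differentiable (by simp)).differentiableAt
            ((hφ1 k).differentiable (by simp)).differentiableAt
        have e2 : gradient (fun z => φ (k + 1) z - φ k z) x =
            gradient (φ (k + 1)) x - gradient (φ k) x := by
          unfold gradient
          rw [e1, map_sub]
        rw [← fa_enorm_gradient, e2]
        have e3 : gradient (φ (k + 1)) x - gradient (φ k) x =
            (g x - gradient (φ k) x) - (g x - gradient (φ (k + 1)) x) := by abel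
        rw [e3, add_comm ‖g x - gradient (φ (k + 1)) x‖ₑ]
        exact enorm_sub_le (a := g x - gradient (φ k) x) (b := g x - gradient (φ (k + 1)) x)
      calc _ ≤ ∫⁻ x, (‖g x - gradient (φ (k + 1)) x‖ₑ + ‖g x - gradient (φ k) x‖ₑ) :=
            lintegral_mono h2
        _ = _ := lintegral_add_left'
            (hg.sub (fa_integrable_gradient (hφ1 (k + 1)) (hφ2 (k + 1)))).aestronglyMeasurable.enorm _
        _ ≤ _ := add_le_add (hgφ (k + 1)) (hgφ k)
    refine ne_top_of_le_ne_top ?_ (ENNReal.tsum_le_tsum h1)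
    rw [ENNReal.tsum_add]
    have hs : Summable fun k : ℕ => (2⁻¹ : ℝ) ^ k :=
      summable_geometric_of_lt_one (by norm_num) (by norm_num)
    have hs1 : Summable fun k : ℕ => (2⁻¹ : ℝ) ^ (k + 1) := (summable_nat_add_iff 1).2 hs
    rw [← ENNReal.ofReal_tsum_of_nonneg (fun k => by (clear * -; positivity)) hs,
      ← ENNReal.ofReal_tsum_of_nonneg (fun k => by (clear * -; positivity)) hs1]
    exact ENNReal.add_ne_top.2 ⟨ENNReal.ofReal_ne_top, ENNReal.ofReal_ne_top⟩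
  have hfin := h.ae_lt_top hd hCore hf hB hB'
  refine ⟨hfin, ?_⟩
  -- local integrability of the maximal function
  have hloc : LocallyIntegrable fun x => (centeredMax f x).toReal := by
    rw [locallyIntegrable_iff]
    intro K hK
    obtain ⟨R, hR⟩ := hK.isBounded.subset_ball (0 : E d)
    have hR' : K ⊆ Metric.ball (0 : E d) (max R 1) :=
      hR.trans (Metric.ball_subset_ball (le_max_left _ _))
    refine IntegrableOn.mono_set ?_ hR'
    refine ⟨(h.measurable hf).ennreal_toReal.aestronglyMeasurable, ?_⟩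
    rw [hasFiniteIntegral_iff_enorm]
    have h1 : ∫⁻ x in Metric.ball (0 : E d) (max R 1), ‖(centeredMax f x).toReal‖ₑ ≤
        ∫⁻ x in Metric.ball (0 : E d) (max R 1), centeredMax f x := by
      apply lintegral_mono
      intro x
      simp only
      rw [Real.enorm_of_nonneg ENNReal.toReal_nonneg]
      exact ENNReal.ofReal_toReal_le
    refine h1.trans_lt ((h.ball_bound hd hCore hf hB (by (clear * -; positivity))).trans_lt ?_)
    exact (ENNReal.mul_ne_top ENNReal.ofReal_ne_top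
      (ENNReal.mul_ne_top ENNReal.coe_ne_top hB')).lt_top
  have hg1 : (0 : ℝ) ≤ ∫ x, ‖g x‖ := integral_nonneg fun _ => norm_nonneg _
  set G1 : ℝ≥0 := ⟨∫ x, ‖g x‖, hg1⟩ with hG1
  have hG1' : ∫⁻ x, ‖g x‖ₑ = (G1 : ℝ≥0∞) := by
    rw [← ofReal_integral_norm_eq_lintegral_enorm hg, hG1, ENNReal.ofReal]
    congr 1
    exact Real.toNNReal_of_nonneg hg1
  have hex : ∀ s : ℕ, ∃ h : E d → E d, IsWeakGradient (fun x => (centeredMax f x).toReal) h ∧
      Integrable h ∧ ∫ x, ‖h x‖ ≤ 2 * d * (C * (G1 + 2⁻¹ ^ s) : ℝ≥0) := by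
    intro s
    apply weak_limit (fun x => (centeredMax f x).toReal) (fun n => faU φ (n + (s + 1)))
    · exact fun n => h.lip _
    · exact hloc
    · intro R
      exact (h.L1 hd hCore hf hB hB' hsum R).comp (tendsto_add_atTop_nat (s + 1))
    · intro n
      refine (h.grad_bound hCore (n + (s + 1)) (by (clear * -; omega))).trans ?_
      push_cast
      gcongr
      refine (hgn _).trans ?_
      rw [hG1']
      gcongr
      have h2 : ((2 : ℝ≥0∞)⁻¹) ^ s = ENNReal.ofReal (2⁻¹ ^ s) := by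
        rw [ENNReal.ofReal_pow (by norm_num), ENNReal.ofReal_inv_of_pos (by norm_num)]
        norm_num
      rw [h2]
      exact ENNReal.ofReal_le_ofReal
        (pow_le_pow_of_le_one (by norm_num) (by norm_num) (by (clear * -; omega)))
    · intro G hG hG0 ε hε
      obtain ⟨O, hO1, hO2, hO3⟩ := h.hac hCore hg hgφ G hG hG0 ε hε
      exact ⟨O, hO1, hO2, (tendsto_add_atTop_nat (s + 1)).eventually hO3⟩
  choose hh hh1 hh2 hh3 using hex
  refine ⟨hh 0, hh1 0, hh2 0, ?_⟩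
  have hall : ∀ s : ℕ, ∫ x, ‖hh 0 x‖ ≤ 2 * d * (C * ((∫ x, ‖g x‖) + 2⁻¹ ^ s)) := by
    intro s
    have h1 : ∫ x, ‖hh 0 x‖ = ∫ x, ‖hh s x‖ := by
      apply integral_congr_ae
      filter_upwards [fa_unique (hh1 0) (hh1 s)] with x hx
      rw [hx]
    rw [h1]
    refine (hh3 s).trans (le_of_eq ?_)
    push_cast
    rfl
  have hlim : Tendsto (fun s : ℕ => 2 * (d : ℝ) * (C * ((∫ x, ‖g x‖) + 2⁻¹ ^ s))) atTop
      (𝓝 (2 * (d : ℝ) * (C * ((∫ x, ‖g x‖) + 0)))) := by
    have h1 : Tendsto (fun n : ℕ => (2⁻¹ : ℝ) ^ n) atTop (𝓝 0) :=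
      tendsto_pow_atTop_nhds_zero_of_lt_one (by norm_num) (by norm_num)
    exact ((h1.const_add _).const_mul _).const_mul _
  have := ge_of_tendsto' hlim hall
  rw [add_zero] at this
  linarith only [this]


/-- The centered bound from the scaled estimate. -/
theorem centeredBound_of_faCore (hd : 0 < d) {C C' : ℝ≥0} (hCore : FaCore d C C') :
    ∃ C : ℝ, CenteredBound (EuclideanSpace ℝ (Fin d)) C := by
  obtain ⟨C, hC⟩ := final_of hd hCore
  refine ⟨C, fun f g hf hg hw => ?_⟩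
  obtain ⟨h1, G, h2, h3, h4⟩ := hC f g hf hg (isWeak_of_weakGrad hw)
  refine ⟨?_, G, h3, weakGrad_of_isWeak h2, h4⟩
  filter_upwards [h1] with x hx
  exact hx.ne

end Vale.Agent.P137.U.Cen
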