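import Vale.Agent.P137.C.Core2
import Vale.Agent.P137.C.Final

/-!
# P137, centered operator: the centered bound from `SpecForest`, `SpecOrigin`, `SpecPerTree`.
-/

open MeasureTheory Set Filter Topology
open scoped ENNReal NNReal ContDiff

namespace Vale.Agent.P137.U.Cen.Co2

open Vale.Agent.P137 Vale.Agent.P137.U Vale.Agent.P137.U.Cen

variable {d : ℕ}

theorem faCore_of (hd : 0 < d) (h1 : SpecForest d) (h2 : SpecOrigin d) (h3 : SpecPerTree d) :
    ∃ C C' : ℝ≥0, FaCore d C C' :=
  core_scaled_c hd h1 h2 h3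

theorem centeredBound_of (hd : 0 < d) (h1 : SpecForest d) (h2 : SpecOrigin d)
    (h3 : SpecPerTree d) : ∃ C : ℝ, CenteredBound (EuclideanSpace ℝ (Fin d)) C := by
  obtain ⟨C, C', h⟩ := faCore_of hd h1 h2 h3
  exact centeredBound_of_faCore hd h

end Vale.Agent.P137.U.Cen.Co2
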