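import Vale.Agent.P137.C.Spec

/-!
# Radial kernels for the centered maximal function (blueprint P137, section 3)
-/

set_option linter.all false

open MeasureTheory Set Filter Topology
open scoped ENNReal NNReal

namespace Vale.Agent.P137.U.Cen

open Vale.Agent.P137 Vale.Agent.P137.U

variable {d : ℕ}

namespace Id

/-- The functional `L`: pairing of a field with the gradient of `f`. -/
noncomputable def LL (f : E d → ℝ) (K : E d → E d) : ℝ := ∫ z, inner ℝ (K z) (gradient f z)

/-- Radial cutoff profile: equal to `1` for `t ≤ a`, to `0` for `t ≥ b`, and to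
`(t^{-d} - b^{-d}) / (a^{-d} - b^{-d})` in between. -/
noncomputable def thr (d : ℕ) (a b t : ℝ) : ℝ :=
  max 0 (((max a t) ^ d)⁻¹ - (b ^ d)⁻¹) / ((a ^ d)⁻¹ - (b ^ d)⁻¹)

/-- The rescaled position `(z - x) / r`. -/
noncomputable def ww (x : E d) (r : ℝ) (z : E d) : E d := r⁻¹ • (z - x)

/-! ### The profile -/

section Profile

variable {a b t : ℝ}

theorem inv_pow_lt (hd : 0 < d) (ha : 0 < a) (hab : a < b) : (b ^ d)⁻¹ < (a ^ d)⁻¹ := by
  have h1 : a ^ d < b ^ d := pow_lt_pow_left₀ hab ha.le hd.ne'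
  exact inv_strictAnti₀ (pow_pos ha d) h1

theorem thr_den_pos (hd : 0 < d) (ha : 0 < a) (hab : a < b) : 0 < (a ^ d)⁻¹ - (b ^ d)⁻¹ :=
  sub_pos.2 (inv_pow_lt hd ha hab)

theorem thr_nonneg (hd : 0 < d) (ha : 0 < a) (hab : a < b) (t : ℝ) : 0 ≤ thr d a b t :=
  div_nonneg (le_max_left _ _) (thr_den_pos hd ha hab).le

theorem thr_le_one (hd : 0 < d) (ha : 0 < a) (hab : a < b) (t : ℝ) : thr d a b t ≤ 1 := by
  have h0 := thr_den_pos hd ha hab
  rw [thr, div_le_one h0]
  refine max_le h0.le ?_
  have h1 : ((max a t) ^ d)⁻¹ ≤ (a ^ d)⁻¹ := by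
    apply inv_anti₀ (pow_pos ha d)
    exact pow_le_pow_left₀ ha.le (le_max_left _ _) d
  linarith

theorem thr_of_le (hd : 0 < d) (ha : 0 < a) (hab : a < b) (ht : t ≤ a) : thr d a b t = 1 := by
  have h0 := thr_den_pos hd ha hab
  rw [thr, max_eq_left ht, max_eq_right h0.le, div_self h0.ne']

theorem thr_of_ge (ha : 0 < a) (hab : a < b) (ht : b ≤ t) : thr d a b t = 0 := by
  have h1 : ((max a t) ^ d)⁻¹ ≤ (b ^ d)⁻¹ := by
    apply inv_anti₀ (pow_pos (ha.trans hab) d)
    exact pow_le_pow_left₀ (ha.trans hab).le (ht.trans (le_max_right _ _)) d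
  rw [thr, max_eq_left (by linarith), zero_div]

theorem thr_antitone (hd : 0 < d) (ha : 0 < a) (hab : a < b) : Antitone (thr d a b) := by
  intro s t hst
  have h0 := thr_den_pos hd ha hab
  unfold thr
  have h1 : ((max a t) ^ d)⁻¹ ≤ ((max a s) ^ d)⁻¹ := by
    apply inv_anti₀ (pow_pos (ha.trans_le (le_max_left _ _)) d)
    exact pow_le_pow_left₀ (ha.trans_le (le_max_left _ _)).le (max_le_max le_rfl hst) d
  gcongr

theorem continuous_thr (ha : 0 < a) : Continuous (thr d a b) := by
  unfold thr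
  refine Continuous.div_const ?_ _
  refine continuous_const.max ?_
  refine Continuous.sub ?_ continuous_const
  refine Continuous.inv₀ (by fun_prop) ?_
  intro t
  exact (pow_pos (ha.trans_le (le_max_left _ _)) d).ne'

/-- The profile increases with the inner radius. -/
theorem thr_mono_left (hd : 0 < d) {a' : ℝ} (ha : 0 < a) (haa : a ≤ a') (hab : a' < b) (t : ℝ) :
    thr d a b t ≤ thr d a' b t := by
  rcases le_or_gt t a' with h | h
  · rw [thr_of_le hd (ha.trans_le haa) hab h]
    exact thr_le_one hd ha (haa.trans_lt hab) t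
  · have h0 := thr_den_pos hd ha (haa.trans_lt hab)
    have h1 := thr_den_pos hd (ha.trans_le haa) hab
    have h2 : (a' ^ d)⁻¹ ≤ (a ^ d)⁻¹ :=
      inv_anti₀ (pow_pos ha d) (pow_le_pow_left₀ ha.le haa d)
    unfold thr
    rw [max_eq_right h.le, max_eq_right (haa.trans h.le)]
    gcongr

/-- Lipschitz bound for `t ↦ t^{-d}` away from zero. -/
theorem abs_inv_pow_sub_le {c s t : ℝ} (hc : 0 < c) (hs : c ≤ s) (ht : c ≤ t) :
    |(s ^ d)⁻¹ - (t ^ d)⁻¹| ≤ d * (c ^ (d + 1))⁻¹ * |s - t| := by
  wlog hst : s ≤ t generalizing s t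
  · rw [abs_sub_comm, abs_sub_comm s t]
    exact this ht hs (le_of_not_ge hst)
  have hs0 : 0 < s := hc.trans_le hs
  have ht0 : 0 < t := hc.trans_le ht
  have h1 : (t ^ d)⁻¹ ≤ (s ^ d)⁻¹ := inv_anti₀ (pow_pos hs0 d) (pow_le_pow_left₀ hs0.le hst d)
  rw [abs_of_nonneg (sub_nonneg.2 h1), abs_sub_comm, abs_of_nonneg (sub_nonneg.2 hst)]
  have h2 : (s ^ d)⁻¹ - (t ^ d)⁻¹ = (t ^ d - s ^ d) / (s ^ d * t ^ d) := by
    rw [div_eq_mul_inv, mul_inv]
    have h3 : s ^ d ≠ 0 := (pow_pos hs0 d).ne'
    have h4 : t ^ d ≠ 0 := (pow_pos ht0 d).ne'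
    field_simp
  have h3 : t ^ d - s ^ d ≤ d * (t - s) * t ^ (d - 1) := by
    have h := Commute.geom_sum₂_mul (Commute.all t s) d
    rw [← h]
    have h5 : ∑ i ∈ Finset.range d, t ^ i * s ^ (d - 1 - i) ≤ d * t ^ (d - 1) := by
      calc ∑ i ∈ Finset.range d, t ^ i * s ^ (d - 1 - i)
          ≤ ∑ i ∈ Finset.range d, t ^ (d - 1) := by
            refine Finset.sum_le_sum fun i hi => ?_
            rw [Finset.mem_range] at hi
            calc t ^ i * s ^ (d - 1 - i) ≤ t ^ i * t ^ (d - 1 - i) := by gcongr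
              _ = t ^ (d - 1) := by rw [← pow_add]; congr 1; omega
        _ = d * t ^ (d - 1) := by simp
    have h6 := mul_le_mul_of_nonneg_right h5 (sub_nonneg.2 hst)
    linarith
  rw [h2, div_le_iff₀ (by positivity)]
  refine h3.trans ?_
  rcases Nat.eq_zero_or_pos d with hd | hd
  · subst hd; simp
  · have h7 : (c ^ (d + 1)) ≤ s ^ d * t := by
      rw [pow_succ]
      gcongr
    have h8 : t ^ d = t ^ (d - 1) * t := by
      rw [← pow_succ]; congr 1; omega
    rw [h8]
    have h9 : 1 ≤ (c ^ (d + 1))⁻¹ * (s ^ d * t) := by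
      rw [inv_mul_eq_div, one_le_div (by positivity)]
      exact h7
    calc (d:ℝ) * (t - s) * t ^ (d - 1) = (d:ℝ) * (t - s) * t ^ (d - 1) * 1 := by ring
      _ ≤ (d:ℝ) * (t - s) * t ^ (d - 1) * ((c ^ (d + 1))⁻¹ * (s ^ d * t)) := by
          have : 0 ≤ t - s := sub_nonneg.2 hst
          gcongr
      _ = _ := by ring

/-- Lower bound for the denominator. -/
theorem thr_den_ge (hd : 0 < d) (ha : 0 < a) (hab : a < b) :
    d * (b - a) * (b ^ (d + 1))⁻¹ ≤ (a ^ d)⁻¹ - (b ^ d)⁻¹ := by
  have hb : 0 < b := ha.trans hab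
  have h2 : (a ^ d)⁻¹ - (b ^ d)⁻¹ = (b ^ d - a ^ d) / (a ^ d * b ^ d) := by
    rw [div_eq_mul_inv, mul_inv]
    have h3 : a ^ d ≠ 0 := (pow_pos ha d).ne'
    have h4 : b ^ d ≠ 0 := (pow_pos hb d).ne'
    field_simp
  have h3 : d * (b - a) * a ^ (d - 1) ≤ b ^ d - a ^ d := by
    have h := Commute.geom_sum₂_mul (Commute.all b a) d
    rw [← h]
    have h5 : d * a ^ (d - 1) ≤ ∑ i ∈ Finset.range d, b ^ i * a ^ (d - 1 - i) := by
      calc (d:ℝ) * a ^ (d - 1) = ∑ i ∈ Finset.range d, a ^ (d - 1) := by simp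
        _ ≤ ∑ i ∈ Finset.range d, b ^ i * a ^ (d - 1 - i) := by
            refine Finset.sum_le_sum fun i hi => ?_
            rw [Finset.mem_range] at hi
            calc a ^ (d - 1) = a ^ i * a ^ (d - 1 - i) := by rw [← pow_add]; congr 1; omega
              _ ≤ b ^ i * a ^ (d - 1 - i) := by gcongr
    have h6 := mul_le_mul_of_nonneg_right h5 (sub_nonneg.2 hab.le)
    linarith
  rw [h2, le_div_iff₀ (by positivity)]
  refine le_trans ?_ h3
  have h8 : a ^ d = a ^ (d - 1) * a := by
    rw [← pow_succ]; congr 1; omega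
  rw [h8]
  have h9 : (b ^ (d + 1))⁻¹ * (a * b ^ d) ≤ 1 := by
    rw [inv_mul_eq_div, div_le_one (by positivity), pow_succ']
    gcongr
  calc (d:ℝ) * (b - a) * (b ^ (d + 1))⁻¹ * (a ^ (d - 1) * a * b ^ d)
      = (d:ℝ) * (b - a) * a ^ (d - 1) * ((b ^ (d + 1))⁻¹ * (a * b ^ d)) := by ring
    _ ≤ (d:ℝ) * (b - a) * a ^ (d - 1) * 1 := by
        have : 0 ≤ b - a := sub_nonneg.2 hab.le
        gcongr
    _ = _ := by ring

/-- Lipschitz bound of the profile. -/
theorem abs_thr_sub_le (hd : 0 < d) (ha : 0 < a) (hab : a < b) (s t : ℝ) :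
    |thr d a b s - thr d a b t| ≤ (b / a) ^ (d + 1) / (b - a) * |s - t| := by
  have h0 := thr_den_pos hd ha hab
  have hb : 0 < b := ha.trans hab
  have hba : 0 < b - a := sub_pos.2 hab
  have hd' : (0 : ℝ) < d := by exact_mod_cast hd
  unfold thr
  rw [← sub_div, abs_div, abs_of_pos h0, div_le_iff₀ h0]
  have h1 : |max 0 (((max a s) ^ d)⁻¹ - (b ^ d)⁻¹) - max 0 (((max a t) ^ d)⁻¹ - (b ^ d)⁻¹)|
      ≤ |((max a s) ^ d)⁻¹ - ((max a t) ^ d)⁻¹| := by
    have := abs_max_sub_max_le_abs (((max a s) ^ d)⁻¹ - (b ^ d)⁻¹)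
      (((max a t) ^ d)⁻¹ - (b ^ d)⁻¹) 0
    rw [max_comm 0, max_comm 0]
    refine this.trans (le_of_eq ?_)
    congr 1; ring
  have h2 := abs_inv_pow_sub_le (d := d) ha (le_max_left a s) (le_max_left a t)
  have h3 : |max a s - max a t| ≤ |s - t| := by
    rw [max_comm a, max_comm a]
    exact abs_max_sub_max_le_abs _ _ _
  refine h1.trans (h2.trans ?_)
  have h4 := thr_den_ge hd ha hab
  have h5 : (b / a) ^ (d + 1) / (b - a) * (d * (b - a) * (b ^ (d + 1))⁻¹)
      = d * (a ^ (d + 1))⁻¹ := by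
    rw [div_pow]
    field_simp
  calc d * (a ^ (d + 1))⁻¹ * |max a s - max a t| ≤ d * (a ^ (d + 1))⁻¹ * |s - t| := by gcongr
    _ = (b / a) ^ (d + 1) / (b - a) * (d * (b - a) * (b ^ (d + 1))⁻¹) * |s - t| := by rw [h5]
    _ ≤ (b / a) ^ (d + 1) / (b - a) * ((a ^ d)⁻¹ - (b ^ d)⁻¹) * |s - t| := by gcongr
    _ = _ := by ring

end Profile


/-! ### Derivative of the average in the radius and the first kernel identity -/

section Identity

variable {a b t : ℝ}

theorem hasDerivAt_inv_pow_aux (hd : 0 < d) (a b t : ℝ) (h : a + t * (b - a) ≠ 0) :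
    HasDerivAt (fun t : ℝ => -((d : ℝ)⁻¹ * ((a + t * (b - a)) ^ d)⁻¹))
      ((b - a) * ((a + t * (b - a)) ^ (d + 1))⁻¹) t := by
  have h1 : HasDerivAt (fun t : ℝ => a + t * (b - a)) (b - a) t := by
    simpa using ((hasDerivAt_id t).mul_const (b - a)).const_add a
  have h2 := (h1.pow d).inv (pow_ne_zero d h)
  have h3 := (h2.const_mul ((d : ℝ)⁻¹)).neg
  refine h3.congr_deriv ?_
  simp only [Pi.pow_apply]
  have hd' : (d : ℝ) ≠ 0 := by exact_mod_cast hd.ne'
  obtain ⟨n, rfl⟩ : ∃ n, d = n + 1 := ⟨d - 1, by omega⟩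
  simp only [Nat.add_sub_cancel]
  field_simp
  ring

theorem integral_inv_pow_aux (hd : 0 < d) (ha : 0 < a) (hab : a < b) {s : ℝ} (hs : 0 ≤ s)
    (hs1 : s ≤ 1) :
    ∫ t in s..1, (b - a) * ((a + t * (b - a)) ^ (d + 1))⁻¹ =
      (d : ℝ)⁻¹ * (((a + s * (b - a)) ^ d)⁻¹ - (b ^ d)⁻¹) := by
  have hpos : ∀ t ∈ uIcc s 1, 0 < a + t * (b - a) := by
    intro t ht
    rw [uIcc_of_le hs1] at ht
    have : 0 ≤ t * (b - a) := mul_nonneg (hs.trans ht.1) (sub_nonneg.2 hab.le)
    linarith
  have h := intervalIntegral.integral_eq_sub_of_hasDerivAt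
    (f := fun t : ℝ => -((d : ℝ)⁻¹ * ((a + t * (b - a)) ^ d)⁻¹))
    (f' := fun t : ℝ => (b - a) * ((a + t * (b - a)) ^ (d + 1))⁻¹) (a := s) (b := 1)
    (fun t ht => hasDerivAt_inv_pow_aux hd a b t (hpos t ht).ne') ?_
  · rw [h]
    simp only [one_mul, add_sub_cancel]
    ring
  · apply ContinuousOn.intervalIntegrable
    intro t ht
    have h1 : ContinuousAt (fun t : ℝ => (b - a) * ((a + t * (b - a)) ^ (d + 1))⁻¹) t := by
      refine ContinuousAt.mul continuousAt_const ?_
      exact ContinuousAt.inv₀ (by fun_prop) (pow_ne_zero _ (hpos t ht).ne')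
    exact h1.continuousWithinAt

theorem integral_ite_aux (hd : 0 < d) (ha : 0 < a) (hab : a < b) (u : ℝ) :
    ∫ t in (0:ℝ)..1, (if u ≤ a + t * (b - a) then (b - a) * ((a + t * (b - a)) ^ (d + 1))⁻¹ else 0)
      = (d : ℝ)⁻¹ * max 0 (((max a u) ^ d)⁻¹ - (b ^ d)⁻¹) := by
  have hba : 0 < b - a := sub_pos.2 hab
  rcases le_or_gt u a with h | h
  · have h1 : ∫ t in (0:ℝ)..1, (if u ≤ a + t * (b - a) then
        (b - a) * ((a + t * (b - a)) ^ (d + 1))⁻¹ else 0) =
        ∫ t in (0:ℝ)..1, (b - a) * ((a + t * (b - a)) ^ (d + 1))⁻¹ := by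
      refine intervalIntegral.integral_congr fun t ht => ?_
      rw [uIcc_of_le zero_le_one] at ht
      have : 0 ≤ t * (b - a) := mul_nonneg ht.1 hba.le
      rw [if_pos (by linarith)]
    rw [h1, integral_inv_pow_aux hd ha hab le_rfl zero_le_one, max_eq_left h]
    have h0 := thr_den_pos hd ha hab
    rw [max_eq_right h0.le, zero_mul, add_zero]
  · rw [max_eq_right h.le]
    rcases le_or_gt b u with hbu | hbu
    · have h1 : ((u ^ d)⁻¹ - (b ^ d)⁻¹) ≤ 0 := by
        rw [sub_nonpos]
        exact inv_anti₀ (pow_pos (ha.trans hab) d) (pow_le_pow_left₀ (ha.trans hab).le hbu d)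
      rw [max_eq_left h1, mul_zero]
      rw [intervalIntegral.integral_congr_ae (g := fun _ => (0:ℝ))]
      · simp
      · have : ∀ᵐ t : ℝ, t ≠ 1 := Measure.ae_ne volume 1
        filter_upwards [this] with t ht1 ht
        rw [uIoc_of_le zero_le_one] at ht
        have ht2 : t < 1 := lt_of_le_of_ne ht.2 ht1
        have : t * (b - a) < 1 * (b - a) := mul_lt_mul_of_pos_right ht2 hba
        rw [if_neg (by linarith)]
    · set s := (u - a) / (b - a) with hs
      have hs0 : 0 < s := div_pos (sub_pos.2 h) hba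
      have hs1 : s < 1 := by rw [hs, div_lt_one hba]; linarith
      have hsu : a + s * (b - a) = u := by rw [hs, div_mul_cancel₀ _ hba.ne']; ring
      have hcont : ∀ t ∈ Icc (0:ℝ) 1, 0 < a + t * (b - a) := by
        intro t ht
        have : 0 ≤ t * (b - a) := mul_nonneg ht.1 hba.le
        linarith
      have hA : ∀ᵐ t : ℝ, t ∈ uIoc 0 s → (if u ≤ a + t * (b - a) then
          (b - a) * ((a + t * (b - a)) ^ (d + 1))⁻¹ else 0) = (fun _ => (0:ℝ)) t := by
        have : ∀ᵐ t : ℝ, t ≠ s := Measure.ae_ne volume s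
        filter_upwards [this] with t ht1 ht
        rw [uIoc_of_le hs0.le] at ht
        have ht2 : t < s := lt_of_le_of_ne ht.2 ht1
        have : t * (b - a) < s * (b - a) := mul_lt_mul_of_pos_right ht2 hba
        rw [if_neg (by linarith)]
      have hB : ∀ t ∈ uIcc s 1, (if u ≤ a + t * (b - a) then
          (b - a) * ((a + t * (b - a)) ^ (d + 1))⁻¹ else 0) =
          (b - a) * ((a + t * (b - a)) ^ (d + 1))⁻¹ := by
        intro t ht
        rw [uIcc_of_le hs1.le] at ht
        have : s * (b - a) ≤ t * (b - a) := mul_le_mul_of_nonneg_right ht.1 hba.le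
        rw [if_pos (by linarith)]
      have hIB : IntervalIntegrable (fun t => (b - a) * ((a + t * (b - a)) ^ (d + 1))⁻¹)
          volume s 1 := by
        apply ContinuousOn.intervalIntegrable
        intro t ht
        rw [uIcc_of_le hs1.le] at ht
        have h1 : ContinuousAt (fun t : ℝ => (b - a) * ((a + t * (b - a)) ^ (d + 1))⁻¹) t := by
          refine ContinuousAt.mul continuousAt_const ?_
          exact ContinuousAt.inv₀ (by fun_prop)
            (pow_ne_zero _ (hcont t ⟨hs0.le.trans ht.1, ht.2⟩).ne')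
        exact h1.continuousWithinAt
      have hI1 : IntervalIntegrable (fun t => if u ≤ a + t * (b - a) then
          (b - a) * ((a + t * (b - a)) ^ (d + 1))⁻¹ else 0) volume 0 s := by
        refine (intervalIntegrable_const (c := (0:ℝ))).congr_ae ?_
        rw [EventuallyEq, ae_restrict_iff' measurableSet_uIoc]
        filter_upwards [hA] with t ht h2
        exact (ht h2).symm
      have hI2 : IntervalIntegrable (fun t => if u ≤ a + t * (b - a) then
          (b - a) * ((a + t * (b - a)) ^ (d + 1))⁻¹ else 0) volume s 1 := by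
        refine hIB.congr ?_
        intro t ht
        exact (hB t (uIoc_subset_uIcc ht)).symm
      rw [← intervalIntegral.integral_add_adjacent_intervals hI1 hI2,
        intervalIntegral.integral_congr_ae hA, intervalIntegral.integral_congr hB,
        integral_inv_pow_aux hd ha hab hs0.le hs1.le, hsu]
      have h5 : 0 ≤ (u ^ d)⁻¹ - (b ^ d)⁻¹ := by
        rw [sub_nonneg]
        exact inv_anti₀ (pow_pos (ha.trans h) d) (pow_le_pow_left₀ (ha.trans h).le hbu.le d)
      rw [max_eq_right h5]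
      simp

theorem Psi_same (hd : 0 < d) (x : E d) (ha : 0 < a) (hab : a < b) (z : E d) :
    Psi x x a b z = ((d : ℝ)⁻¹ * (omV d)⁻¹ * ((a ^ d)⁻¹ - (b ^ d)⁻¹) * thr d a b ‖z - x‖) •
      (z - x) := by
  have hba : 0 < b - a := sub_pos.2 hab
  unfold Psi
  have h1 : ∀ t ∈ uIcc (0:ℝ) 1, U.psi x x a b t z = ((omV d)⁻¹ * (if ‖z - x‖ ≤ a + t * (b - a) then
      (b - a) * ((a + t * (b - a)) ^ (d + 1))⁻¹ else 0)) • (z - x) := by
    intro t ht
    rw [uIcc_of_le zero_le_one] at ht
    have hr : 0 < a + t * (b - a) := by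
      have : 0 ≤ t * (b - a) := mul_nonneg ht.1 hba.le
      linarith
    unfold U.psi
    simp only [sub_self, smul_zero, add_zero, zero_add]
    by_cases h : ‖z - x‖ ≤ a + t * (b - a)
    · rw [indicator_of_mem (by rw [Metric.mem_closedBall, dist_eq_norm]; exact h), if_pos h,
        vol_ball hr.le, smul_smul]
      congr 1
      have := (omV_pos d).ne'
      field_simp
      ring
    · rw [indicator_of_notMem (by rw [Metric.mem_closedBall, dist_eq_norm]; exact h), if_neg h,
        mul_zero, zero_smul]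
  rw [intervalIntegral.integral_congr h1, intervalIntegral.integral_smul_const,
    intervalIntegral.integral_const_mul, integral_ite_aux hd ha hab]
  congr 1
  unfold thr
  have h0 := (thr_den_pos hd ha hab).ne'
  generalize max 0 (((max a ‖z - x‖) ^ d)⁻¹ - (b ^ d)⁻¹) = m at *
  generalize (a ^ d)⁻¹ - (b ^ d)⁻¹ = D at *
  field_simp

/-- First kernel identity (I1). -/
theorem avg_sub_avg_eq (hd : 0 < d) {f : E d → ℝ} (hf : ContDiff ℝ 1 f)
    (hfc : HasCompactSupport f) (x : E d) (ha : 0 < a) (hab : a < b) :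
    U.avg f x b - U.avg f x a = ((d : ℝ)⁻¹ * (omV d)⁻¹ * ((a ^ d)⁻¹ - (b ^ d)⁻¹)) *
      LL f (fun z => thr d a b ‖z - x‖ • (z - x)) := by
  rw [Psi_formula f hf hfc x x a b ha (ha.trans hab), LL, ← integral_const_mul]
  refine integral_congr_ae (Eventually.of_forall fun z => ?_)
  simp only
  rw [Psi_same hd x ha hab, inner_smul_left, inner_smul_left]
  simp only [conj_trivial]
  ring

end Identity

/-! ### Derivatives of the average in the centre and in the radius as values of `L` -/

section Deriv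

theorem inner_gradient (f : E d → ℝ) (v z : E d) : inner ℝ v (gradient f z) = fderiv ℝ f z v := by
  rw [real_inner_comm]
  unfold gradient
  rw [InnerProductSpace.toDual_symm_apply]

theorem continuous_gradient {f : E d → ℝ} (hf : ContDiff ℝ 1 f) : Continuous (gradient f) :=
  ((InnerProductSpace.toDual ℝ (E d)).symm.continuous).comp (hf.continuous_fderiv one_ne_zero)

theorem hasCompactSupport_gradient {f : E d → ℝ} (hfc : HasCompactSupport f) :
    HasCompactSupport (gradient f) := by
  refine (hfc.fderiv (𝕜 := ℝ)).comp_left (g := (InnerProductSpace.toDual ℝ (E d)).symm) ?_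
  exact map_zero _

theorem integrable_gradient {f : E d → ℝ} (hf : ContDiff ℝ 1 f) (hfc : HasCompactSupport f) :
    Integrable (gradient f) :=
  (continuous_gradient hf).integrable_of_hasCompactSupport (hasCompactSupport_gradient hfc)

/-- Derivative of the average over a ball with respect to the radius. -/
theorem hasDerivAt_avg_radius {f : E d → ℝ} (hf : ContDiff ℝ 1 f) (hfc : HasCompactSupport f)
    (x : E d) (r : ℝ) :
    HasDerivAt (fun ρ => U.avg f x ρ)
      (⨍ w in Metric.closedBall (0 : E d) 1, fderiv ℝ f (x + r • w) w) r := by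
  have hfd : Continuous (fderiv ℝ f) := hf.continuous_fderiv one_ne_zero
  have hfdc : HasCompactSupport (fderiv ℝ f) := hfc.fderiv ℝ
  obtain ⟨C, hC⟩ := hfdc.exists_bound_of_continuous hfd
  have hB : volume (Metric.closedBall (0 : E d) 1) < ∞ := measure_closedBall_lt_top
  haveI : IsFiniteMeasure (volume.restrict (Metric.closedBall (0 : E d) 1)) :=
    ⟨by rwa [Measure.restrict_apply_univ]⟩
  have key := hasDerivAt_integral_of_dominated_loc_of_deriv_le (𝕜 := ℝ)
    (μ := volume.restrict (Metric.closedBall (0 : E d) 1))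
    (F := fun ρ w => f (x + ρ • w)) (F' := fun ρ w => fderiv ℝ f (x + ρ • w) w)
    (x₀ := r) (bound := fun _ => C) (s := univ) univ_mem ?_ ?_ ?_ ?_ ?_ ?_
  · have h2 : HasDerivAt (fun ρ => (volume.real (Metric.closedBall (0 : E d) 1))⁻¹ •
        ∫ w in Metric.closedBall (0 : E d) 1, f (x + ρ • w))
        ((volume.real (Metric.closedBall (0 : E d) 1))⁻¹ •
        ∫ w in Metric.closedBall (0 : E d) 1, fderiv ℝ f (x + r • w) w) r :=
      key.2.const_smul (volume.real (Metric.closedBall (0 : E d) 1))⁻¹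
    simp only [U.avg, setAverage_eq]
    simpa only [smul_eq_mul] using h2
  · refine Eventually.of_forall fun h => ?_
    have := hf.continuous
    exact Continuous.aestronglyMeasurable (by fun_prop)
  · obtain ⟨D, hD⟩ := hfc.exists_bound_of_continuous hf.continuous
    refine (integrable_const D).mono' ?_ (Eventually.of_forall fun w => hD _)
    have := hf.continuous
    exact Continuous.aestronglyMeasurable (by fun_prop)
  · have h1 : Continuous fun w : E d => fderiv ℝ f (x + r • w) w :=
      (hfd.comp (by fun_prop : Continuous fun w : E d => x + r • w)).clm_apply continuous_id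
    exact h1.aestronglyMeasurable
  · rw [ae_restrict_iff' Metric.isClosed_closedBall.measurableSet]
    refine Eventually.of_forall fun w hw h _ => ?_
    rw [mem_closedBall_zero_iff] at hw
    refine (ContinuousLinearMap.le_opNorm _ _).trans ?_
    calc ‖fderiv ℝ f (x + h • w)‖ * ‖w‖ ≤ C * 1 :=
          mul_le_mul (hC _) hw (norm_nonneg _) ((norm_nonneg _).trans (hC 0))
      _ = C := mul_one C
  · exact integrable_const C
  · refine Eventually.of_forall fun w h _ => ?_
    have h1 : HasFDerivAt f (fderiv ℝ f (x + h • w)) (x + h • w) :=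
      (hf.differentiable one_ne_zero _).hasFDerivAt
    have h2 : HasDerivAt (fun h : ℝ => x + h • w) w h := by
      simpa using ((hasDerivAt_id h).smul_const w).const_add x
    exact h1.comp_hasDerivAt h h2

theorem vol_pos (d : ℕ) {r : ℝ} (hr : 0 < r) : 0 < volume.real (Metric.closedBall (0 : E d) r) := by
  rw [vol_ball hr.le]
  exact mul_pos (pow_pos hr d) (omV_pos d)

/-- `L(1_B w)` is a positive multiple of the radial derivative of the average. -/
theorem LL_ball_ww {f : E d → ℝ} (hf : ContDiff ℝ 1 f) (hfc : HasCompactSupport f)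
    (x : E d) {r : ℝ} (hr : 0 < r) :
    LL f ((Metric.closedBall x r).indicator (ww x r)) =
      volume.real (Metric.closedBall (0 : E d) r) * deriv (fun ρ => U.avg f x ρ) r := by
  rw [(hasDerivAt_avg_radius hf hfc x r).deriv]
  have h1 := avg_change (fun z => fderiv ℝ f z (r⁻¹ • (z - x))) x hr
  have h2 : ∀ w : E d, fderiv ℝ f (x + r • w) (r⁻¹ • (x + r • w - x)) =
      fderiv ℝ f (x + r • w) w := by
    intro w
    rw [add_sub_cancel_left, smul_smul, inv_mul_cancel₀ hr.ne', one_smul]
  simp_rw [h2] at h1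
  rw [h1, ← mul_assoc, mul_inv_cancel₀ (vol_pos d hr).ne', one_mul,
    ← integral_indicator Metric.isClosed_closedBall.measurableSet, LL]
  refine integral_congr_ae (Eventually.of_forall fun z => ?_)
  simp only
  by_cases hz : z ∈ Metric.closedBall x r
  · rw [indicator_of_mem hz, indicator_of_mem hz, inner_gradient]; rfl
  · rw [indicator_of_notMem hz, indicator_of_notMem hz, inner_zero_left]

/-- `L(1_B e)` is a positive multiple of the derivative of the average in the direction `e`. -/
theorem LL_ball_const {f : E d → ℝ} (hf : ContDiff ℝ 1 f) (hfc : HasCompactSupport f)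
    (x e : E d) {r : ℝ} (hr : 0 < r) :
    LL f ((Metric.closedBall x r).indicator (fun _ => e)) =
      volume.real (Metric.closedBall (0 : E d) r) *
        fderiv ℝ (fun y => U.avg f y r) x e := by
  have h0 : HasFDerivAt (fun y => U.avg f y r)
      (⨍ w in Metric.closedBall (0 : E d) 1, fderiv ℝ f (x + r • w)) x := by
    have h1 := avg_hasFDerivAt hf hfc r x
    have h2 : HasFDerivAt (fun y : E d => y - x) (ContinuousLinearMap.id ℝ (E d)) x :=
      (hasFDerivAt_id x).sub_const x
    have h3 := HasFDerivAt.comp (g := fun h => U.avg f (x + h) r) (f := fun y : E d => y - x) x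
      (by simpa using h1) h2
    have h4 : ((fun h => U.avg f (x + h) r) ∘ fun y : E d => y - x) =
        fun y => U.avg f y r := by
      funext y; simp
    rw [h4] at h3
    simpa using h3
  rw [h0.fderiv]
  have hfd : Continuous (fderiv ℝ f) := hf.continuous_fderiv one_ne_zero
  have hI : IntegrableOn (fun w : E d => fderiv ℝ f (x + r • w)) (Metric.closedBall (0 : E d) 1) :=
    (Continuous.continuousOn (by fun_prop)).integrableOn_compact (isCompact_closedBall 0 1)
  have h3 : (⨍ w in Metric.closedBall (0 : E d) 1, fderiv ℝ f (x + r • w)) e =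
      ⨍ w in Metric.closedBall (0 : E d) 1, fderiv ℝ f (x + r • w) e := by
    rw [setAverage_eq, setAverage_eq, ContinuousLinearMap.smul_apply,
      ContinuousLinearMap.integral_apply hI]
  rw [h3, avg_change (fun z => fderiv ℝ f z e) x hr, ← mul_assoc,
    mul_inv_cancel₀ (vol_pos d hr).ne', one_mul,
    ← integral_indicator Metric.isClosed_closedBall.measurableSet, LL]
  refine integral_congr_ae (Eventually.of_forall fun z => ?_)
  simp only
  by_cases hz : z ∈ Metric.closedBall x r
  · rw [indicator_of_mem hz, indicator_of_mem hz, inner_gradient]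
  · rw [indicator_of_notMem hz, indicator_of_notMem hz, inner_zero_left]

end Deriv

/-! ### Rotation identity -/

section Rot

/-- Rotation by the angle `t` in the plane of the orthonormal pair `u, v`. -/
noncomputable def rotL (u v : E d) (t : ℝ) : E d →ₗ[ℝ] E d where
  toFun y := y + ((Real.cos t - 1) * inner ℝ u y - Real.sin t * inner ℝ v y) • u +
    ((Real.cos t - 1) * inner ℝ v y + Real.sin t * inner ℝ u y) • v
  map_add' y z := by
    simp only [inner_add_right, mul_add, add_smul, sub_smul]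
    module
  map_smul' c y := by
    simp only [inner_smul_right, RingHom.id_apply]
    module

theorem rotL_apply (u v : E d) (t : ℝ) (y : E d) :
    rotL u v t y = y + ((Real.cos t - 1) * inner ℝ u y - Real.sin t * inner ℝ v y) • u +
    ((Real.cos t - 1) * inner ℝ v y + Real.sin t * inner ℝ u y) • v := rfl

theorem norm_rotL {u v : E d} (hu : ‖u‖ = 1) (hv : ‖v‖ = 1) (huv : inner ℝ u v = (0:ℝ)) (t : ℝ)
    (y : E d) : ‖rotL u v t y‖ = ‖y‖ := by
  have h : ‖rotL u v t y‖ ^ 2 = ‖y‖ ^ 2 := by
    rw [rotL_apply]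
    set a : ℝ := inner ℝ u y with ha
    set b : ℝ := inner ℝ v y with hb
    have ha' : inner ℝ y u = a := by rw [ha, real_inner_comm]
    have hb' : inner ℝ y v = b := by rw [hb, real_inner_comm]
    rw [norm_add_sq_real, norm_add_sq_real, inner_add_left]
    simp only [inner_smul_left, inner_smul_right, norm_smul, mul_pow, hu, hv, huv, ha', hb',
      conj_trivial, Real.norm_eq_abs, sq_abs]
    have hcs := Real.sin_sq_add_cos_sq t
    linear_combination (a ^ 2 + b ^ 2) * hcs
  exact (sq_eq_sq₀ (norm_nonneg _) (norm_nonneg _)).1 h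

/-- The rotation as a linear isometry equivalence. -/
noncomputable def rotE {u v : E d} (hu : ‖u‖ = 1) (hv : ‖v‖ = 1) (huv : inner ℝ u v = (0:ℝ))
    (t : ℝ) : E d ≃ₗᵢ[ℝ] E d :=
  LinearIsometry.toLinearIsometryEquiv ⟨rotL u v t, norm_rotL hu hv huv t⟩ rfl

theorem rotE_apply {u v : E d} (hu : ‖u‖ = 1) (hv : ‖v‖ = 1) (huv : inner ℝ u v = (0:ℝ))
    (t : ℝ) (y : E d) : rotE hu hv huv t y = rotL u v t y := rfl

theorem hasDerivAt_rotL (u v : E d) (t : ℝ) (y : E d) :
    HasDerivAt (fun t => rotL u v t y)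
      ((-Real.sin t * inner ℝ u y - Real.cos t * inner ℝ v y) • u +
        (-Real.sin t * inner ℝ v y + Real.cos t * inner ℝ u y) • v) t := by
  simp only [rotL_apply]
  have h1 : HasDerivAt (fun t => (Real.cos t - 1) * inner ℝ u y - Real.sin t * inner ℝ v y)
      (-Real.sin t * inner ℝ u y - Real.cos t * inner ℝ v y) t :=
    (((Real.hasDerivAt_cos t).sub_const 1).mul_const _).sub ((Real.hasDerivAt_sin t).mul_const _)
  have h2 : HasDerivAt (fun t => (Real.cos t - 1) * inner ℝ v y + Real.sin t * inner ℝ u y)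
      (-Real.sin t * inner ℝ v y + Real.cos t * inner ℝ u y) t :=
    (((Real.hasDerivAt_cos t).sub_const 1).mul_const _).add ((Real.hasDerivAt_sin t).mul_const _)
  exact ((h1.smul_const u).const_add y).add (h2.smul_const v)

theorem norm_rot_deriv_le {u v : E d} (hu : ‖u‖ = 1) (hv : ‖v‖ = 1) (t : ℝ) (y : E d) :
    ‖(-Real.sin t * inner ℝ u y - Real.cos t * inner ℝ v y) • u +
        (-Real.sin t * inner ℝ v y + Real.cos t * inner ℝ u y) • v‖ ≤ 4 * ‖y‖ := by
  have h1 : |(inner ℝ u y : ℝ)| ≤ ‖y‖ := by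
    have := abs_real_inner_le_norm u y
    rwa [hu, one_mul] at this
  have h2 : |(inner ℝ v y : ℝ)| ≤ ‖y‖ := by
    have := abs_real_inner_le_norm v y
    rwa [hv, one_mul] at this
  have hs := Real.abs_sin_le_one t
  have hc := Real.abs_cos_le_one t
  have h3 : |Real.sin t * inner ℝ u y| ≤ ‖y‖ := by
    rw [abs_mul]
    calc |Real.sin t| * |(inner ℝ u y : ℝ)| ≤ 1 * ‖y‖ := by gcongr
      _ = ‖y‖ := one_mul _
  have h4 : |Real.cos t * inner ℝ v y| ≤ ‖y‖ := by
    rw [abs_mul]
    calc |Real.cos t| * |(inner ℝ v y : ℝ)| ≤ 1 * ‖y‖ := by gcongr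
      _ = ‖y‖ := one_mul _
  have h5 : |Real.sin t * inner ℝ v y| ≤ ‖y‖ := by
    rw [abs_mul]
    calc |Real.sin t| * |(inner ℝ v y : ℝ)| ≤ 1 * ‖y‖ := by gcongr
      _ = ‖y‖ := one_mul _
  have h6 : |Real.cos t * inner ℝ u y| ≤ ‖y‖ := by
    rw [abs_mul]
    calc |Real.cos t| * |(inner ℝ u y : ℝ)| ≤ 1 * ‖y‖ := by gcongr
      _ = ‖y‖ := one_mul _
  refine (norm_add_le _ _).trans ?_
  rw [norm_smul, norm_smul, hu, hv, mul_one, mul_one, Real.norm_eq_abs, Real.norm_eq_abs]
  have h7 : |-Real.sin t * inner ℝ u y - Real.cos t * inner ℝ v y| ≤ 2 * ‖y‖ := by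
    rw [abs_le] at *
    constructor <;> linarith
  have h8 : |-Real.sin t * inner ℝ v y + Real.cos t * inner ℝ u y| ≤ 2 * ‖y‖ := by
    rw [abs_le] at *
    constructor <;> linarith
  linarith

/-- Rotation identity for an orthonormal pair. -/
theorem rot_orthonormal {f : E d → ℝ} (hf : ContDiff ℝ 1 f) (hfc : HasCompactSupport f)
    (x : E d) {χ : ℝ → ℝ} (hχ : Measurable χ) {X : ℝ} (hX : ∀ t, |χ t| ≤ X)
    {u v : E d} (hu : ‖u‖ = 1) (hv : ‖v‖ = 1) (huv : inner ℝ u v = (0:ℝ)) :
    ∫ y, χ ‖y‖ * fderiv ℝ f (x + y) ((inner ℝ u y : ℝ) • v - (inner ℝ v y : ℝ) • u) = 0 := by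
  have hfd : Continuous (fderiv ℝ f) := hf.continuous_fderiv one_ne_zero
  have hfdc : HasCompactSupport (fderiv ℝ f) := hfc.fderiv ℝ
  obtain ⟨C, hC⟩ := hfdc.exists_bound_of_continuous hfd
  obtain ⟨ρ, hρ⟩ : ∃ ρ, ∀ z, ρ < ‖z‖ → fderiv ℝ f z = 0 := by
    obtain ⟨ρ, hρ⟩ := hfdc.isCompact.isBounded.subset_closedBall 0
    refine ⟨ρ, fun z hz => ?_⟩
    by_contra h
    have := hρ (subset_tsupport _ h)
    rw [mem_closedBall_zero_iff] at this
    linarith
  have hC0 : 0 ≤ C := (norm_nonneg _).trans (hC 0)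
  have hX0 : 0 ≤ X := (abs_nonneg _).trans (hX 0)
  have hfcont := hf.continuous
  have hfi : Integrable f := hfcont.integrable_of_hasCompactSupport hfc
  -- the integral is constant in `t`
  have hconst : ∀ t, ∫ y, χ ‖y‖ * f (x + rotL u v t y) = ∫ y, χ ‖y‖ * f (x + y) := by
    intro t
    have h1 := (rotE hu hv huv t).measurePreserving.integral_comp'
      (f := (rotE hu hv huv t).toMeasurableEquiv) (g := fun y => χ ‖y‖ * f (x + y))
    rw [← h1]
    refine integral_congr_ae (Eventually.of_forall fun y => ?_)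
    simp only [LinearIsometryEquiv.coe_toMeasurableEquiv]
    rw [LinearIsometryEquiv.norm_map]
    rfl
  have hrotc : ∀ t, Continuous fun y => rotL u v t y := fun t =>
    (rotE hu hv huv t).continuous
  have key := hasDerivAt_integral_of_dominated_loc_of_deriv_le (𝕜 := ℝ)
    (μ := (volume : Measure (E d)))
    (F := fun t y => χ ‖y‖ * f (x + rotL u v t y))
    (F' := fun t y => χ ‖y‖ * fderiv ℝ f (x + rotL u v t y)
      ((-Real.sin t * inner ℝ u y - Real.cos t * inner ℝ v y) • u +
        (-Real.sin t * inner ℝ v y + Real.cos t * inner ℝ u y) • v))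
    (x₀ := 0) (s := univ)
    (bound := (Metric.closedBall (0 : E d) (ρ + ‖x‖)).indicator
      (fun _ => X * (C * (4 * (ρ + ‖x‖))))) univ_mem ?_ ?_ ?_ ?_ ?_ ?_
  · have h2 := key.2
    have h3 : (fun t => ∫ y, χ ‖y‖ * f (x + rotL u v t y)) = fun _ => ∫ y, χ ‖y‖ * f (x + y) := by
      funext t; exact hconst t
    rw [h3] at h2
    have h4 := h2.unique (hasDerivAt_const (0:ℝ) _)
    rw [← h4]
    refine integral_congr_ae (Eventually.of_forall fun y => ?_)
    simp only [Real.sin_zero, Real.cos_zero, neg_zero, zero_mul, one_mul, zero_sub, zero_add,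
      rotL_apply, sub_self, zero_smul, add_zero, sub_zero]
    congr 2
    module
  · refine Eventually.of_forall fun t => ?_
    exact ((hχ.comp measurable_norm).mul
      ((hfcont.comp ((hrotc t).const_add x)).measurable)).aestronglyMeasurable
  · obtain ⟨D, hD⟩ := hfc.exists_bound_of_continuous hfcont
    have h1 : Integrable fun y => f (x + rotL u v 0 y) := by
      have : (fun y => f (x + rotL u v 0 y)) = fun y => f (x + y) := by
        funext y; simp [rotL_apply]
      rw [this]
      exact hfi.comp_add_left x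
    refine (h1.norm.const_mul X).mono' ?_ (Eventually.of_forall fun y => ?_)
    · exact ((hχ.comp measurable_norm).mul
        ((hfcont.comp ((hrotc 0).const_add x)).measurable)).aestronglyMeasurable
    · rw [norm_mul]
      have := hX ‖y‖
      rw [Real.norm_eq_abs]
      gcongr
  · have h1 : Continuous fun y : E d => fderiv ℝ f (x + rotL u v 0 y)
        ((-Real.sin 0 * inner ℝ u y - Real.cos 0 * inner ℝ v y) • u +
        (-Real.sin 0 * inner ℝ v y + Real.cos 0 * inner ℝ u y) • v) :=
      (hfd.comp ((hrotc 0).const_add x)).clm_apply (by fun_prop)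
    exact ((hχ.comp measurable_norm).mul h1.measurable).aestronglyMeasurable
  · refine Eventually.of_forall fun y t _ => ?_
    rw [norm_mul, Real.norm_eq_abs]
    by_cases hy : ‖y‖ ≤ ρ + ‖x‖
    · rw [indicator_of_mem (by rwa [mem_closedBall_zero_iff])]
      refine mul_le_mul (hX _) ?_ (norm_nonneg _) hX0
      refine (ContinuousLinearMap.le_opNorm _ _).trans ?_
      refine mul_le_mul (hC _) ?_ (norm_nonneg _) hC0
      exact (norm_rot_deriv_le hu hv t y).trans (by linarith)
    · rw [indicator_of_notMem (by rwa [mem_closedBall_zero_iff])]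
      push Not at hy
      have h2 : ρ < ‖x + rotL u v t y‖ := by
        have h3 : ‖rotL u v t y‖ ≤ ‖x + rotL u v t y‖ + ‖x‖ := by
          have := norm_sub_le (x + rotL u v t y) x
          simpa using this
        rw [norm_rotL hu hv huv] at h3
        linarith
      rw [hρ _ h2]
      simp
  · rw [integrable_indicator_iff Metric.isClosed_closedBall.measurableSet]
    exact integrableOn_const (isCompact_closedBall _ _).measure_ne_top
  · refine Eventually.of_forall fun y t _ => ?_
    have h1 : HasFDerivAt f (fderiv ℝ f (x + rotL u v t y)) (x + rotL u v t y) :=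
      (hf.differentiable one_ne_zero _).hasFDerivAt
    have h2 := (hasDerivAt_rotL u v t y).const_add x
    exact (h1.comp_hasDerivAt t h2).const_mul (χ ‖y‖)

end Rot

section RotGen

theorem wedge_alg (α β γ : ℝ) (u v y : E d) :
    (inner ℝ (α • u) y : ℝ) • (β • v + γ • u) - (inner ℝ (β • v + γ • u) y : ℝ) • (α • u) =
      (α * β) • ((inner ℝ u y : ℝ) • v - (inner ℝ v y : ℝ) • u) := by
  rw [inner_add_left, real_inner_smul_left, real_inner_smul_left, real_inner_smul_left]
  module

theorem wedge_normal (u v : E d) :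
    (∀ y : E d, (inner ℝ u y : ℝ) • v - (inner ℝ v y : ℝ) • u = 0) ∨
    ∃ (u1 v1 : E d) (c : ℝ), ‖u1‖ = 1 ∧ ‖v1‖ = 1 ∧ inner ℝ u1 v1 = (0:ℝ) ∧
      ∀ y : E d, (inner ℝ u y : ℝ) • v - (inner ℝ v y : ℝ) • u =
        c • ((inner ℝ u1 y : ℝ) • v1 - (inner ℝ v1 y : ℝ) • u1) := by
  by_cases hu : u = 0
  · left; intro y; subst hu; simp
  have hu0 : 0 < ‖u‖ := norm_pos_iff.2 hu
  obtain ⟨u1, hnu1, huu⟩ : ∃ u1 : E d, ‖u1‖ = 1 ∧ u = ‖u‖ • u1 :=
    ⟨‖u‖⁻¹ • u, by rw [norm_smul, norm_inv, norm_norm, inv_mul_cancel₀ hu0.ne'],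
      by rw [smul_smul, mul_inv_cancel₀ hu0.ne', one_smul]⟩
  by_cases hv : v - (inner ℝ u1 v : ℝ) • u1 = 0
  · left
    intro y
    have hvv : v = (0 : ℝ) • u1 + (inner ℝ u1 v : ℝ) • u1 := by
      rw [sub_eq_zero] at hv; rw [zero_smul, zero_add]; exact hv
    rw [huu, hvv, wedge_alg, mul_zero, zero_smul]
  · right
    have hv0 : 0 < ‖v - (inner ℝ u1 v : ℝ) • u1‖ := norm_pos_iff.2 hv
    refine ⟨u1, ‖v - (inner ℝ u1 v : ℝ) • u1‖⁻¹ • (v - (inner ℝ u1 v : ℝ) • u1),
      ‖u‖ * ‖v - (inner ℝ u1 v : ℝ) • u1‖, hnu1, ?_, ?_, ?_⟩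
    · rw [norm_smul, norm_inv, norm_norm, inv_mul_cancel₀ hv0.ne']
    · rw [inner_smul_right, inner_sub_right, inner_smul_right,
        real_inner_self_eq_norm_sq, hnu1]
      ring
    · intro y
      have hvv : v = ‖v - (inner ℝ u1 v : ℝ) • u1‖ •
          (‖v - (inner ℝ u1 v : ℝ) • u1‖⁻¹ • (v - (inner ℝ u1 v : ℝ) • u1)) +
          (inner ℝ u1 v : ℝ) • u1 := by
        rw [smul_smul, mul_inv_cancel₀ hv0.ne', one_smul]; abel
      rw [← wedge_alg _ _ (inner ℝ u1 v), ← hvv, ← huu]

theorem rot_general {f : E d → ℝ} (hf : ContDiff ℝ 1 f) (hfc : HasCompactSupport f)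
    (x : E d) {χ : ℝ → ℝ} (hχ : Measurable χ) {X : ℝ} (hX : ∀ t, |χ t| ≤ X) (u v : E d) :
    ∫ z, χ ‖z - x‖ * inner ℝ ((inner ℝ u (z - x) : ℝ) • v - (inner ℝ v (z - x) : ℝ) • u)
      (gradient f z) = 0 := by
  have h0 := integral_add_left_eq_self (μ := (volume : Measure (E d)))
    (fun z => χ ‖z - x‖ * inner ℝ ((inner ℝ u (z - x) : ℝ) • v - (inner ℝ v (z - x) : ℝ) • u)
      (gradient f z)) x
  rw [← h0]
  simp only [add_sub_cancel_left, inner_gradient]
  rcases wedge_normal u v with h | ⟨u1, v1, c, hu1, hv1, huv, h⟩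
  · simp [h]
  · have h1 := rot_orthonormal hf hfc x hχ hX hu1 hv1 huv
    have h5 : ∀ y : E d, χ ‖y‖ * fderiv ℝ f (x + y)
        ((inner ℝ u y : ℝ) • v - (inner ℝ v y : ℝ) • u) = c *
        (χ ‖y‖ * fderiv ℝ f (x + y) ((inner ℝ u1 y : ℝ) • v1 - (inner ℝ v1 y : ℝ) • u1)) := by
      intro y
      rw [h, map_smul, smul_eq_mul]
      ring
    simp_rw [h5]
    rw [integral_const_mul, h1, mul_zero]

end RotGen

section Final

theorem th_eq (hd : 0 < d) {a b : ℝ} (ha : 0 < a) (hab : a < b) (ρ : ℝ) :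
    th d a b ρ = thr d a b ρ := by
  have hb : 0 < b := ha.trans hab
  have hm : 0 < max a ρ := ha.trans_le (le_max_left _ _)
  have h0 := thr_den_pos hd ha hab
  have had : 0 < a ^ d := pow_pos ha d
  have h1 : (a / max a ρ) ^ d - (a / b) ^ d = a ^ d * (((max a ρ) ^ d)⁻¹ - (b ^ d)⁻¹) := by
    rw [div_pow, div_pow]; ring
  have h2 : 1 - (a / b) ^ d = a ^ d * ((a ^ d)⁻¹ - (b ^ d)⁻¹) := by
    rw [div_pow, mul_sub, mul_inv_cancel₀ had.ne']; ring
  unfold th thr
  rw [h1, h2, mul_div_mul_left _ _ had.ne', ← max_div_div_right h0.le, zero_div]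

theorem measurable_th {d : ℕ} {a b : ℝ} (hd : 0 < d) (ha : 0 < a) (hab : a < b) :
    Continuous (th d a b) := by
  have : th d a b = thr d a b := funext fun ρ => th_eq hd ha hab ρ
  rw [this]
  exact continuous_thr ha

end Final

end Id

/-- BLOCK III.1 -/
theorem specId (hd : 0 < d) : SpecId d where
  dil f hf hfc x a b ha hab := by
    refine ⟨((d : ℝ)⁻¹ * (omV d)⁻¹ * ((a ^ d)⁻¹ - (b ^ d)⁻¹))⁻¹, ?_, ?_⟩
    · have h0 := Id.thr_den_pos hd ha hab
      have h1 := omV_pos d
      positivity
    · have h0 := Id.thr_den_pos hd ha hab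
      have h1 := omV_pos d
      have hd' : (0:ℝ) < d := by exact_mod_cast hd
      rw [Id.avg_sub_avg_eq hd hf hfc x ha hab, ← mul_assoc, inv_mul_cancel₀ (by positivity),
        one_mul, Id.LL]
      refine integral_congr_ae (Eventually.of_forall fun z => ?_)
      simp only
      rw [inner_smul_left, Id.th_eq hd ha hab]
      simp
  rot f hf hfc x a b ha hab u v := by
    refine Id.rot_general hf hfc x (Id.measurable_th hd ha hab).measurable (X := 1) ?_ u v
    intro t
    rw [Id.th_eq hd ha hab, abs_of_nonneg (Id.thr_nonneg hd ha hab t)]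
    exact Id.thr_le_one hd ha hab t
  rot' f hf hfc x r hr u v := by
    have h := Id.rot_general hf hfc x (χ := (Iic r).indicator fun _ => (1:ℝ))
      (measurable_const.indicator measurableSet_Iic) (X := 1) ?_ u v
    · rw [← h, ← integral_indicator Metric.isClosed_closedBall.measurableSet]
      refine integral_congr_ae (Eventually.of_forall fun z => ?_)
      simp only
      by_cases hz : z ∈ Metric.closedBall x r
      · rw [indicator_of_mem hz, indicator_of_mem, one_mul]
        rw [Metric.mem_closedBall, dist_eq_norm] at hz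
        exact hz
      · rw [indicator_of_notMem hz, indicator_of_notMem, zero_mul]
        rw [Metric.mem_closedBall, dist_eq_norm] at hz
        exact hz
    · intro t
      by_cases ht : t ∈ Iic r
      · rw [indicator_of_mem ht]; simp
      · rw [indicator_of_notMem ht]; simp
  dx f hf hfc x r hr v := by
    have h := Id.LL_ball_const hf hfc x v hr
    have hv : volume.real (Metric.closedBall x r) = volume.real (Metric.closedBall (0 : E d) r) := by
      rw [measureReal_def, measureReal_def, Measure.addHaar_closedBall_center]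
    have hp := Id.vol_pos d hr
    rw [hv, ← integral_indicator Metric.isClosed_closedBall.measurableSet]
    have h2 : (∫ z, (Metric.closedBall x r).indicator (fun z => inner ℝ v (gradient f z)) z) =
        Id.LL f ((Metric.closedBall x r).indicator (fun _ => v)) := by
      rw [Id.LL]
      refine integral_congr_ae (Eventually.of_forall fun z => ?_)
      simp only
      by_cases hz : z ∈ Metric.closedBall x r
      · rw [indicator_of_mem hz, indicator_of_mem hz]
      · rw [indicator_of_notMem hz, indicator_of_notMem hz, inner_zero_left]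
    rw [h2, h, ← mul_assoc, inv_mul_cancel₀ hp.ne', one_mul]
  dr f hf hfc x r hr := by
    have h := Id.LL_ball_ww hf hfc x hr
    have hv : volume.real (Metric.closedBall x r) = volume.real (Metric.closedBall (0 : E d) r) := by
      rw [measureReal_def, measureReal_def, Measure.addHaar_closedBall_center]
    have hp := Id.vol_pos d hr
    have hder := Id.hasDerivAt_avg_radius hf hfc x r
    refine hder.congr_deriv ?_
    rw [← hder.deriv, hv, ← integral_indicator Metric.isClosed_closedBall.measurableSet]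
    have h2 : (∫ z, (Metric.closedBall x r).indicator
        (fun z => inner ℝ (z - x) (gradient f z)) z) =
        r * Id.LL f ((Metric.closedBall x r).indicator (Id.ww x r)) := by
      rw [Id.LL, ← integral_const_mul]
      refine integral_congr_ae (Eventually.of_forall fun z => ?_)
      simp only
      by_cases hz : z ∈ Metric.closedBall x r
      · rw [indicator_of_mem hz, indicator_of_mem hz, Id.ww, inner_smul_left]
        simp only [conj_trivial]
        rw [← mul_assoc, mul_inv_cancel₀ hr.ne', one_mul]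
      · rw [indicator_of_notMem hz, indicator_of_notMem hz, inner_zero_left, mul_zero]
    rw [h2, h]
    field_simp

end Vale.Agent.P137.U.Cen
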