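import Vale.Agent.P137.C.Spec
import Vale.Agent.P137.C.Basic
import Vale.Agent.P137.C.Ident

/-!
# P137, centered operator, block IV.1: the good part
-/

open MeasureTheory Set Filter Topology
open scoped ENNReal NNReal

namespace Vale.Agent.P137.U.Cen

open Vale.Agent.P137 Vale.Agent.P137.U

variable {d : ℕ}

namespace Gd

/-! ### The successor function `nxt` -/

theorem nxt_mem {S : Finset ℕ} {M k : ℕ} (hk : k ≤ M + 1) :
    k < nxt S M k ∧ (nxt S M k ∈ S ∨ nxt S M k = M + 2) := by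
  have h : ({i | k < i ∧ (i ∈ S ∨ i = M + 2)} : Set ℕ).Nonempty :=
    ⟨M + 2, show k < M + 2 by omega, Or.inr rfl⟩
  exact Nat.sInf_mem h

theorem nxt_le_of_mem {S : Finset ℕ} {M k i : ℕ} (hi : i ∈ S) (hk : k < i) :
    nxt S M k ≤ i := Nat.sInf_le ⟨hk, Or.inl hi⟩

theorem nxt_le {S : Finset ℕ} {M k : ℕ} (hk : k ≤ M + 1) : nxt S M k ≤ M + 2 :=
  Nat.sInf_le ⟨by omega, Or.inr rfl⟩

/-- the largest element of `S` below `m + 1` -/
theorem exists_cur {S : Finset ℕ} {M m : ℕ} (hS : ∀ k ∈ S, 1 ≤ k ∧ k ≤ M) (hm : m ≤ M)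
    (h : nxt S M 0 ≤ m + 1) : ∃ k ∈ S, k ≤ m + 1 ∧ m + 1 < nxt S M k := by
  have h0 : nxt S M 0 ∈ S := by
    rcases (nxt_mem (S := S) (M := M) (k := 0) (by omega)).2 with h1 | h1
    · exact h1
    · omega
  have hne : (S.filter (fun k => k ≤ m + 1)).Nonempty := ⟨_, Finset.mem_filter.2 ⟨h0, h⟩⟩
  refine ⟨(S.filter (fun k => k ≤ m + 1)).max' hne, ?_, ?_, ?_⟩
  · exact (Finset.mem_filter.1 (Finset.max'_mem _ hne)).1
  · exact (Finset.mem_filter.1 (Finset.max'_mem _ hne)).2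
  · by_contra hcon
    push Not at hcon
    have hkS := (Finset.mem_filter.1 (Finset.max'_mem _ hne)).1
    have h2 := nxt_mem (S := S) (M := M) (k := (S.filter (fun k => k ≤ m + 1)).max' hne)
      (by have := (hS _ hkS).2; omega)
    rcases h2.2 with h3 | h3
    · have h4 := Finset.le_max' (S.filter (fun k => k ≤ m + 1)) _ (Finset.mem_filter.2 ⟨h3, hcon⟩)
      omega
    · omega

/-! ### The field -/

theorem fld_bulk (e' : E d) (τ : ℝ) (z : E d) : fld e' τ 0 z = e' + τ • z := by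
  simp [fld]

theorem norm_fld_le {e' N : E d} (he : ‖e'‖ = 1) (hN : ‖N‖ = 1) (z : E d) :
    ‖fld e' (- inner ℝ e' N) N z‖ ≤ 3 * ‖z - N‖ := by
  have h1 : fld e' (- inner ℝ e' N) N z =
      (-(inner ℝ e' N : ℝ)) • (z - N) + (inner ℝ e' (z - N) : ℝ) • N -
        (inner ℝ N (z - N) : ℝ) • e' := by
    unfold fld
    have hNN : (inner ℝ N N : ℝ) = 1 := by rw [real_inner_self_eq_norm_sq, hN]; norm_num
    rw [inner_sub_right, inner_sub_right, hNN]
    module
  have h2 : |(inner ℝ e' N : ℝ)| ≤ 1 := by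
    have := abs_real_inner_le_norm e' N
    rwa [he, hN, one_mul] at this
  have h3 : |(inner ℝ e' (z - N) : ℝ)| ≤ ‖z - N‖ := by
    have := abs_real_inner_le_norm e' (z - N)
    rwa [he, one_mul] at this
  have h4 : |(inner ℝ N (z - N) : ℝ)| ≤ ‖z - N‖ := by
    have := abs_real_inner_le_norm N (z - N)
    rwa [hN, one_mul] at this
  rw [h1]
  calc _ ≤ ‖(-(inner ℝ e' N : ℝ)) • (z - N)‖ + ‖(inner ℝ e' (z - N) : ℝ) • N‖ +
        ‖(inner ℝ N (z - N) : ℝ) • e'‖ :=
        (norm_sub_le _ _).trans (add_le_add_left (norm_add_le _ _) _)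
    _ ≤ ‖z - N‖ + ‖z - N‖ + ‖z - N‖ := by
        rw [norm_smul, norm_smul, norm_smul, hN, he, mul_one, mul_one, Real.norm_eq_abs,
          Real.norm_eq_abs, Real.norm_eq_abs, abs_neg]
        have h5 : |(inner ℝ e' N : ℝ)| * ‖z - N‖ ≤ 1 * ‖z - N‖ :=
          mul_le_mul_of_nonneg_right h2 (norm_nonneg _)
        linarith
    _ = _ := by ring

/-! ### The cutoffs -/

variable {B : Blk d}

/-- radii of the bands -/
theorem H_small {S0 : ℕ} (h0 : (1 / 2 : ℝ) ^ S0 < kap d / 4) (hs : S0 ≤ B.s0) {m : ℕ}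
    (hv : B.valid m) : B.H m < kap d * B.s / 4 := by
  rw [B.H_eq hv]
  have h1 : B.rho m ^ 16 ≤ B.rho m := by
    have := pow_le_pow_of_le_one (B.rho_nonneg m) (B.rho_le_one m) (show 1 ≤ 16 by norm_num)
    simpa using this
  have h2 : B.rho m ≤ (1 / 2) ^ S0 := (B.rho_le m).trans
    (pow_le_pow_of_le_one (by norm_num) (by norm_num) hs)
  have h3 := B.s_pos
  have h4 : B.rho m ^ 16 < kap d / 4 := (h1.trans h2).trans_lt h0
  calc B.s * B.rho m ^ 16 < B.s * (kap d / 4) := mul_lt_mul_of_pos_left h4 h3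
    _ = _ := by ring

theorem Th_valid (hd : 0 < d) {x z : E d} {r : ℝ} {m : ℕ} (hv : B.valid m) (hr : B.H m < r) :
    Th B x r m z = Id.thr d (r - B.H m) r ‖z - x‖ := by
  unfold Th
  rw [if_pos hv]
  exact Id.th_eq hd (by linarith) (by linarith [B.H_pos m]) _

theorem Th_nonneg (hd : 0 < d) {x z : E d} {r : ℝ} {m : ℕ} (hr : B.valid m → B.H m < r) :
    0 ≤ Th B x r m z := by
  by_cases hv : B.valid m
  · rw [Th_valid hd hv (hr hv)]
    exact Id.thr_nonneg hd (by linarith [hr hv]) (by linarith [B.H_pos m]) _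
  · unfold Th
    rw [if_neg hv]
    split_ifs <;> norm_num

theorem Th_le_one (hd : 0 < d) {x z : E d} {r : ℝ} {m : ℕ} (hr : B.valid m → B.H m < r) :
    Th B x r m z ≤ 1 := by
  by_cases hv : B.valid m
  · rw [Th_valid hd hv (hr hv)]
    exact Id.thr_le_one hd (by linarith [hr hv]) (by linarith [B.H_pos m]) _
  · unfold Th
    rw [if_neg hv]
    split_ifs <;> norm_num

theorem Th_eq_zero (hd : 0 < d) {x z : E d} {r : ℝ} {m : ℕ} (hr : B.valid m → B.H m < r)
    (hz : r < ‖z - x‖) : Th B x r m z = 0 := by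
  by_cases hv : B.valid m
  · rw [Th_valid hd hv (hr hv)]
    exact Id.thr_of_ge (by linarith [hr hv]) (by linarith [B.H_pos m]) hz.le
  · unfold Th
    rw [if_neg hv, if_neg (not_le.2 hz)]

theorem Th_eq_one (hd : 0 < d) {x z : E d} {r : ℝ} {m : ℕ} (hv : B.valid m) (hr : B.H m < r)
    (hz : ‖z - x‖ ≤ r - B.H m) : Th B x r m z = 1 := by
  rw [Th_valid hd hv hr]
  exact Id.thr_of_le hd (by linarith) (by linarith [B.H_pos m]) hz

theorem Th_invalid {x z : E d} {r : ℝ} {m : ℕ} (hv : ¬ B.valid m) (hz : ‖z - x‖ ≤ r) :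
    Th B x r m z = 1 := by
  unfold Th
  rw [if_neg hv, if_pos hz]

theorem Th_mono (hd : 0 < d) {x z : E d} {r : ℝ} {m : ℕ} (hv : B.valid m) (hr : B.H m < r) :
    Th B x r m z ≤ Th B x r (m + 1) z := by
  have hr' : B.H (m + 1) < r := (B.H_anti (Nat.le_succ m)).trans_lt hr
  rcases lt_or_ge r ‖z - x‖ with hz | hz
  · rw [Th_eq_zero hd (fun _ => hr) hz]
    exact Th_nonneg hd fun _ => hr'
  · by_cases hv' : B.valid (m + 1)
    · rw [Th_valid hd hv hr, Th_valid hd hv' hr']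
      exact Id.thr_mono_left hd (by linarith) (by linarith [B.H_anti (Nat.le_succ m)])
        (by linarith [B.H_pos (m + 1)]) _
    · rw [Th_invalid hv' hz]
      exact Th_le_one hd fun _ => hr

theorem measurable_Th (hd : 0 < d) {x : E d} {r : ℝ} {m : ℕ} (hr : B.valid m → B.H m < r) :
    Measurable (Th B x r m) := by
  by_cases hv : B.valid m
  · have : Th B x r m = fun z => Id.thr d (r - B.H m) r ‖z - x‖ :=
      funext fun z => Th_valid hd hv (hr hv)
    rw [this]
    exact (Id.continuous_thr (by linarith [hr hv])).measurable.comp (by fun_prop)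
  · have : Th B x r m = fun z => if ‖z - x‖ ≤ r then 1 else 0 := by
      funext z
      unfold Th
      rw [if_neg hv]
    rw [this]
    exact Measurable.ite (measurableSet_le (by fun_prop) measurable_const) measurable_const
      measurable_const

/-! ### Summation by parts -/

theorem core_sum {n k1 : ℕ} (h1 : 1 ≤ k1) (hk1 : k1 ≤ n + 1) (θ v : ℕ → ℝ) {g δ a : ℝ}
    (hδ : 0 ≤ δ) (hθ0 : 0 ≤ θ 0) (hmono : ∀ m < n, θ m ≤ θ (m + 1))
    (hθn : θ n ≤ 1) (ha : g ≤ a) (hbulk : ∀ m < n, m + 1 < k1 → g ≤ v m)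
    (hrest : ∀ m < n, k1 ≤ m + 1 → θ (m + 1) ≠ θ m → -δ ≤ v m) :
    θ (k1 - 1) * g - δ ≤ θ 0 * a + ∑ m ∈ Finset.range n, (θ (m + 1) - θ m) * v m := by
  have hk : k1 - 1 ≤ n := by omega
  rw [← Finset.sum_range_add_sum_Ico _ hk]
  have hpos : ∀ m ≤ n, 0 ≤ θ m := by
    intro m
    induction m with
    | zero => intro _; exact hθ0
    | succ m ih => intro hm; exact (ih (by omega)).trans (hmono m (by omega))
  have e1 : ∑ m ∈ Finset.range (k1 - 1), (θ (m + 1) - θ m) * g ≤
      ∑ m ∈ Finset.range (k1 - 1), (θ (m + 1) - θ m) * v m := by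
    refine Finset.sum_le_sum fun m hm => ?_
    rw [Finset.mem_range] at hm
    exact mul_le_mul_of_nonneg_left (hbulk m (by omega) (by omega))
      (sub_nonneg.2 (hmono m (by omega)))
  have e2 : ∑ m ∈ Finset.Ico (k1 - 1) n, (θ (m + 1) - θ m) * (-δ) ≤
      ∑ m ∈ Finset.Ico (k1 - 1) n, (θ (m + 1) - θ m) * v m := by
    refine Finset.sum_le_sum fun m hm => ?_
    rw [Finset.mem_Ico] at hm
    by_cases h0 : θ (m + 1) = θ m
    · rw [h0, sub_self, zero_mul, zero_mul]
    · exact mul_le_mul_of_nonneg_left (hrest m (by omega) (by omega) h0)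
        (sub_nonneg.2 (hmono m (by omega)))
  have t1 : ∑ m ∈ Finset.range (k1 - 1), (θ (m + 1) - θ m) * g = (θ (k1 - 1) - θ 0) * g := by
    rw [← Finset.sum_mul, Finset.sum_range_sub]
  have t2 : ∑ m ∈ Finset.Ico (k1 - 1) n, (θ (m + 1) - θ m) * (-δ) =
      (θ n - θ (k1 - 1)) * (-δ) := by
    rw [← Finset.sum_mul]
    congr 1
    have := Finset.sum_range_add_sum_Ico (fun m => θ (m + 1) - θ m) hk
    rw [Finset.sum_range_sub, Finset.sum_range_sub] at this
    linarith
  rw [t1] at e1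
  rw [t2] at e2
  have h3 : θ 0 * g ≤ θ 0 * a := mul_le_mul_of_nonneg_left ha hθ0
  have h4 : (θ n - θ (k1 - 1)) * δ ≤ 1 * δ :=
    mul_le_mul_of_nonneg_right (by linarith [hpos _ hk]) hδ
  nlinarith

/-! ### Pointwise estimates -/

theorem inner_bulk {e e' : E d} (h : B.OK e) (he' : ‖e'‖ = 1) (hee : ‖e' - e‖ ≤ 1 / 50)
    {τ0 : ℝ} (hτ : |τ0| ≤ 7 / 10) {w : E d} (hw : ‖w‖ ≤ 1) (z : E d) :
    1 / 10 * ‖gam B.c0 z‖ ≤ inner ℝ (fld e' τ0 0 w) (gam B.c0 z) := by
  rw [fld_bulk, inner_add_left, real_inner_smul_left]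
  have h1 := Blk.gam_cone h he' hee z
  have h2 : |τ0 * (inner ℝ w (gam B.c0 z) : ℝ)| ≤ 7 / 10 * ‖gam B.c0 z‖ := by
    rw [abs_mul]
    refine mul_le_mul hτ ?_ (abs_nonneg _) (by norm_num)
    refine (abs_real_inner_le_norm _ _).trans ?_
    exact mul_le_of_le_one_left (norm_nonneg _) hw
  have h3 := neg_abs_le (τ0 * (inner ℝ w (gam B.c0 z) : ℝ))
  linarith

theorem norm_w_sub_le {x z p l : E d} {r ρ : ℝ} (hrad : B.rad r) (hρ : 0 ≤ ρ)
    (h1 : ‖(x + r • l) - p‖ ≤ 3 * (ρ * B.s)) (h2 : ‖z - p‖ ≤ ρ * B.s / 8) :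
    ‖r⁻¹ • (z - x) - l‖ ≤ 25 / 4 / kap d * ρ := by
  have hk := kap_pos d
  have hs := B.s_pos
  have hr : 0 < r := lt_of_lt_of_le (by positivity) hrad.1
  have e1 : r⁻¹ • (z - x) - l = r⁻¹ • ((z - p) - ((x + r • l) - p)) := by
    have : (z - p) - ((x + r • l) - p) = (z - x) - r • l := by abel
    rw [this, smul_sub r⁻¹ (z - x) (r • l), smul_smul, inv_mul_cancel₀ hr.ne', one_smul]
  rw [e1, norm_smul, norm_inv, Real.norm_eq_abs, abs_of_pos hr]
  have h3 : ‖(z - p) - ((x + r • l) - p)‖ ≤ 25 / 8 * (ρ * B.s) :=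
    (norm_sub_le _ _).trans (by linarith)
  have h4 : kap d * B.s / 2 ≤ r := hrad.1
  rw [inv_mul_le_iff₀ hr]
  refine h3.trans ?_
  calc 25 / 8 * (ρ * B.s) = 25 / 4 / kap d * ρ * (kap d * B.s / 2) := by
        field_simp; ring
    _ ≤ 25 / 4 / kap d * ρ * r := mul_le_mul_of_nonneg_left h4 (by positivity)
    _ = _ := by ring

open Classical in
/-- offset of the inner ball -/
noncomputable def hh (B : Blk d) (i : ℕ) : ℝ := if B.valid i then B.H i else 0

theorem hh_nonneg (i : ℕ) : 0 ≤ hh B i := by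
  unfold hh
  split_ifs
  · exact (B.H_pos i).le
  · exact le_rfl

/-- labels coincide along the bands which are all near `z` -/
theorem lab_eq {x z : E d} {r : ℝ} {M : ℕ} {S : Finset ℕ} (hS : ∀ k ∈ S, 1 ≤ k ∧ k ≤ M)
    {y : ℕ → Lat d} {lab : ℕ → E d}
    (hsep : ∀ k ∈ S, ∀ k' ∈ S, nxt S M k = k' → lab k = lab k' ∨
      B.rho k * B.s / 2 ≤ ‖B.pos k (y k) - B.pos k' (y k')‖)
    (hz : ∀ k ∈ S, r - ‖z - x‖ < B.H (k - 1) → ‖z - B.pos k (y k)‖ ≤ B.rho k * B.s / 8)
    {κ : ℕ} (hκ : κ ∈ S) (hκ' : r - ‖z - x‖ < B.H (κ - 1)) :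
    ∀ n : ℕ, ∀ k ∈ S, k ≤ κ → κ - k ≤ n → lab k = lab κ := by
  intro n
  induction n with
  | zero =>
    intro k _ h1 h2
    have : k = κ := by omega
    rw [this]
  | succ n ih =>
    intro k hk h1 h2
    rcases eq_or_lt_of_le h1 with h3 | h3
    · rw [h3]
    · have hk' := nxt_mem (S := S) (M := M) (k := k) (by have := (hS k hk).2; omega)
      have hle : nxt S M k ≤ κ := nxt_le_of_mem hκ h3
      have hmem : nxt S M k ∈ S := by
        rcases hk'.2 with h4 | h4
        · exact h4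
        · have := (hS κ hκ).2
          omega
      rw [← ih (nxt S M k) hmem hle (by omega)]
      have hsm : ∀ i ≤ κ, r - ‖z - x‖ < B.H (i - 1) := fun i hi =>
        hκ'.trans_le (B.H_anti (by omega))
      rcases hsep k hk _ hmem rfl with h4 | h4
      · exact h4
      · exfalso
        have d1 := hz k hk (hsm k h1)
        have d2 := hz _ hmem (hsm _ hle)
        have hρ : B.rho (nxt S M k) ≤ B.rho k := B.rho_anti hk'.1.le
        have d3 : ‖B.pos k (y k) - B.pos (nxt S M k) (y (nxt S M k))‖ ≤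
            ‖z - B.pos k (y k)‖ + ‖z - B.pos (nxt S M k) (y (nxt S M k))‖ := by
          have : B.pos k (y k) - B.pos (nxt S M k) (y (nxt S M k)) =
            (z - B.pos (nxt S M k) (y (nxt S M k))) - (z - B.pos k (y k)) := by abel
          rw [this]
          exact (norm_sub_le _ _).trans (le_of_eq (add_comm _ _))
        have d4 : B.rho (nxt S M k) * B.s ≤ B.rho k * B.s :=
          mul_le_mul_of_nonneg_right hρ B.s_pos.le
        have d5 : 0 < B.rho k * B.s := mul_pos (B.rho_pos k) B.s_pos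
        linarith

/-- The set on which condition `C` is used. -/
def setA (B : Blk d) (x : E d) (r : ℝ) (y : ℕ → Lat d) (k : ℕ) : Set (E d) :=
  {z | |‖z - x‖ - r| ≤ 2 * B.H (k - 1) ∧ B.rho k * B.s / 8 < ‖z - B.pos k (y k)‖}

theorem pointwise (hd : 0 < d) {e e' : E d} (h : B.OK e) (he' : ‖e'‖ = 1)
    (hee : ‖e' - e‖ ≤ 1 / 50) {M : ℕ} (hM : B.valid M) (hM' : ¬ B.valid (M + 1)) {x : E d}
    {r : ℝ} (hrad : B.rad r) (hH : ∀ m, B.valid m → B.H m < r) {S : Finset ℕ}
    (hS : ∀ k ∈ S, 1 ≤ k ∧ k ≤ M) {y : ℕ → Lat d} {lab : ℕ → E d}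
    (hlab : ∀ k ∈ S, ‖lab k‖ = 1 ∧ ‖(x + r • lab k) - B.pos k (y k)‖ ≤ 3 * (B.rho k * B.s))
    (hsep : ∀ k ∈ S, ∀ k' ∈ S, nxt S M k = k' → lab k = lab k' ∨
      B.rho k * B.s / 2 ≤ ‖B.pos k (y k) - B.pos k' (y k')‖)
    {τ0 : ℝ} (hτ0 : |τ0| ≤ 7 / 10) {τ : ℕ → ℝ} {N : ℕ → E d}
    (hbulk : ∀ m, m + 1 < nxt S M 0 → τ m = τ0 ∧ N m = 0)
    (hN : ∀ m ≤ M, ∀ k ∈ S, k ≤ m + 1 → m + 1 < nxt S M k →
      N m = lab k ∧ τ m = - inner ℝ e' (lab k)) (z : E d) :
    1 / 10 * (Metric.closedBall x (r - hh B (nxt S M 0 - 1))).indicator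
        (fun z => ‖gam B.c0 z‖) z -
      (∑ k ∈ S, 6 * (setA B x r y k).indicator (fun z => ‖gam B.c0 z‖) z +
       ∑ k ∈ S, 75 / 4 / kap d * B.rho k *
        (Metric.closedBall x (r - hh B (nxt S M k - 1))).indicator (fun z => ‖gam B.c0 z‖) z) ≤
      Th B x r 0 z * inner ℝ (fld e' τ0 0 (r⁻¹ • (z - x))) (gam B.c0 z) +
      ∑ m ∈ Finset.range (M + 1), (Th B x r (m + 1) z - Th B x r m z) *
        inner ℝ (fld e' (τ m) (N m) (r⁻¹ • (z - x))) (gam B.c0 z) := by
  have hk0 := kap_pos d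
  have hr : 0 < r := lt_of_lt_of_le (by have := B.s_pos; positivity) hrad.1
  have hind : ∀ A : Set (E d), 0 ≤ A.indicator (fun z => ‖gam B.c0 z‖) z := fun A =>
    indicator_nonneg (fun _ _ => norm_nonneg _) _
  have hsum1 : 0 ≤ ∑ k ∈ S, 6 * (setA B x r y k).indicator (fun z => ‖gam B.c0 z‖) z :=
    Finset.sum_nonneg fun k _ => mul_nonneg (by norm_num) (hind _)
  have hterm2 : ∀ k ∈ S, 0 ≤ 75 / 4 / kap d * B.rho k *
        (Metric.closedBall x (r - hh B (nxt S M k - 1))).indicator (fun z => ‖gam B.c0 z‖) z :=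
    fun k _ => mul_nonneg (mul_nonneg (by positivity) (B.rho_nonneg k)) (hind _)
  have hsum2 := Finset.sum_nonneg hterm2
  have hgn : 0 ≤ ‖gam B.c0 z‖ := norm_nonneg _
  rcases lt_or_ge r ‖z - x‖ with hz | hz
  · -- outside the ball
    have h0 : ∀ m, Th B x r m z = 0 := fun m => Th_eq_zero hd (hH m) hz
    have h1 : (Metric.closedBall x (r - hh B (nxt S M 0 - 1))).indicator
        (fun z => ‖gam B.c0 z‖) z = 0 := by
      refine indicator_of_notMem ?_ _
      rw [Metric.mem_closedBall, dist_eq_norm, not_le]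
      linarith [hh_nonneg (B := B) (nxt S M 0 - 1)]
    simp only [h0, h1, zero_mul, sub_self, Finset.sum_const_zero, mul_zero]
    linarith
  have hw : ‖r⁻¹ • (z - x)‖ ≤ 1 := by
    rw [norm_smul, norm_inv, Real.norm_eq_abs, abs_of_pos hr, inv_mul_le_iff₀ hr, mul_one]
    exact hz
  have hk1 := nxt_mem (S := S) (M := M) (k := 0) (by omega)
  have hk2 := nxt_le (S := S) (M := M) (k := 0) (by omega)
  -- the active bands
  have hact : ∀ m ≤ M, ∀ k ∈ S, k ≤ m + 1 → Th B x r (m + 1) z ≠ Th B x r m z →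
      r - ‖z - x‖ < B.H (k - 1) := by
    intro m hm k hk hkm hne
    have hv := B.valid_anti hm hM
    by_contra hcon
    push Not at hcon
    have h1 : B.H m ≤ B.H (k - 1) := B.H_anti (by omega)
    have h2 : Th B x r m z = 1 := Th_eq_one hd hv (hH m hv) (by linarith)
    have h3 := Th_mono hd (x := x) (z := z) hv (hH m hv)
    have h4 := Th_le_one hd (x := x) (z := z) (hH (m + 1))
    exact hne (by linarith)
  -- reduction to the bound of the field
  have hred : ∀ δ : ℝ, 0 ≤ δ →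
      (∀ k ∈ S, r - ‖z - x‖ < B.H (k - 1) →
        ‖fld e' (- inner ℝ e' (lab k)) (lab k) (r⁻¹ • (z - x))‖ * ‖gam B.c0 z‖ ≤ δ) →
      1 / 10 * (Metric.closedBall x (r - hh B (nxt S M 0 - 1))).indicator
        (fun z => ‖gam B.c0 z‖) z - δ ≤
      Th B x r 0 z * inner ℝ (fld e' τ0 0 (r⁻¹ • (z - x))) (gam B.c0 z) +
      ∑ m ∈ Finset.range (M + 1), (Th B x r (m + 1) z - Th B x r m z) *
        inner ℝ (fld e' (τ m) (N m) (r⁻¹ • (z - x))) (gam B.c0 z) := by
    intro δ hδ hbd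
    have hcore := core_sum (n := M + 1) (k1 := nxt S M 0) (by omega) (by omega)
      (fun m => Th B x r m z)
      (fun m => inner ℝ (fld e' (τ m) (N m) (r⁻¹ • (z - x))) (gam B.c0 z))
      (g := 1 / 10 * ‖gam B.c0 z‖) (δ := δ)
      (a := inner ℝ (fld e' τ0 0 (r⁻¹ • (z - x))) (gam B.c0 z)) hδ
      (Th_nonneg hd (hH 0))
      (fun m hm => Th_mono hd (B.valid_anti (by omega) hM) (hH m (B.valid_anti (by omega) hM)))
      (Th_le_one hd (hH (M + 1)))
      (inner_bulk h he' hee hτ0 hw z)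
      (fun m hm hm' => by
        rw [(hbulk m hm').1, (hbulk m hm').2]
        exact inner_bulk h he' hee hτ0 hw z)
      (fun m hm hm' hne => by
        obtain ⟨k, hkS, hk3, hk4⟩ := exists_cur hS (by omega) hm'
        obtain ⟨e1, e2⟩ := hN m (by omega) k hkS hk3 hk4
        have h5 := hbd k hkS (hact m (by omega) k hkS hk3 hne)
        rw [← e1] at h5 e2
        have h6 := abs_real_inner_le_norm (fld e' (τ m) (N m) (r⁻¹ • (z - x))) (gam B.c0 z)
        rw [e2] at h6 ⊢
        have h7 := neg_abs_le (inner ℝ (fld e' (-inner ℝ e' (N m)) (N m) (r⁻¹ • (z - x)))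
          (gam B.c0 z) : ℝ)
        linarith)
    refine le_trans ?_ hcore
    refine sub_le_sub_right ?_ _
    rw [mul_left_comm]
    refine mul_le_mul_of_nonneg_left ?_ (by norm_num)
    by_cases hzb : z ∈ Metric.closedBall x (r - hh B (nxt S M 0 - 1))
    · rw [indicator_of_mem hzb]
      rw [Metric.mem_closedBall, dist_eq_norm] at hzb
      have h1 : Th B x r (nxt S M 0 - 1) z = 1 := by
        by_cases hv : B.valid (nxt S M 0 - 1)
        · unfold hh at hzb
          rw [if_pos hv] at hzb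
          exact Th_eq_one hd hv (hH _ hv) hzb
        · exact Th_invalid hv hz
      simp only [h1, one_mul, le_refl]
    · rw [indicator_of_notMem hzb]
      exact mul_nonneg (Th_nonneg hd (hH _)) hgn
  by_cases hall : ∀ k ∈ S, r - ‖z - x‖ < B.H (k - 1) → ‖z - B.pos k (y k)‖ ≤ B.rho k * B.s / 8
  · by_cases hne : (S.filter (fun k => r - ‖z - x‖ < B.H (k - 1))).Nonempty
    · -- all labels coincide
      obtain ⟨κ, hκ⟩ : ∃ κ, κ = (S.filter (fun k => r - ‖z - x‖ < B.H (k - 1))).max' hne :=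
        ⟨_, rfl⟩
      have hκm : κ ∈ S.filter (fun k => r - ‖z - x‖ < B.H (k - 1)) := by
        rw [hκ]; exact Finset.max'_mem _ _
      obtain ⟨hκS, hκr⟩ := Finset.mem_filter.1 hκm
      have hmax : ∀ k ∈ S, r - ‖z - x‖ < B.H (k - 1) → k ≤ κ := fun k hk hk' => by
        rw [hκ]; exact Finset.le_max' _ _ (Finset.mem_filter.2 ⟨hk, hk'⟩)
      have hlk : ∀ k ∈ S, r - ‖z - x‖ < B.H (k - 1) → lab k = lab κ := fun k hk hk' =>
        lab_eq hS hsep hall hκS hκr _ k hk (hmax k hk hk') le_rfl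
      have hwn := norm_w_sub_le hrad (B.rho_nonneg κ) (hlab κ hκS).2 (hall κ hκS hκr)
      have hfl := norm_fld_le he' (hlab κ hκS).1 (r⁻¹ • (z - x))
      have hδ : ‖fld e' (- inner ℝ e' (lab κ)) (lab κ) (r⁻¹ • (z - x))‖ ≤
          75 / 4 / kap d * B.rho κ := by
        refine hfl.trans ?_
        calc 3 * ‖r⁻¹ • (z - x) - lab κ‖ ≤ 3 * (25 / 4 / kap d * B.rho κ) := by linarith
          _ = _ := by ring
      have hin : z ∈ Metric.closedBall x (r - hh B (nxt S M κ - 1)) := by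
        rw [Metric.mem_closedBall, dist_eq_norm]
        have hn := nxt_mem (S := S) (M := M) (k := κ) (by have := (hS κ hκS).2; omega)
        rcases hn.2 with h4 | h4
        · have hv : B.valid (nxt S M κ - 1) := B.valid_anti (by have := (hS _ h4).2; omega) hM
          unfold hh
          rw [if_pos hv]
          by_contra hcon
          push Not at hcon
          have := hmax _ h4 (by linarith)
          omega
        · rw [h4]
          have hv : ¬ B.valid (M + 2 - 1) := hM'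
          unfold hh
          rw [if_neg hv]
          linarith
      refine le_trans ?_ (hred (75 / 4 / kap d * B.rho κ * ‖gam B.c0 z‖)
        (mul_nonneg (mul_nonneg (by positivity) (B.rho_nonneg κ)) hgn) (fun k hk hk' => by
          rw [hlk k hk hk']
          exact mul_le_mul_of_nonneg_right hδ hgn))
      refine sub_le_sub_left ?_ _
      refine le_trans ?_ (le_add_of_nonneg_left hsum1)
      refine le_trans ?_ (Finset.single_le_sum hterm2 hκS)
      rw [indicator_of_mem hin]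
    · -- no active band
      rw [Finset.not_nonempty_iff_eq_empty] at hne
      have h1 : ∀ k ∈ S, ¬ (r - ‖z - x‖ < B.H (k - 1)) := fun k hk hk' => by
        have : k ∈ S.filter (fun k => r - ‖z - x‖ < B.H (k - 1)) :=
          Finset.mem_filter.2 ⟨hk, hk'⟩
        rw [hne] at this
        exact absurd this (Finset.notMem_empty _)
      have h2 := hred 0 le_rfl (fun k hk hk' => absurd hk' (h1 k hk))
      linarith
  · -- a band away from `z`
    push Not at hall
    obtain ⟨k, hk, hk', hk''⟩ := hall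
    have hmem : z ∈ setA B x r y k := by
      refine ⟨?_, hk''⟩
      rw [abs_sub_comm, abs_of_nonneg (by linarith)]
      linarith [B.H_pos (k - 1)]
    refine le_trans ?_ (hred (6 * ‖gam B.c0 z‖) (by positivity) (fun i hi _ => by
      refine mul_le_mul_of_nonneg_right ?_ hgn
      refine (norm_fld_le he' (hlab i hi).1 _).trans ?_
      have := norm_sub_le (r⁻¹ • (z - x)) (lab i)
      rw [(hlab i hi).1] at this
      linarith))
    refine sub_le_sub_left ?_ _
    refine le_trans ?_ (le_add_of_nonneg_right hsum2)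
    refine le_trans ?_ (Finset.single_le_sum (f := fun k => 6 *
      (setA B x r y k).indicator (fun z => ‖gam B.c0 z‖) z)
      (fun k _ => mul_nonneg (by norm_num) (hind _)) hk)
    simp only [indicator_of_mem hmem, le_refl]

/-! ### Integration -/

theorem norm_fld_le' (e' : E d) (τ : ℝ) (N : E d) {w : E d} (hw : ‖w‖ ≤ 1) :
    ‖fld e' τ N w‖ ≤ ‖e'‖ + |τ| + 2 * (‖e'‖ * ‖N‖) := by
  unfold fld
  have h1 : ‖τ • w‖ ≤ |τ| := by
    rw [norm_smul, Real.norm_eq_abs]
    exact mul_le_of_le_one_right (abs_nonneg _) hw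
  have h2 : ‖(inner ℝ e' w : ℝ) • N‖ ≤ ‖e'‖ * ‖N‖ := by
    rw [norm_smul, Real.norm_eq_abs]
    refine mul_le_mul_of_nonneg_right ?_ (norm_nonneg _)
    exact (abs_real_inner_le_norm _ _).trans (mul_le_of_le_one_right (norm_nonneg _) hw)
  have h3 : ‖(inner ℝ N w : ℝ) • e'‖ ≤ ‖e'‖ * ‖N‖ := by
    rw [norm_smul, Real.norm_eq_abs, mul_comm ‖e'‖ ‖N‖]
    refine mul_le_mul_of_nonneg_right ?_ (norm_nonneg _)
    exact (abs_real_inner_le_norm _ _).trans (mul_le_of_le_one_right (norm_nonneg _) hw)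
  calc _ ≤ ‖e' + τ • w‖ + ‖(inner ℝ e' w : ℝ) • N - (inner ℝ N w : ℝ) • e'‖ := norm_add_le _ _
    _ ≤ (‖e'‖ + ‖τ • w‖) + (‖(inner ℝ e' w : ℝ) • N‖ + ‖(inner ℝ N w : ℝ) • e'‖) :=
        add_le_add (norm_add_le _ _) (norm_sub_le _ _)
    _ ≤ _ := by linarith

theorem measurable_fld (e' : E d) (τ : ℝ) (N x : E d) (r : ℝ) :
    Measurable fun z : E d => fld e' τ N (r⁻¹ • (z - x)) := by
  unfold fld
  fun_prop

theorem integrable_kernel {e : E d} (h : B.OK e) {φ : E d → ℝ} (hφm : Measurable φ)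
    (hφ : ∀ z, |φ z| ≤ 1) {x : E d} {r : ℝ} (hr : 0 < r) (hφ0 : ∀ z, r < ‖z - x‖ → φ z = 0)
    (e' : E d) (τ : ℝ) (N : E d) :
    Integrable fun z => φ z * inner ℝ (fld e' τ N (r⁻¹ • (z - x))) (gam B.c0 z) := by
  refine Integrable.mono' (g := fun z => (‖e'‖ + |τ| + 2 * (‖e'‖ * ‖N‖)) * ‖gam B.c0 z‖)
    ((Blk.integrable_gam h).norm.const_mul _) ?_ ?_
  · exact (hφm.mul ((measurable_fld e' τ N x r).inner (measurable_gam _))).aestronglyMeasurable
  · refine Eventually.of_forall fun z => ?_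
    rw [Real.norm_eq_abs, abs_mul]
    rcases lt_or_ge r ‖z - x‖ with hz | hz
    · rw [hφ0 z hz, abs_zero, zero_mul]
      positivity
    · have hw : ‖r⁻¹ • (z - x)‖ ≤ 1 := by
        rw [norm_smul, norm_inv, Real.norm_eq_abs, abs_of_pos hr, inv_mul_le_iff₀ hr, mul_one]
        exact hz
      calc |φ z| * |(inner ℝ (fld e' τ N (r⁻¹ • (z - x))) (gam B.c0 z) : ℝ)| ≤
          1 * (‖fld e' τ N (r⁻¹ • (z - x))‖ * ‖gam B.c0 z‖) :=
            mul_le_mul (hφ z) (abs_real_inner_le_norm _ _) (abs_nonneg _) zero_le_one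
        _ ≤ _ := by
            rw [one_mul]
            exact mul_le_mul_of_nonneg_right (norm_fld_le' e' τ N hw) (norm_nonneg _)

theorem integral_indicator_gam {A : Set (E d)} (hA : MeasurableSet A) :
    ∫ z, A.indicator (fun z => ‖gam B.c0 z‖) z = B.mass A := integral_indicator hA

theorem integrable_indicator_gam {e : E d} (h : B.OK e) {A : Set (E d)} (hA : MeasurableSet A) :
    Integrable (A.indicator (fun z => ‖gam B.c0 z‖)) := (Blk.integrable_gam h).norm.indicator hA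

theorem measurableSet_setA (x : E d) (r : ℝ) (y : ℕ → Lat d) (k : ℕ) :
    MeasurableSet (setA B x r y k) := by
  have h1 : MeasurableSet {z : E d | |‖z - x‖ - r| ≤ 2 * B.H (k - 1)} :=
    measurableSet_le (by fun_prop) measurable_const
  have h2 : MeasurableSet {z : E d | B.rho k * B.s / 8 < ‖z - B.pos k (y k)‖} :=
    measurableSet_lt measurable_const (by fun_prop)
  exact h1.inter h2

end Gd

/-- **Block IV.1.** -/
theorem specGood (hd : 0 < d) : SpecGood d := by
  have hk0 := kap_pos d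
  obtain ⟨S0, hS0⟩ := exists_pow_lt_of_lt_one (show (0 : ℝ) < kap d / 4 by positivity)
    (show (1 / 2 : ℝ) < 1 by norm_num)
  refine ⟨6 + 75 / 4 / kap d, 1 / 10, S0, by positivity, by norm_num, ?_⟩
  intro B e e' hs0 h he' hee M hM hM' x r _ hrad S hS y hBC lab hlab hsep τ0 hτ0 τ N hbulk hN
  have hr : 0 < r := lt_of_lt_of_le (by have := B.s_pos; positivity) hrad.1
  have hH : ∀ m, B.valid m → B.H m < r := fun m hm => by
    have h1 := Gd.H_small hS0 hs0 hm
    have h2 := hrad.1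
    have h3 : 0 < kap d * B.s := mul_pos hk0 B.s_pos
    linarith
  have hpt := Gd.pointwise hd h he' hee hM hM' hrad hH hS hlab hsep hτ0 hbulk hN
  -- integrability of the kernels
  have hI0 : Integrable fun z => Th B x r 0 z *
      inner ℝ (fld e' τ0 0 (r⁻¹ • (z - x))) (gam B.c0 z) :=
    Gd.integrable_kernel h (Gd.measurable_Th hd (hH 0))
      (fun z => by
        rw [abs_of_nonneg (Gd.Th_nonneg hd (hH 0))]
        exact Gd.Th_le_one hd (hH 0)) hr (fun z hz => Gd.Th_eq_zero hd (hH 0) hz) _ _ _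
  have hI1 : ∀ m ∈ Finset.range (M + 1), Integrable fun z =>
      (Th B x r (m + 1) z - Th B x r m z) *
        inner ℝ (fld e' (τ m) (N m) (r⁻¹ • (z - x))) (gam B.c0 z) := fun m _ =>
    Gd.integrable_kernel h (φ := fun z => Th B x r (m + 1) z - Th B x r m z)
      ((Gd.measurable_Th hd (hH (m + 1))).sub (Gd.measurable_Th hd (hH m)))
      (fun z => by
        have a1 := Gd.Th_nonneg hd (x := x) (z := z) (hH m)
        have a2 := Gd.Th_le_one hd (x := x) (z := z) (hH m)
        have a3 := Gd.Th_nonneg hd (x := x) (z := z) (hH (m + 1))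
        have a4 := Gd.Th_le_one hd (x := x) (z := z) (hH (m + 1))
        rw [abs_le]
        constructor <;> linarith) hr
      (fun z hz => by
        rw [Gd.Th_eq_zero hd (hH _) hz, Gd.Th_eq_zero hd (hH _) hz, sub_self]) _ _ _
  have hball : ∀ ρ : ℝ, MeasurableSet (Metric.closedBall x ρ) := fun ρ => measurableSet_closedBall
  have hJ0 : Integrable fun z => 1 / 10 * (Metric.closedBall x
      (r - Gd.hh B (nxt S M 0 - 1))).indicator (fun z => ‖gam B.c0 z‖) z :=
    (Gd.integrable_indicator_gam h (hball _)).const_mul _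
  have hJ1 : ∀ k ∈ S, Integrable fun z => 6 * (Gd.setA B x r y k).indicator
      (fun z => ‖gam B.c0 z‖) z := fun k _ =>
    (Gd.integrable_indicator_gam h (Gd.measurableSet_setA x r y k)).const_mul _
  have hJ2 : ∀ k ∈ S, Integrable fun z => 75 / 4 / kap d * B.rho k *
        (Metric.closedBall x (r - Gd.hh B (nxt S M k - 1))).indicator
          (fun z => ‖gam B.c0 z‖) z := fun k _ =>
    (Gd.integrable_indicator_gam h (hball _)).const_mul _
  have hint := integral_mono (hJ0.sub ((integrable_finsetSum S hJ1).add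
    (integrable_finsetSum S hJ2))) (hI0.add (integrable_finsetSum _ hI1)) hpt
  have hR : ∫ z, (Th B x r 0 z * inner ℝ (fld e' τ0 0 (r⁻¹ • (z - x))) (gam B.c0 z) +
      ∑ m ∈ Finset.range (M + 1), (Th B x r (m + 1) z - Th B x r m z) *
        inner ℝ (fld e' (τ m) (N m) (r⁻¹ • (z - x))) (gam B.c0 z)) =
      (∫ z, Th B x r 0 z * inner ℝ (fld e' τ0 0 (r⁻¹ • (z - x))) (gam B.c0 z)) +
      ∑ m ∈ Finset.range (M + 1), ∫ z, (Th B x r (m + 1) z - Th B x r m z) *
        inner ℝ (fld e' (τ m) (N m) (r⁻¹ • (z - x))) (gam B.c0 z) := by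
    rw [integral_add hI0 (integrable_finsetSum _ hI1), integral_finsetSum _ hI1]
  have hL : ∫ z, (1 / 10 * (Metric.closedBall x (r - Gd.hh B (nxt S M 0 - 1))).indicator
        (fun z => ‖gam B.c0 z‖) z -
      (∑ k ∈ S, 6 * (Gd.setA B x r y k).indicator (fun z => ‖gam B.c0 z‖) z +
       ∑ k ∈ S, 75 / 4 / kap d * B.rho k *
        (Metric.closedBall x (r - Gd.hh B (nxt S M k - 1))).indicator
          (fun z => ‖gam B.c0 z‖) z)) =
      1 / 10 * B.In x r (nxt S M 0 - 1) - (∑ k ∈ S, 6 * B.mass (Gd.setA B x r y k) +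
        ∑ k ∈ S, 75 / 4 / kap d * B.rho k * B.In x r (nxt S M k - 1)) := by
    have hJ12 : Integrable fun z =>
        (∑ k ∈ S, 6 * (Gd.setA B x r y k).indicator (fun z => ‖gam B.c0 z‖) z +
         ∑ k ∈ S, 75 / 4 / kap d * B.rho k *
        (Metric.closedBall x (r - Gd.hh B (nxt S M k - 1))).indicator
          (fun z => ‖gam B.c0 z‖) z) :=
      (integrable_finsetSum S hJ1).add (integrable_finsetSum S hJ2)
    rw [integral_sub hJ0 hJ12, integral_add (integrable_finsetSum S hJ1)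
      (integrable_finsetSum S hJ2),
      integral_finsetSum _ hJ1, integral_finsetSum _ hJ2, integral_const_mul,
      Gd.integral_indicator_gam (hball _)]
    congr 1
    congr 1
    · refine Finset.sum_congr rfl fun k _ => ?_
      rw [integral_const_mul, Gd.integral_indicator_gam (Gd.measurableSet_setA x r y k)]
    · refine Finset.sum_congr rfl fun k _ => ?_
      rw [integral_const_mul, Gd.integral_indicator_gam (hball _)]
      rfl
  refine le_trans ?_ (hL.symm.le.trans (hint.trans hR.le))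
  have hC : ∑ k ∈ S, 6 * B.mass (Gd.setA B x r y k) ≤
      (6 + 75 / 4 / kap d) * ∑ k ∈ S, B.rho k * B.b k x r := by
    rw [Finset.mul_sum]
    refine Finset.sum_le_sum fun k hk => ?_
    have h1 : B.mass (Gd.setA B x r y k) ≤ B.rho k * B.b k x r := (hBC k hk).2
    have h2 : 0 ≤ B.rho k * B.b k x r := mul_nonneg (B.rho_nonneg k) (B.b_nonneg k x r)
    refine mul_le_mul ?_ h1 (Blk.mass_nonneg _) (by positivity)
    have : 0 ≤ 75 / 4 / kap d := by positivity
    linarith
  have hC' : ∑ k ∈ S, 75 / 4 / kap d * B.rho k * B.In x r (nxt S M k - 1) ≤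
      (6 + 75 / 4 / kap d) * ∑ k ∈ S, B.rho k * B.In x r (nxt S M k - 1) := by
    rw [Finset.mul_sum]
    refine Finset.sum_le_sum fun k hk => ?_
    rw [mul_assoc]
    refine mul_le_mul_of_nonneg_right (by linarith)
      (mul_nonneg (B.rho_nonneg k) (Blk.In_nonneg x r _))
  rw [mul_add]
  linarith

end Vale.Agent.P137.U.Cen
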