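import Vale.Agent.P137.C.Basic

/-!
# P137, centered operator, block III.2: multi-scale kernel bound

`ker_multi` is the multi-scale estimate on one cube, `ker_cover` the version over a family of
cells, and `specKer` the statement of block III.2.
-/

open MeasureTheory Set Filter Topology
open scoped ENNReal NNReal

namespace Vale.Agent.P137.U.Cen

open Vale.Agent.P137 Vale.Agent.P137.U

variable {d : ℕ}

/-- The top term. -/
theorem ker_top_le {ω : ℕ → ℝ} (hω : ∀ i, 0 ≤ ω i) {w : Lat d → E d} {m : Lat d → ℝ}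
    (hm : ∀ a, 0 ≤ m a) (k : ℕ) (a : Lat d) : ω k * ‖vv w k a‖ ≤ mm ω w m k a := by
  cases k with
  | zero =>
    rw [mm, mul_add]
    exact le_add_of_nonneg_right (mul_nonneg (hω 0) (hm a))
  | succ k =>
    rw [mm]
    exact le_add_of_nonneg_right (Finset.sum_nonneg fun b _ => mm_nonneg hω hm _ _)

/-- Monotonicity in the weights and in the bottom mass. -/
theorem ker_mm_mono {ω ω' : ℕ → ℝ} (hω : ∀ i, 0 ≤ ω i) (hw : ∀ i, ω i ≤ ω' i)
    {w : Lat d → E d} {m m' : Lat d → ℝ} (hm0 : ∀ a, 0 ≤ m a) (hm : ∀ a, m a ≤ m' a)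
    (k : ℕ) (a : Lat d) : mm ω w m k a ≤ mm ω' w m' k a := by
  induction k generalizing a with
  | zero =>
    simp only [mm]
    have h1 := hw 0
    have h2 := hm a
    have h3 := hm0 a
    have h4 := norm_nonneg (w a)
    have h5 := hω 0
    exact mul_le_mul h1 (by linarith only [h2]) (by linarith only [h3, h4]) (by linarith only [h1, h5])
  | succ k ih =>
    simp only [mm]
    refine add_le_add (mul_le_mul_of_nonneg_right (hw _) (norm_nonneg _)) ?_
    exact Finset.sum_le_sum fun b _ => ih _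

/-- Doubling the bottom mass. -/
theorem ker_mm_two {ω : ℕ → ℝ} (hω : ∀ i, 0 ≤ ω i)
    {w : Lat d → E d} {m : Lat d → ℝ} (hm0 : ∀ a, 0 ≤ m a)
    (k : ℕ) (a : Lat d) : mm ω w (fun a => ‖w a‖ + m a) k a ≤ 2 * mm ω w m k a := by
  induction k generalizing a with
  | zero =>
    simp only [mm]
    have h3 := mul_nonneg (hω 0) (hm0 a)
    linarith only [h3]
  | succ k ih =>
    simp only [mm]
    have h1 := Finset.sum_le_sum (s := offs d) fun b _ => ih (a + (2 : ℤ) ^ k • b)
    rw [← Finset.mul_sum] at h1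
    have h2 := mul_nonneg (hω (k + 1)) (norm_nonneg (vv w (k + 1) a))
    linarith only [h1, h2]

/-- The integral over a big cube is the sum of the integrals over the cells of level `k`. -/
theorem ker_setIntegral_blkJ {F : Type*} [NormedAddCommGroup F] [NormedSpace ℝ F]
    {G : E d → F} (k j : ℕ) (m : Lat d) (hG : IntegrableOn G (cube (k + j) (co k m))) :
    ∫ x in cube (k + j) (co k m), G x = ∑ c ∈ blkJ j m, ∫ x in cube k (co k c), G x := by
  induction j generalizing m with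
  | zero => simp [blkJ_zero]
  | succ j ih =>
    rw [← add_assoc] at hG ⊢
    rw [setIntegral_cube_succ _ _ hG, sum_blkJ_succ]
    refine Finset.sum_congr rfl fun b hb => ?_
    rw [co_add]
    apply ih
    rw [← co_add]
    exact hG.mono_set (child_subset _ _ hb)

/-- The cells of level `k` of the big cube are contained in it. -/
theorem ker_cell_subset {k j : ℕ} {m c : Lat d} (hc : c ∈ blkJ j m) :
    (cube k (co k c) : Set (E d)) ⊆ cube (k + j) (co k m) := by
  intro z hz i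
  have h1 := hz i
  have h2 := mem_blkJ.1 hc i
  simp only [co] at h1 ⊢
  push_cast at h1 ⊢
  have h3 : (m i : ℝ) ≤ c i := by exact_mod_cast h2.1
  have h4 : (c i : ℝ) + 1 ≤ m i + 2 ^ j := by exact_mod_cast h2.2
  have hp : (0 : ℝ) < 2 ^ k := by positivity
  have h5 := mul_le_mul_of_nonneg_left h3 hp.le
  have h6 := mul_le_mul_of_nonneg_left h4 hp.le
  rw [pow_add]
  constructor
  · linarith only [h1.1, h5]
  · linarith only [h1.2, h6]

theorem ker_integrableOn {gb K : E d → E d} {a : Lat d} {k : ℕ}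
    (hK : AEStronglyMeasurable K volume) (hg : IntegrableOn gb (cube k a)) {A : ℝ}
    (hA : ∀ z ∈ cube k a, ‖K z‖ ≤ A) :
    IntegrableOn (fun z => inner ℝ (K z) (gb z)) (cube k a) := by
  refine Integrable.mono' (hg.norm.const_mul A)
    (hK.restrict.inner hg.aestronglyMeasurable) ?_
  rw [ae_restrict_iff' (measurableSet_cube k a)]
  refine Eventually.of_forall fun x hx => ?_
  refine (norm_inner_le_norm _ _).trans ?_
  exact mul_le_mul_of_nonneg_right (hA x hx) (norm_nonneg _)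

/-- **Multi-scale estimate, single cube.** -/
theorem ker_multi_aux {gb : E d → E d} {K : E d → E d} {ω : ℕ → ℝ} {m : Lat d → ℝ} {B : ℝ}
    (hB : 0 ≤ B) (hω0 : ∀ i, 0 ≤ ω i) (hω : ∀ i, ω (i + 1) ≤ 2 * ω i)
    (hK : AEStronglyMeasurable K volume) (k : ℕ) : ∀ (a : Lat d),
    IntegrableOn gb (cube k a) →
    (∀ c, cube 0 c ⊆ cube k a → m0f gb c ≤ m c) →
    (∀ i ≤ k, ∀ c, cube i c ⊆ cube k a → ∀ z ∈ cube i c, ∀ z' ∈ cube i c,
      ‖K z - K z'‖ ≤ B * ω i) →
    |(∫ z in cube k a, inner ℝ (K z) (gb z)) - inner ℝ (K (pt a)) (vv (v0f gb) k a)| ≤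
      2 * B * (mm ω (v0f gb) m k a - ω k * ‖vv (v0f gb) k a‖) := by
  have hint : ∀ (k : ℕ) (a : Lat d), IntegrableOn gb (cube k a) →
      (∀ i ≤ k, ∀ c, cube i c ⊆ cube k a → ∀ z ∈ cube i c, ∀ z' ∈ cube i c,
      ‖K z - K z'‖ ≤ B * ω i) →
      IntegrableOn (fun z => inner ℝ (K z) (gb z)) (cube k a) := by
    intro k a hg hosc
    refine ker_integrableOn hK hg (A := ‖K (pt a)‖ + B * ω k) fun x hx => ?_
    have h1 := hosc k le_rfl a le_rfl x hx _ (pt_mem_cube k a)
    calc ‖K x‖ = ‖K (pt a) + (K x - K (pt a))‖ := by congr 1; abel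
      _ ≤ _ := norm_add_le _ _
      _ ≤ _ := by linarith
  induction k with
  | zero =>
    intro a hg hm hosc
    have e1 : inner ℝ (K (pt a)) (vv (v0f gb) 0 a) = ∫ z in cube 0 a, inner ℝ (K (pt a)) (gb z) := by
      rw [integral_inner hg]
      rfl
    rw [e1, ← integral_sub (hint 0 a hg hosc) (hg.const_inner _)]
    have e2 : |∫ z in cube 0 a, (inner ℝ (K z) (gb z) - inner ℝ (K (pt a)) (gb z))| ≤
        ∫ z in cube 0 a, B * ω 0 * ‖gb z‖ := by
      rw [← Real.norm_eq_abs]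
      refine norm_integral_le_of_norm_le (hg.norm.const_mul _) ?_
      rw [ae_restrict_iff' (measurableSet_cube 0 a)]
      refine Eventually.of_forall fun x hx => ?_
      rw [← inner_sub_left]
      refine (norm_inner_le_norm _ _).trans ?_
      exact mul_le_mul_of_nonneg_right (hosc 0 le_rfl a le_rfl x hx _ (pt_mem_cube 0 a))
        (norm_nonneg _)
    refine e2.trans ?_
    rw [integral_const_mul]
    have h1 : ∫ z in cube 0 a, ‖gb z‖ ≤ m a := hm a le_rfl
    have h3 : 0 ≤ ∫ z in cube 0 a, ‖gb z‖ := integral_nonneg fun _ => norm_nonneg _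
    have h5 : 0 ≤ B * ω 0 := mul_nonneg hB (hω0 0)
    have h6 : vv (v0f gb) 0 a = v0f gb a := rfl
    rw [mm, h6]
    have h7 := mul_le_mul_of_nonneg_left h1 h5
    have h8 := mul_nonneg h5 (h3.trans h1)
    nlinarith only [h7, h8]
  | succ k ih =>
    intro a hg hm hosc
    have hsub : ∀ b ∈ offs d, cube k (a + (2 : ℤ) ^ k • b) ⊆ cube (k + 1) a :=
      fun b hb => child_subset k a hb
    rw [setIntegral_cube_succ k a (hint (k + 1) a hg hosc)]
    have e1 : inner ℝ (K (pt a)) (vv (v0f gb) (k + 1) a) =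
        ∑ b ∈ offs d, inner ℝ (K (pt a)) (vv (v0f gb) k (a + (2 : ℤ) ^ k • b)) := by
      rw [← inner_sum]
      rfl
    rw [e1, ← Finset.sum_sub_distrib]
    refine (Finset.abs_sum_le_sum_abs _ _).trans ?_
    have e2 : ∀ b ∈ offs d,
        |(∫ z in cube k (a + (2 : ℤ) ^ k • b), inner ℝ (K z) (gb z)) -
          inner ℝ (K (pt a)) (vv (v0f gb) k (a + (2 : ℤ) ^ k • b))| ≤
        2 * B * mm ω (v0f gb) m k (a + (2 : ℤ) ^ k • b) := by
      intro b hb
      have h1 := ih (a + (2 : ℤ) ^ k • b) (hg.mono_set (hsub b hb))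
        (fun c hc => hm c (hc.trans (hsub b hb)))
        (fun i hi c hc => hosc i (by omega) c (hc.trans (hsub b hb)))
      have h2 : |inner ℝ (K (pt (a + (2 : ℤ) ^ k • b)) - K (pt a))
          (vv (v0f gb) k (a + (2 : ℤ) ^ k • b))| ≤
          B * ω (k + 1) * ‖vv (v0f gb) k (a + (2 : ℤ) ^ k • b)‖ := by
        rw [← Real.norm_eq_abs]
        refine (norm_inner_le_norm _ _).trans ?_
        refine mul_le_mul_of_nonneg_right ?_ (norm_nonneg _)
        exact hosc (k + 1) le_rfl a le_rfl _ (hsub b hb (pt_mem_cube k _)) _ (pt_mem_cube (k + 1) a)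
      have h3 := mul_le_mul_of_nonneg_right (mul_le_mul_of_nonneg_left (hω k) hB)
        (norm_nonneg (vv (v0f gb) k (a + (2 : ℤ) ^ k • b)))
      rw [inner_sub_left] at h2
      rw [abs_le] at h1 h2 ⊢
      constructor <;> linarith only [h1.1, h2.1, h1.2, h2.2, h3]
    refine (Finset.sum_le_sum e2).trans (le_of_eq ?_)
    rw [mm, ← Finset.mul_sum]
    ring

/-- **Multi-scale estimate, single cube**, with the top term. -/
theorem ker_multi {gb : E d → E d} {K : E d → E d} {ω : ℕ → ℝ} {m : Lat d → ℝ} {B : ℝ}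
    (hB : 0 ≤ B) (hω0 : ∀ i, 0 ≤ ω i) (hω : ∀ i, ω (i + 1) ≤ 2 * ω i)
    (hK : AEStronglyMeasurable K volume) {k : ℕ} {a : Lat d}
    (hg : IntegrableOn gb (cube k a))
    (hm : ∀ c, cube 0 c ⊆ cube k a → m0f gb c ≤ m c)
    (hosc : ∀ i ≤ k, ∀ c, cube i c ⊆ cube k a → ∀ z ∈ cube i c, ∀ z' ∈ cube i c,
      ‖K z - K z'‖ ≤ B * ω i)
    (hA : ‖K (pt a)‖ ≤ 2 * B * ω k) :
    |∫ z in cube k a, inner ℝ (K z) (gb z)| ≤ 2 * B * mm ω (v0f gb) m k a := by
  have h1 := ker_multi_aux hB hω0 hω hK k a hg hm hosc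
  have h2 : |inner ℝ (K (pt a)) (vv (v0f gb) k a)| ≤ ‖K (pt a)‖ * ‖vv (v0f gb) k a‖ := by
    rw [← Real.norm_eq_abs]
    exact norm_inner_le_norm _ _
  have h3 := mul_le_mul_of_nonneg_right hA (norm_nonneg (vv (v0f gb) k a))
  rw [abs_le] at h1 h2 ⊢
  constructor <;> linarith only [h1.1, h2.1, h1.2, h2.2, h3]

/-- **Multi-scale estimate, cover version**: the kernel vanishes outside the cells of `Sh`. -/
theorem ker_cover {gb K : E d → E d} {ω : ℕ → ℝ} {m0 : Lat d → ℝ} (hgb : Integrable gb)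
    (hω0 : ∀ i, 0 ≤ ω i) (hω : ∀ i, ω (i + 1) ≤ 2 * ω i)
    (hK : AEStronglyMeasurable K volume) {M : ℝ} (hKb : ∀ z, ‖K z‖ ≤ M) {k j : ℕ} {m : Lat d}
    (hm : ∀ c, cube 0 c ⊆ cube (k + j) (co k m) → m0f gb c ≤ m0 c)
    {Sh : Finset (Lat d)} (hSh : Sh ⊆ blkJ j m)
    (hsupp : ∀ z, z ∉ cube (k + j) (co k m) → K z = 0)
    (h0 : ∀ c ∈ blkJ j m, c ∉ Sh → ∀ z ∈ cube k (co k c), K z = 0)
    (B : Lat d → ℝ) (hB : ∀ c ∈ Sh, 0 ≤ B c)
    (hosc : ∀ c ∈ Sh, ∀ i ≤ k, ∀ c', cube i c' ⊆ cube k (co k c) → ∀ z ∈ cube i c',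
      ∀ z' ∈ cube i c', ‖K z - K z'‖ ≤ B c * ω i)
    (hA : ∀ c ∈ Sh, ‖K (pt (co k c))‖ ≤ 2 * B c * ω k) :
    |∫ z, inner ℝ (K z) (gb z)| ≤ ∑ c ∈ Sh, 2 * B c * mm ω (v0f gb) m0 k (co k c) := by
  have hint : Integrable fun z => inner ℝ (K z) (gb z) := by
    refine Integrable.mono' (hgb.norm.const_mul M) (hK.inner hgb.aestronglyMeasurable) ?_
    refine Eventually.of_forall fun x => ?_
    exact (norm_inner_le_norm _ _).trans (mul_le_mul_of_nonneg_right (hKb x) (norm_nonneg _))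
  have e1 : ∫ z, inner ℝ (K z) (gb z) = ∫ z in cube (k + j) (co k m), inner ℝ (K z) (gb z) := by
    symm
    apply setIntegral_eq_integral_of_forall_compl_eq_zero
    intro z hz
    rw [hsupp z hz, inner_zero_left]
  rw [e1, ker_setIntegral_blkJ k j m hint.integrableOn, ← Finset.sum_subset hSh]
  · refine (Finset.abs_sum_le_sum_abs _ _).trans (Finset.sum_le_sum fun c hc => ?_)
    exact ker_multi (hB c hc) hω0 hω hK hgb.integrableOn
      (fun c' hc' => hm c' (hc'.trans (ker_cell_subset (hSh hc)))) (hosc c hc) (hA c hc)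
  · intro c hc hcS
    rw [setIntegral_congr_fun (g := fun _ => (0 : ℝ)) (measurableSet_cube k (co k c))]
    · simp
    · intro z hz
      simp only
      rw [h0 c hc hcS z hz, inner_zero_left]

/-! ### The weights `wt t` -/

theorem wt_succ (t i : ℕ) : wt t (i + 1) ≤ 2 * wt t i := by
  unfold wt
  rcases Nat.lt_or_ge i t with h | h
  · have h1 : t - i = (t - (i + 1)) + 1 := by omega
    rw [h1, pow_succ]
    linarith only
  · have h1 : t - (i + 1) = 0 := by omega
    have h2 : t - i = 0 := by omega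
    rw [h1, h2]
    norm_num

theorem wt_of_le {t i : ℕ} (h : t ≤ i) : wt t i = 1 := by
  unfold wt
  rw [Nat.sub_eq_zero_of_le h, pow_zero]

theorem wt_of_ge {t i : ℕ} (h : i ≤ t) : wt t i = 2 ^ i / 2 ^ t := by
  unfold wt
  rw [one_div, inv_pow, eq_div_iff (by positivity), inv_mul_eq_div, div_eq_iff (by positivity),
    ← pow_add]
  congr 1
  omega

theorem le_wt {k t i : ℕ} (hi : i ≤ k) (ht : t ≤ k) : (2 : ℝ) ^ i / 2 ^ k ≤ wt t i := by
  rcases Nat.lt_or_ge i t with h | h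
  · rw [wt_of_ge h.le]
    exact div_le_div_of_nonneg_left (by positivity) (by positivity)
      (pow_le_pow_right₀ (by norm_num) ht)
  · rw [wt_of_le h, div_le_one (by positivity)]
    exact pow_le_pow_right₀ (by norm_num) hi

theorem wt_anti {t t' : ℕ} (h : t ≤ t') (i : ℕ) : wt t' i ≤ wt t i := by
  unfold wt
  exact pow_le_pow_of_le_one (by norm_num) (by norm_num) (by omega)

/-- Integral of the bad part over the unit cubes. -/
theorem v0f_sub_gam {g : E d → E d} (hg : Integrable g) (c0 : Lat d → E d) (a : Lat d) :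
    v0f (fun z => g z - gam c0 z) a = v0f g a - c0 a := by
  have h1 : IntegrableOn (gam c0) (cube 0 a) := by
    refine (integrableOn_const (C := c0 a) (volume_cube_lt_top 0 a).ne).congr_fun
      (fun z hz => (gam_of_mem hz).symm) (measurableSet_cube 0 a)
  unfold v0f
  rw [integral_sub hg.integrableOn h1, setIntegral_gam]

theorem m0f_sub_gam_le {g : E d → E d} (hg : Integrable g) (c0 : Lat d → E d) (a : Lat d) :
    m0f (fun z => g z - gam c0 z) a ≤ ‖v0f g a - c0 a‖ + 2 * m0f g a := by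
  have h1 : IntegrableOn (gam c0) (cube 0 a) := by
    refine (integrableOn_const (C := c0 a) (volume_cube_lt_top 0 a).ne).congr_fun
      (fun z hz => (gam_of_mem hz).symm) (measurableSet_cube 0 a)
  have h2 : m0f (fun z => g z - gam c0 z) a ≤ ∫ z in cube 0 a, (‖g z‖ + ‖gam c0 z‖) := by
    unfold m0f
    refine setIntegral_mono (hg.integrableOn.sub h1).norm (hg.integrableOn.norm.add h1.norm) ?_
    intro z
    exact norm_sub_le _ _
  have h3 : ∫ z in cube 0 a, ‖gam c0 z‖ = ‖c0 a‖ := by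
    rw [setIntegral_congr_fun (measurableSet_cube 0 a) (g := fun _ => ‖c0 a‖)
      (fun z hz => by simp only [gam_of_mem hz])]
    rw [setIntegral_const, measureReal_def, volume_cube_zero]
    simp
  rw [integral_add hg.integrableOn.norm h1.norm, h3] at h2
  have h4 : ‖c0 a‖ ≤ ‖v0f g a - c0 a‖ + m0f g a := by
    have h5 := norm_v0f_le g a
    have h6 : ‖c0 a‖ ≤ ‖v0f g a‖ + ‖v0f g a - c0 a‖ := by
      have := norm_sub_le (v0f g a) (v0f g a - c0 a)
      rwa [sub_sub_cancel] at this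
    linarith only [h5, h6]
  have h7 : m0f g a = ∫ z in cube 0 a, ‖g z‖ := rfl
  rw [← h7] at h2
  linarith only [h2, h4]

/-- **BLOCK III.2**: multi-scale kernel bound. -/
theorem specKer' (d : ℕ) : ∃ C : ℝ, 0 < C ∧ ∀ (g : E d → E d), Integrable g →
  ∀ (c0 : Lat d → E d) (k : ℕ) (a : Lat d) (t : ℕ), t ≤ k → ∀ (Φ : E d → E d) (A : ℝ), 0 ≤ A →
    Measurable Φ → (∀ z ∈ cube k a, ‖Φ z‖ ≤ A) →
    (0 < t → ∀ z ∈ cube k a, ∀ z' ∈ cube k a, ‖Φ z - Φ z'‖ ≤ A * (‖z - z'‖ / 2 ^ t)) →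
    |∫ z in cube k a, inner ℝ (Φ z) (g z - gam c0 z)| ≤
      C * A * mm (wt t) (fun a => v0f g a - c0 a) (fun a => 2 * m0f g a) k a := by
  refine ⟨4 * (2 + √d), by positivity, ?_⟩
  intro g hg c0 k a t ht Φ A hA hΦm hΦA hΦL
  have hsd : 0 ≤ √(d : ℝ) := Real.sqrt_nonneg _
  have hgi : IntegrableOn (fun z => g z - gam c0 z) (cube k a) := by
    refine hg.integrableOn.sub ?_
    refine Measure.integrableOn_of_bounded (M := ∑ c ∈ blkJ k a, ‖c0 c‖)
      (volume_cube_lt_top _ _).ne (measurable_gam _).aestronglyMeasurable ?_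
    rw [ae_restrict_iff' (measurableSet_cube k a)]
    refine Eventually.of_forall fun z hz => ?_
    rw [floor_mem_blkJ] at hz
    exact Finset.single_le_sum (f := fun a => ‖c0 a‖) (fun _ _ => norm_nonneg _) hz
  have key := ker_multi (gb := fun z => g z - gam c0 z) (K := Φ) (ω := wt t)
    (m := fun c => ‖v0f g c - c0 c‖ + 2 * m0f g c) (B := A * (2 + √d)) (by positivity)
    (wt_nonneg t) (wt_succ t) hΦm.aestronglyMeasurable hgi
    (fun c _ => m0f_sub_gam_le hg c0 c) ?_ ?_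
  · have e1 : v0f (fun z => g z - gam c0 z) = fun a => v0f g a - c0 a :=
      funext fun a => v0f_sub_gam hg c0 a
    rw [e1] at key
    have h1 := ker_mm_two (ω := wt t) (wt_nonneg t) (w := fun a => v0f g a - c0 a)
      (m := fun a => 2 * m0f g a) (fun a => mul_nonneg (by norm_num) (m0f_nonneg g a)) k a
    refine key.trans ?_
    have h2 := mul_le_mul_of_nonneg_left h1 (by positivity : 0 ≤ 2 * (A * (2 + √(d : ℝ))))
    refine h2.trans (le_of_eq (by ring))
  · intro i hi c hc z hz z' hz'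
    have h1 := hΦA z (hc hz)
    have h2 := hΦA z' (hc hz')
    have h3 : ‖Φ z - Φ z'‖ ≤ 2 * A := by
      have := norm_sub_le (Φ z) (Φ z')
      linarith only [this, h1, h2]
    rcases Nat.lt_or_ge i t with h | h
    · have h4 := hΦL (by omega) z (hc hz) z' (hc hz')
      have h5 : A * (‖z - z'‖ / 2 ^ t) ≤ A * (√d * 2 ^ i / 2 ^ t) := by
        refine mul_le_mul_of_nonneg_left ?_ hA
        exact div_le_div_of_nonneg_right (norm_sub_le_of_mem_cube hz hz') (by positivity)
      rw [wt_of_ge h.le]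
      have h6 : A * (2 + √d) * (2 ^ i / 2 ^ t) = A * (√d * 2 ^ i / 2 ^ t) + 2 * A * (2 ^ i / 2 ^ t) := by
        ring
      rw [h6]
      have h7 : 0 ≤ 2 * A * ((2 : ℝ) ^ i / 2 ^ t) := by positivity
      linarith only [h4, h5, h7]
    · rw [wt_of_le h, mul_one]
      have h8 := mul_nonneg hA hsd
      linarith only [h3, h8]
  · rw [wt_of_le ht, mul_one]
    have h1 := hΦA _ (pt_mem_cube k a)
    have h8 := mul_nonneg hA hsd
    linarith only [h1, h8, hA]

theorem specKer (d : ℕ) : SpecKer d := by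
  obtain ⟨C, hC, h⟩ := specKer' d
  exact ⟨C, hC, fun g hg c0 k a t Φ A hA ht => h g hg c0 k a t ht Φ A hA⟩

end Vale.Agent.P137.U.Cen
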