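import Vale.Agent.P137.C.Pack
import Vale.Agent.P137.C.Cone

/-!
# P137, centered operator: block II
-/

open MeasureTheory Set Filter Topology

namespace Vale.Agent.P137.U.Cen

open Vale.Agent.P137 Vale.Agent.P137.U

variable {d : ℕ}

theorem lemG (d : ℕ) : Pack.LemG d := by
  refine ⟨40600, by norm_num, fun v0 K a => ?_⟩
  obtain ⟨c0, _, h2, h3, h4, h5⟩ := Cone.coneApprox v0 K a
  refine ⟨c0, h2, ?_, ?_, ?_⟩
  · intro b _
    have h := h3 0 b
    have h' : 97 / 100 * ‖c0 b‖ * ‖vv v0 K a‖ ≤ inner ℝ (vv v0 K a) (c0 b) := h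
    linarith
  · intro h0 b _
    rw [h4 h0]
    rfl
  · intro k hk
    have h : Pack.nv (fun b => v0 b - c0 b) K a k ≤
        40600 * ∑ l ∈ Finset.Ico k K, (Pack.nv v0 K a l - ‖vv v0 K a‖) := h5 k hk
    have h6 : ∑ l ∈ Finset.Icc k K, (Pack.nv v0 K a l - Pack.nv v0 K a K) =
        ∑ l ∈ Finset.Ico k K, (Pack.nv v0 K a l - ‖vv v0 K a‖) := by
      rw [← Finset.Ico_succ_right_eq_Icc, Order.succ_eq_add_one, Finset.sum_Ico_succ_top hk,
        sub_self, add_zero]
      exact Finset.sum_congr rfl fun l _ => by rw [Pack.nv_self]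
    rw [h6]
    exact h

/-- BLOCK II. -/
theorem specII (d : ℕ) : SpecII d := Pack.specII_of_lemG (lemG d)

end Vale.Agent.P137.U.Cen
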