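import Vale.Agent.P137.C.Basic
import Vale.Agent.P137.C.Meas.MajB

/-!
# P137, block V.1: `SpecMajB`, `SpecMajB'`
-/

open MeasureTheory Set Filter Topology
open scoped ENNReal NNReal

namespace Vale.Agent.P137.U.Cen

open Vale.Agent.P137 Vale.Agent.P137.U

variable {d : ℕ}

namespace Blk

variable (B : Blk d)

/-- centre of the region -/
noncomputable def majP : E d := pt (co B.j B.n)

/-- radius of the region -/
noncomputable def majR : ℝ := √d * (32 * B.s)

theorem majR_pos (hd : 0 < d) : 0 < B.majR := by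
  unfold majR
  have := B.s_pos
  have : (0 : ℝ) < √d := Real.sqrt_pos.2 (by exact_mod_cast hd)
  positivity

theorem near_mem {x : E d} (hx : B.near x) : x ∈ Metric.closedBall B.majP B.majR := by
  rw [Metric.mem_closedBall, dist_eq_norm]
  have hs := B.s_pos
  apply norm_le_of_abs_apply_le (by positivity)
  intro i
  have h := hx i
  have h1 : (x - B.majP) i = x i - 2 ^ B.j * B.n i := by
    simp only [majP, PiLp.sub_apply, pt_apply, co]
    push_cast
    rfl
  rw [h1]
  refine h.trans ?_
  unfold s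
  have : (0 : ℝ) < 2 ^ B.j := by positivity
  linarith

theorem pos_mem {m : ℕ} {c : Lat d} (hc : c ∈ B.cells m) : ‖B.pos m c - B.majP‖ ≤ B.majR := by
  have hs := B.s_pos
  apply norm_le_of_abs_apply_le (by positivity)
  intro i
  unfold cells at hc
  rw [mem_blkJ] at hc
  have h := hc i
  have hl := B.lv_le m
  have h1 : (B.pos m c - B.majP) i = (2 : ℝ) ^ B.lv m * c i - 2 ^ B.j * B.n i := by
    simp only [pos, majP, PiLp.sub_apply, pt_apply, co]
    push_cast
    rfl
  have h2 : (2 : ℝ) ^ B.j = 2 ^ B.lv m * 2 ^ (B.j - B.lv m) := by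
    rw [← pow_add]
    congr 1
    omega
  have h3 : (2 : ℝ) ^ (B.j + 6 - B.lv m) = 64 * 2 ^ (B.j - B.lv m) := by
    have : B.j + 6 - B.lv m = (B.j - B.lv m) + 6 := by omega
    rw [this, pow_add]
    ring
  have h4 : (2 : ℝ) ^ (B.j - B.lv m) * ((B.n i : ℝ) - 32) ≤ c i := by exact_mod_cast h.1
  have h5 : (c i : ℝ) < 2 ^ (B.j - B.lv m) * ((B.n i : ℝ) - 32) + 2 ^ (B.j + 6 - B.lv m) := by
    exact_mod_cast h.2
  rw [h3] at h5
  rw [h1]
  unfold s
  rw [h2]
  have hp : (0 : ℝ) < 2 ^ B.lv m := by positivity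
  rw [abs_le]
  constructor
  · nlinarith
  · nlinarith

theorem s_pow_majR (_hd : 0 < d) : B.majR ^ d = (√d * 32) ^ d * B.s ^ d := by
  unfold majR
  rw [← mul_pow]
  ring

end Blk

/-- BLOCK V.1 -/
theorem specMajB (hd : 0 < d) : SpecMajB d := by
  obtain ⟨C, hC, h⟩ := C.Meas.majB d
  have hsd : (0 : ℝ) < √d := Real.sqrt_pos.2 (by exact_mod_cast hd)
  refine ⟨0, fun s0 _ => ⟨C * (√d * 32) ^ d * √(16 * (2 + √d)), by positivity, ?_⟩⟩
  intro B e hs0 hOK m hm hv
  have hs := B.s_pos
  have hH := B.H_pos m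
  have hrho := B.rho_pos m
  obtain ⟨maj, hmm, hint, hmaj⟩ := h (B.cells m) (B.pos m) (B.MM m) B.majP B.majR
    ((2 + √d) * B.H m) (B.rho m * B.s / 16) (B.rho m) (B.majR_pos hd) (by positivity)
    (by positivity) hrho (fun _ _ => B.MM_nonneg _ _) (fun c hc => B.pos_mem hc)
  refine ⟨(Metric.closedBall B.majP B.majR).indicator maj,
    hmm.indicator Metric.isClosed_closedBall.measurableSet, ?_, ?_⟩
  · rw [lintegral_indicator Metric.isClosed_closedBall.measurableSet]
    refine hint.trans (ENNReal.ofReal_le_ofReal ?_)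
    have h1 : √((2 + √d) * B.H m / (B.rho m * (B.rho m * B.s / 16))) ≤
        √(16 * (2 + √d)) * B.rho m := by
      have h2 : (2 + √d) * B.H m / (B.rho m * (B.rho m * B.s / 16)) =
          (16 * (2 + √d)) * (B.rho m ^ 7) ^ 2 := by
        rw [B.H_eq hv]
        field_simp
      rw [h2, Real.sqrt_mul (by positivity), Real.sqrt_sq (by positivity)]
      have h3 : B.rho m ^ 7 ≤ B.rho m := by
        calc B.rho m ^ 7 ≤ B.rho m ^ 1 :=
              pow_le_pow_of_le_one hrho.le (B.rho_le_one m) (by norm_num)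
          _ = B.rho m := pow_one _
      gcongr
    rw [B.s_pow_majR hd]
    calc C * ((√d * 32) ^ d * B.s ^ d) * √((2 + √d) * B.H m / (B.rho m * (B.rho m * B.s / 16))) *
          ∑ i ∈ B.cells m, B.MM m i
        ≤ C * ((√d * 32) ^ d * B.s ^ d) * (√(16 * (2 + √d)) * B.rho m) * B.tot m := by
          gcongr
          · exact Finset.sum_nonneg fun _ _ => B.MM_nonneg _ _
          · exact B.sum_MM_le_tot m
      _ = _ := by ring
  · rintro x r v hx hr ⟨hvb, hnb⟩
    rw [indicator_of_mem (B.near_mem hx)]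
    refine (ENNReal.ofReal_le_ofReal hvb).trans ?_
    unfold Blk.b
    apply hmaj x (B.near_mem hx) r (B.Sh m x r) (Finset.filter_subset _ _)
    · intro c hc
      have := (Finset.mem_filter.1 hc).2
      rw [norm_sub_rev]
      exact this
    · intro c hc
      by_contra hcon
      push Not at hcon
      apply hnb
      refine ⟨c, hc, ?_⟩
      rw [Finset.sum_filter]
      exact hcon.le

/-- BLOCK V.1' -/
theorem specMajB' (hd : 0 < d) : SpecMajB' d := by
  obtain ⟨C, hC, h⟩ := C.Meas.majB' d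
  have hsd : (0 : ℝ) < √d := Real.sqrt_pos.2 (by exact_mod_cast hd)
  refine ⟨1, fun s0 hs0' => ⟨C * (√d * 32) ^ d * √(4 * (2 + √d)), by positivity, ?_⟩⟩
  intro B e hs0 hOK m hm hv'
  have hv : B.valid m := B.valid_anti (Nat.le_succ m) hv'
  have hs := B.s_pos
  have hH := B.H_pos m
  have hH' := B.H_pos (m + 1)
  have hHH := B.H_anti (Nat.le_succ m)
  have hrho := B.rho_pos m
  have hrho' := B.rho_pos (m + 1)
  have hrr := B.rho_anti (Nat.le_succ m)
  have hhalf : ∀ i, B.rho i ≤ 1 / 2 := by
    intro i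
    calc B.rho i ≤ (1 / 2) ^ B.s0 := B.rho_le i
      _ ≤ (1 / 2) ^ 1 := pow_le_pow_of_le_one (by norm_num) (by norm_num) (by rw [hs0]; exact hs0')
      _ = 1 / 2 := by norm_num
  obtain ⟨maj, hmm, hint, hmaj⟩ := h (B.cells m) (B.cells (m + 1)) (B.pos m) (B.pos (m + 1))
    (B.MM m) (B.MM (m + 1)) B.majP B.majR
    ((2 + √d) * B.H m) (B.rho m * B.s / 4) (B.majR_pos hd) (by positivity)
    (by positivity) (fun _ _ => B.MM_nonneg _ _) (fun _ _ => B.MM_nonneg _ _)
    (fun c hc => B.pos_mem hc) (fun c hc => B.pos_mem hc)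
  refine ⟨(Metric.closedBall B.majP B.majR).indicator maj,
    hmm.indicator Metric.isClosed_closedBall.measurableSet, ?_, ?_⟩
  · rw [lintegral_indicator Metric.isClosed_closedBall.measurableSet]
    refine hint.trans (ENNReal.ofReal_le_ofReal ?_)
    have h1 : √((2 + √d) * B.H m / (B.rho m * B.s / 4)) ≤
        √(4 * (2 + √d)) * B.rho (m + 1) := by
      have h2 : (2 + √d) * B.H m / (B.rho m * B.s / 4) ≤
          (4 * (2 + √d)) * (B.rho (m + 1)) ^ 2 := by
        rw [B.H_eq hv, B.rho_succ]
        have h3 : B.rho m ^ 15 ≤ (B.rho m ^ 2) ^ 2 := by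
          rw [← pow_mul]
          exact pow_le_pow_of_le_one hrho.le (B.rho_le_one m) (by norm_num)
        have h4 : (2 + √d) * (B.s * B.rho m ^ 16) / (B.rho m * B.s / 4) =
            (4 * (2 + √d)) * B.rho m ^ 15 := by
          field_simp
        rw [h4]
        gcongr
      calc √((2 + √d) * B.H m / (B.rho m * B.s / 4)) ≤
            √((4 * (2 + √d)) * (B.rho (m + 1)) ^ 2) := Real.sqrt_le_sqrt h2
        _ = _ := by rw [Real.sqrt_mul (by positivity), Real.sqrt_sq (by positivity)]
    rw [B.s_pow_majR hd]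
    have hT := B.tot_nonneg m
    have hT' := B.tot_nonneg (m + 1)
    calc C * ((√d * 32) ^ d * B.s ^ d) * √((2 + √d) * B.H m / (B.rho m * B.s / 4)) *
          (∑ i ∈ B.cells m, B.MM m i + ∑ i ∈ B.cells (m + 1), B.MM (m + 1) i)
        ≤ C * ((√d * 32) ^ d * B.s ^ d) * (√(4 * (2 + √d)) * B.rho (m + 1)) *
          (B.tot m + B.tot (m + 1)) := by
          gcongr
          · exact add_nonneg (Finset.sum_nonneg fun _ _ => B.MM_nonneg _ _)
              (Finset.sum_nonneg fun _ _ => B.MM_nonneg _ _)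
          · exact B.sum_MM_le_tot m
          · exact B.sum_MM_le_tot (m + 1)
      _ = C * (√d * 32) ^ d * √(4 * (2 + √d)) * B.s ^ d *
          (B.rho (m + 1) * B.tot m + B.rho (m + 1) * B.tot (m + 1)) := by ring
      _ ≤ C * (√d * 32) ^ d * √(4 * (2 + √d)) * B.s ^ d *
          (B.rho m * B.tot m + B.rho (m + 1) * B.tot (m + 1)) := by gcongr
      _ = _ := by ring
  · rintro x r v hx hr ⟨hvb, hvb', c, c', hB, hB', hfar⟩
    rw [indicator_of_mem (B.near_mem hx)]
    refine (ENNReal.ofReal_le_ofReal (le_min hvb hvb')).trans ?_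
    have hb0 := B.b_nonneg m x r
    have hb0' := B.b_nonneg (m + 1) x r
    unfold Blk.b
    apply hmaj x (B.near_mem hx) r (B.Sh m x r) (Finset.filter_subset _ _)
      (B.Sh (m + 1) x r) (Finset.filter_subset _ _) _ _ (B.pos m c) (B.pos (m + 1) c') hfar
    · have h1 := hB.2
      rw [Finset.sum_filter] at h1
      calc ∑ i ∈ B.Sh m x r,
            (if B.rho m * B.s / 4 / 4 < ‖B.pos m i - B.pos m c‖ then B.MM m i else 0)
          = ∑ i ∈ B.Sh m x r,
            (if B.rho m * B.s / 16 < ‖B.pos m i - B.pos m c‖ then B.MM m i else 0) := by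
            have : B.rho m * B.s / 4 / 4 = B.rho m * B.s / 16 := by ring
            rw [this]
        _ ≤ B.rho m * B.b m x r := h1
        _ ≤ 1 / 2 * B.b m x r := by
            gcongr
            exact hhalf m
    · have h1 := hB'.2
      rw [Finset.sum_filter] at h1
      calc ∑ i ∈ B.Sh (m + 1) x r,
            (if B.rho m * B.s / 4 / 4 < ‖B.pos (m + 1) i - B.pos (m + 1) c'‖
              then B.MM (m + 1) i else 0)
          ≤ ∑ i ∈ B.Sh (m + 1) x r,
            (if B.rho (m + 1) * B.s / 16 < ‖B.pos (m + 1) i - B.pos (m + 1) c'‖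
              then B.MM (m + 1) i else 0) := by
            apply Finset.sum_le_sum
            intro i _
            have h5 : B.rho (m + 1) * B.s / 16 ≤ B.rho m * B.s / 4 / 4 := by
              have : B.rho m * B.s / 4 / 4 = B.rho m * B.s / 16 := by ring
              rw [this]
              gcongr
            have h6 := B.MM_nonneg (m + 1) i
            split_ifs with h7 h8 h8
            · exact le_rfl
            · exact absurd (lt_of_le_of_lt h5 h7) h8
            · exact h6
            · exact le_rfl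
        _ ≤ B.rho (m + 1) * B.b (m + 1) x r := h1
        _ ≤ 1 / 2 * B.b (m + 1) x r := by
            gcongr
            exact hhalf (m + 1)
    · intro c hc
      have := (Finset.mem_filter.1 hc).2
      rw [norm_sub_rev]
      exact this
    · intro c hc
      have := (Finset.mem_filter.1 hc).2
      rw [norm_sub_rev]
      refine this.trans ?_
      gcongr

end Vale.Agent.P137.U.Cen
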