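import Vale.Agent.P137.C.Meas.MajBase

/-!
# P137, centered operator, block V.3: majorant for the condition `C_m`
-/

open MeasureTheory Set Filter Topology
open scoped ENNReal NNReal

namespace Vale.Agent.P137.U.Cen.Mj

open Vale.Agent.P137 Vale.Agent.P137.U Vale.Agent.P137.U.Cen
open Vale.Agent.P137.C.Meas (vB vB_pos vB_nonneg dil_measure volume_closedBall_eq)

variable {d : ℕ}

theorem kap_pos' : 0 < kap d := by unfold kap; positivity

/-- The part of the ball of centre `x` through `p` which is far from `p`. -/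
def lens (p : E d) (a : ℝ) (x : E d) : Set (E d) :=
  {z | ‖z - p‖ ^ 2 ≤ 2 * inner ℝ (z - p) (x - p) ∧ a < ‖z - p‖}

theorem measurableSet_lens (p : E d) (a : ℝ) (x : E d) : MeasurableSet (lens p a x) := by
  have h1 : Measurable fun z : E d => ‖z - p‖ ^ 2 := by fun_prop
  have h2 : Measurable fun z : E d => 2 * inner ℝ (z - p) (x - p) := by
    have : Continuous fun z : E d => 2 * inner ℝ (z - p) (x - p) := by fun_prop
    exact this.measurable
  have h3 : Measurable fun z : E d => ‖z - p‖ := by fun_prop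
  exact (measurableSet_le h1 h2).inter (measurableSet_lt measurable_const h3)

/-- Mass of the lens. -/
noncomputable def Phi (B : Blk d) (p : E d) (a : ℝ) (x : E d) : ℝ := B.mass (lens p a x)

theorem Phi_nonneg (B : Blk d) (p : E d) (a : ℝ) (x : E d) : 0 ≤ Phi B p a x := mass_nonneg _ _

theorem measurable_Phi (B : Blk d) (p : E d) (a : ℝ) : Measurable (Phi B p a) := by
  have h1 : MeasurableSet {q : E d × E d | ‖q.2 - p‖ ^ 2 ≤ 2 * inner ℝ (q.2 - p) (q.1 - p) ∧
      a < ‖q.2 - p‖} := by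
    have g1 : Measurable fun q : E d × E d => ‖q.2 - p‖ ^ 2 := by fun_prop
    have g2 : Measurable fun q : E d × E d => 2 * inner ℝ (q.2 - p) (q.1 - p) := by
      have : Continuous fun q : E d × E d => 2 * inner ℝ (q.2 - p) (q.1 - p) := by fun_prop
      exact this.measurable
    have g3 : Measurable fun q : E d × E d => ‖q.2 - p‖ := by fun_prop
    exact (measurableSet_le g1 g2).inter (measurableSet_lt measurable_const g3)
  have h2 : Measurable (fun q : E d × E d => ‖gam B.c0 q.2‖) :=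
    ((measurable_gam B.c0).comp measurable_snd).norm
  have h3 := (h2.indicator h1).stronglyMeasurable
  have h4 := h3.integral_prod_right' (ν := (volume : Measure (E d)))
  have h5 : Phi B p a = fun x => ∫ z, {q : E d × E d | ‖q.2 - p‖ ^ 2 ≤
      2 * inner ℝ (q.2 - p) (q.1 - p) ∧ a < ‖q.2 - p‖}.indicator (fun q => ‖gam B.c0 q.2‖) (x, z) := by
    funext x
    rw [Phi, mass_eq (measurableSet_lens p a x)]
    rfl
  rw [h5]
  exact h4.measurable

theorem lens_mono {p : E d} {a : ℝ} (ha : 0 ≤ a) (v : E d) {s t : ℝ} (hs : 0 ≤ s) (hst : s ≤ t) :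
    lens p a (p + s • v) ⊆ lens p a (p + t • v) := by
  rintro z ⟨h1, h2⟩
  refine ⟨?_, h2⟩
  rw [add_sub_cancel_left, inner_smul_right] at h1 ⊢
  have h3 : 0 < ‖z - p‖ := lt_of_le_of_lt ha h2
  have h4 : 0 < s * inner ℝ (z - p) v := by
    have : 0 < ‖z - p‖ ^ 2 := by positivity
    linarith
  have h5 : 0 < inner ℝ (z - p) v := by
    rcases lt_or_ge 0 (inner ℝ (z - p) v) with h | h
    · exact h
    · exact absurd h4 (not_lt.2 (mul_nonpos_of_nonneg_of_nonpos hs h))
  have h6 : s * inner ℝ (z - p) v ≤ t * inner ℝ (z - p) v := by gcongr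
  linarith

theorem norm_sub_sq_eq (z x p : E d) :
    ‖z - x‖ ^ 2 = ‖z - p‖ ^ 2 - 2 * inner ℝ (z - p) (x - p) + ‖x - p‖ ^ 2 := by
  have : z - x = (z - p) - (x - p) := by abel
  rw [this, norm_sub_sq_real]

/-- The shell, away from `p`, is contained in the difference of two lenses. -/
theorem shell_sub {x p : E d} {r h a s θ : ℝ} (ha : 0 < a) (hh : 0 < h) (hs : 3 * h ≤ s)
    (hr : r ≤ 2 * s) (hx : |‖x - p‖ - r| ≤ h) (h30 : 30 * (h * s) ≤ a ^ 2)
    (hθ : θ * a ^ 2 = 40 * (h * s)) (hθ0 : 0 < θ) {z : E d} (hz : |‖z - x‖ - r| ≤ 2 * h)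
    (hza : a < ‖z - p‖) :
    z ∈ lens p a (p + (1 + θ) • (x - p)) ∧ z ∉ lens p a (p + (1 - θ) • (x - p)) := by
  have hx' := abs_le.1 hx
  have hz' := abs_le.1 hz
  have e1 := norm_sub_sq_eq z x p
  set I := inner ℝ (z - p) (x - p) with hI
  have hs0 : 0 < s := by linarith
  have hy0 : 0 ≤ ‖x - p‖ := norm_nonneg _
  have hzx : 0 ≤ ‖z - x‖ := norm_nonneg _
  have hr0 : 0 ≤ r + 2 * h := by linarith
  -- difference of squares
  have e2 : |‖z - x‖ ^ 2 - ‖x - p‖ ^ 2| ≤ 15 * (h * s) := by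
    have f1 : ‖z - x‖ ^ 2 - ‖x - p‖ ^ 2 = (‖z - x‖ - ‖x - p‖) * (‖z - x‖ + ‖x - p‖) := by ring
    rw [f1, abs_mul]
    have f2 : |‖z - x‖ - ‖x - p‖| ≤ 3 * h := by
      rw [abs_le]; constructor <;> linarith
    have f3 : |‖z - x‖ + ‖x - p‖| ≤ 5 * s := by
      rw [abs_of_nonneg (by positivity)]; linarith
    calc |‖z - x‖ - ‖x - p‖| * |‖z - x‖ + ‖x - p‖| ≤ (3 * h) * (5 * s) := by gcongr
      _ = 15 * (h * s) := by ring
  have e3 := abs_le.1 e2
  have hsq : a ^ 2 < ‖z - p‖ ^ 2 := by gcongr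
  have hhs : 0 < h * s := by positivity
  have e4 : ‖z - p‖ ^ 2 / 2 ≤ 2 * I := by linarith
  have e5 : 20 * (h * s) < θ * (2 * I) := by
    calc 20 * (h * s) = θ * (a ^ 2 / 2) := by linarith
      _ < θ * (‖z - p‖ ^ 2 / 2) := by gcongr
      _ ≤ θ * (2 * I) := by gcongr
  constructor
  · refine ⟨?_, hza⟩
    rw [add_sub_cancel_left, inner_smul_right, ← hI]
    linarith
  · rintro ⟨h1, -⟩
    rw [add_sub_cancel_left, inner_smul_right, ← hI] at h1
    linarith

/-- The small lens is contained in a smaller ball. -/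
theorem lens_sub_ball {x p : E d} {r h a s θ : ℝ} (ha : 0 < a) (hh : 0 < h)
    (hs : 0 < s) (hr : r ≤ 2 * s) (hr2 : 2 * h ≤ r) (hx : |‖x - p‖ - r| ≤ h)
    (hθ : θ * a ^ 2 = 40 * (h * s)) (hθ0 : 0 < θ) (hθ1 : θ ≤ 1 / 2) :
    lens p a (p + (1 - θ) • (x - p)) ⊆ Metric.closedBall x (r - 2 * h) := by
  rintro z ⟨h1, h2⟩
  have hx' := abs_le.1 hx
  rw [add_sub_cancel_left, inner_smul_right] at h1
  have e1 := norm_sub_sq_eq z x p
  set I := inner ℝ (z - p) (x - p) with hI
  have hsq : a ^ 2 < ‖z - p‖ ^ 2 := by gcongr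
  have ha2 : 0 < a ^ 2 := by positivity
  have hI0 : 0 < I := by
    by_contra hcon
    push Not at hcon
    have : 2 * ((1 - θ) * I) ≤ 0 := by
      have : (1 - θ) * I ≤ 0 := mul_nonpos_of_nonneg_of_nonpos (by linarith) hcon
      linarith
    linarith
  have e2 : a ^ 2 < 2 * I := by
    have : (1 - θ) * I ≤ 1 * I := by gcongr; linarith
    linarith
  have e3 : θ * a ^ 2 ≤ θ * (2 * I) := by gcongr
  have e4 : ‖x - p‖ ^ 2 ≤ (r + h) ^ 2 := by
    have : ‖x - p‖ ≤ r + h := by linarith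
    gcongr
  have e5 : ‖z - x‖ ^ 2 ≤ (r - 2 * h) ^ 2 := by
    have f1 : h * r ≤ h * (2 * s) := by gcongr
    nlinarith [mul_pos hh hs, mul_pos hh hh]
  rw [Metric.mem_closedBall, dist_eq_norm]
  exact (sq_le_sq₀ (norm_nonneg _) (by linarith)).1 e5

/-- The bounded function of the dilation argument. -/
noncomputable def FF (B : Blk d) (p : E d) (a m0 L : ℝ) (x : E d) : ℝ :=
  min L (Real.log (1 + Phi B p a x / m0))

/-- The set where `FF` increases by at least `c` between two dilates. -/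
def setC (B : Blk d) (p : E d) (a m0 L θ c K : ℝ) : Set (E d) :=
  {x | ‖x - p‖ ≤ K ∧
    FF B p a m0 L (p + (1 - θ) • (x - p)) + c ≤ FF B p a m0 L (p + (1 + θ) • (x - p))}

theorem measurable_FF (B : Blk d) (p : E d) (a m0 L : ℝ) : Measurable (FF B p a m0 L) := by
  have h1 := measurable_Phi B p a
  exact measurable_const.min ((measurable_const.add (h1.div_const m0)).log)

theorem measurableSet_setC (B : Blk d) (p : E d) (a m0 L θ c K : ℝ) :
    MeasurableSet (setC B p a m0 L θ c K) := by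
  have h1 := measurable_FF B p a m0 L
  have g1 : Measurable fun x : E d => p + (1 - θ) • (x - p) := by fun_prop
  have g2 : Measurable fun x : E d => p + (1 + θ) • (x - p) := by fun_prop
  have g3 : Measurable fun x : E d => ‖x - p‖ := by fun_prop
  exact (measurableSet_le g3 measurable_const).inter
    (measurableSet_le ((h1.comp g1).add_const c) (h1.comp g2))

theorem volume_setC_le {B : Blk d} {e : E d} (hOK : B.OK e) (p : E d) {a m0 L θ c K : ℝ}
    (ha : 0 ≤ a) (hm0 : 0 < m0) (hL : 0 ≤ L) (hθ : 0 ≤ θ) (hθ1 : θ ≤ 1 / 2) (hc : 0 < c)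
    (hK : 0 ≤ K) :
    volume (setC B p a m0 L θ c K) ≤ ENNReal.ofReal (d * 2 ^ d * vB d * (L / c) * θ * K ^ d) := by
  refine dil_measure (F := FF B p a m0 L) p hK hθ hθ1 hc (measurable_FF B p a m0 L) ?_ ?_ ?_ _
    ?_ ?_
  · intro x
    apply le_min hL
    apply Real.log_nonneg
    have := Phi_nonneg B p a x
    have : 0 ≤ Phi B p a x / m0 := by positivity
    linarith
  · intro x
    exact min_le_left _ _
  · intro v s t hs hst
    have h1 : Phi B p a (p + s • v) ≤ Phi B p a (p + t • v) :=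
      mass_mono hOK (lens_mono ha v hs hst)
    have h0 := Phi_nonneg B p a (p + s • v)
    unfold FF
    apply min_le_min_left
    apply Real.log_le_log
    · have : 0 ≤ Phi B p a (p + s • v) / m0 := by positivity
      linarith
    · gcongr
  · intro x hx
    rw [Metric.mem_closedBall, dist_eq_norm]
    exact hx.1
  · intro x hx
    exact hx.2

/-- `log (1 + t) ≥ t / 2` for `0 ≤ t ≤ 1`. -/
theorem half_le_log {t : ℝ} (h0 : 0 ≤ t) (h1 : t ≤ 1) : t / 2 ≤ Real.log (1 + t) := by
  have h2 := Real.one_sub_inv_le_log_of_pos (by linarith : 0 < 1 + t)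
  have h3 : t / 2 ≤ 1 - (1 + t)⁻¹ := by
    have h4 : 1 - (1 + t)⁻¹ = t / (1 + t) := by field_simp; ring
    rw [h4]
    gcongr
    linarith
  linarith

/-- The logarithmic increment. -/
theorem log_step {u w bb m0 c1 ρ L : ℝ} (hm0 : 0 < m0) (hb : m0 ≤ bb) (hu : 0 ≤ u)
    (hub : u ≤ (c1 - 1) * bb) (hw : u + ρ * bb ≤ w) (hρ : 0 ≤ ρ) (hρc : ρ ≤ c1) (hc1 : 1 ≤ c1)
    (hL : Real.log (c1 * bb / m0) + ρ / c1 / 2 ≤ L) :
    min L (Real.log (1 + u / m0)) + ρ / c1 / 2 ≤ min L (Real.log (1 + w / m0)) := by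
  have hbb : 0 < bb := by linarith
  have hc0 : 0 < c1 := by linarith
  have h1 : 1 + u / m0 ≤ c1 * bb / m0 := by
    rw [le_div_iff₀ hm0, add_mul, div_mul_cancel₀ _ hm0.ne']
    linarith
  have hu0 : 0 ≤ u / m0 := by positivity
  have h2 : Real.log (1 + u / m0) ≤ Real.log (c1 * bb / m0) :=
    Real.log_le_log (by linarith) h1
  have h3 : (1 + u / m0) * (1 + ρ / c1) ≤ 1 + w / m0 := by
    have h4 : (1 + u / m0) * (ρ / c1) ≤ ρ * bb / m0 := by
      calc (1 + u / m0) * (ρ / c1) ≤ (c1 * bb / m0) * (ρ / c1) := by gcongr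
        _ = ρ * bb / m0 := by field_simp
    have h5 : (u + ρ * bb) / m0 ≤ w / m0 := by gcongr
    have h6 : (u + ρ * bb) / m0 = u / m0 + ρ * bb / m0 := by rw [add_div]
    have h7 : (1 + u / m0) * (1 + ρ / c1) = 1 + u / m0 + (1 + u / m0) * (ρ / c1) := by ring
    linarith
  have hq0 : 0 ≤ ρ / c1 := by positivity
  have hq1 : ρ / c1 ≤ 1 := by rw [div_le_one hc0]; exact hρc
  have h8 : Real.log (1 + u / m0) + Real.log (1 + ρ / c1) ≤ Real.log (1 + w / m0) := by
    rw [← Real.log_mul (by positivity) (by positivity)]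
    exact Real.log_le_log (by positivity) h3
  have h9 := half_le_log hq0 hq1
  apply le_min
  · have := min_le_right L (Real.log (1 + u / m0))
    linarith
  · have := min_le_right L (Real.log (1 + u / m0))
    linarith

/-- The cells of small mass contribute little. -/
theorem small_cells (B : Blk d) {m : ℕ} (hv : B.valid m) {T : Finset (Lat d)}
    (hT : T ⊆ B.cells m)
    (h : ∀ c ∈ T, B.MM m c < B.rho m ^ (16 * (d + 1)) * B.tot m) :
    ∑ c ∈ T, B.MM m c ≤ 64 ^ d * B.rho m * B.tot m := by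
  have hρ0 := rho_pos B m
  have hρ1 := rho_le_one B m
  have ht := tot_nonneg B m
  have hs := s_pos B
  calc ∑ c ∈ T, B.MM m c ≤ ∑ _c ∈ T, B.rho m ^ (16 * (d + 1)) * B.tot m :=
        Finset.sum_le_sum fun c hc => (h c hc).le
    _ = T.card * (B.rho m ^ (16 * (d + 1)) * B.tot m) := by rw [Finset.sum_const, nsmul_eq_mul]
    _ ≤ (B.cells m).card * (B.rho m ^ (16 * (d + 1)) * B.tot m) := by
        gcongr
    _ = 64 ^ d * B.rho m ^ 16 * B.tot m := by
        rw [card_cells, H_eq hv]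
        have h1 : 64 * B.s / (B.s * B.rho m ^ 16) = 64 / B.rho m ^ 16 := by
          field_simp
        rw [h1, div_pow, mul_add, pow_add, mul_one, pow_mul]
        field_simp
    _ ≤ 64 ^ d * B.rho m * B.tot m := by
        have : B.rho m ^ 16 ≤ B.rho m := by
          calc B.rho m ^ 16 ≤ B.rho m ^ 1 := pow_le_pow_of_le_one hρ0.le hρ1 (by norm_num)
            _ = B.rho m := pow_one _
        gcongr

/-- BLOCK V.3 -/
theorem specMajC (hd : 0 < d) : SpecMajC d := by
  have hκ := kap_pos' (d := d)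
  have hvB := vB_pos (d := d)
  have hd0 : 0 ≤ √(d : ℝ) := Real.sqrt_nonneg _
  obtain ⟨S0, hS0⟩ := exists_S0 (d := d)
    (ε := min (1 / 20480) (min (kap d / 4) (1 / (2 + √d)))) (by positivity)
  refine ⟨S0, fun s0 hs0 η hη => ?_⟩
  set CL : ℝ := (1 + 1 / η) + 16 * (d + 1) + 1 with hCL
  have hCL0 : 0 < CL := by positivity
  set κ0 : ℝ := d * 2 ^ d * vB d * (2 * CL * (1 + 1 / η)) * 10240 * 3 ^ d with hκ0
  have hκ00 : 0 ≤ κ0 := by positivity
  refine ⟨2 * κ0 + (√d * 2) ^ d * vB d * (4 * 64 ^ d) + 1, by positivity, ?_⟩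
  intro B e hB hOK m hm hv
  have hρε := hS0 B (by rw [hB]; exact hs0) m hm
  set ρ := B.rho m with hρdef
  have hρ0 : 0 < ρ := rho_pos B m
  have hρ1 : ρ ≤ 1 := rho_le_one B m
  have hs := s_pos B
  have hHeq : B.H (m - 1) = B.s * ρ ^ 8 := H_pred hm hv
  have hHm : B.H m = B.s * ρ ^ 16 := H_eq hv
  have hρa : ρ ≤ 1 / 20480 := hρε.trans (min_le_left _ _)
  have hρb : ρ ≤ kap d / 4 := hρε.trans ((min_le_right _ _).trans (min_le_left _ _))
  have hρc : ρ ≤ 1 / (2 + √d) := hρε.trans ((min_le_right _ _).trans (min_le_right _ _))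
  have hpow : ∀ k : ℕ, 1 ≤ k → ρ ^ k ≤ ρ := by
    intro k hk
    calc ρ ^ k ≤ ρ ^ 1 := pow_le_pow_of_le_one hρ0.le hρ1 hk
      _ = ρ := pow_one _
  rcases (tot_nonneg B m).eq_or_lt with ht | ht
  · -- the total mass vanishes
    refine maj_mono (maj_const B (le_refl 0)) ?_ ?_
    · rw [← ht]
      simp
    · intro x r v _ _ hP
      have := b_le_tot B m x r
      linarith [hP.1]
  set h := B.H (m - 1) with hh
  have hh0 : 0 < h := H_pos B _
  set a : ℝ := ρ * B.s / 16 with ha
  have ha0 : 0 < a := by positivity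
  set θ : ℝ := 10240 * ρ ^ 6 with hθ
  have hθ0 : 0 < θ := by positivity
  have hθ1 : θ ≤ 1 / 2 := by
    rw [hθ]
    have := hpow 6 (by norm_num)
    linarith
  have hθa : θ * a ^ 2 = 40 * (h * B.s) := by
    rw [hθ, ha, hHeq]
    ring
  have h30 : 30 * (h * B.s) ≤ a ^ 2 := by
    rw [ha, hHeq]
    have h1 := hpow 6 (by norm_num)
    have h2 : 7680 * ρ ^ 6 ≤ 1 := by linarith
    calc 30 * (B.s * ρ ^ 8 * B.s) = (7680 * ρ ^ 6) * (ρ * B.s / 16) ^ 2 := by ring
      _ ≤ 1 * (ρ * B.s / 16) ^ 2 := by gcongr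
      _ = _ := one_mul _
  have hhs : 3 * h ≤ B.s := by
    rw [hHeq]
    have h1 := hpow 8 (by norm_num)
    have h2 : 3 * ρ ^ 8 ≤ 1 := by linarith
    calc 3 * (B.s * ρ ^ 8) = (3 * ρ ^ 8) * B.s := by ring
      _ ≤ 1 * B.s := by gcongr
      _ = B.s := one_mul _
  have hhκ : 2 * h ≤ kap d * B.s / 2 := by
    rw [hHeq]
    have h1 := hpow 8 (by norm_num)
    calc 2 * (B.s * ρ ^ 8) ≤ 2 * (B.s * (kap d / 4)) := by
          gcongr
          exact h1.trans hρb
      _ = kap d * B.s / 2 := by ring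
  have hwh : (2 + √d) * B.H m ≤ h := by
    rw [hHeq, hHm]
    have h1 := hpow 8 (by norm_num)
    have h2 : (2 + √d) * ρ ^ 8 ≤ 1 := by
      calc (2 + √d) * ρ ^ 8 ≤ (2 + √d) * (1 / (2 + √d)) := by
            gcongr
            exact h1.trans hρc
        _ = 1 := by field_simp
    calc (2 + √d) * (B.s * ρ ^ 16) = ((2 + √d) * ρ ^ 8) * (B.s * ρ ^ 8) := by ring
      _ ≤ 1 * (B.s * ρ ^ 8) := by gcongr
      _ = _ := one_mul _
  set m0 : ℝ := ρ ^ (16 * (d + 1)) * B.tot m with hm0
  have hm00 : 0 < m0 := by positivity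
  set c1 : ℝ := 1 + 1 / (η * ρ) with hc1
  have hc1p : 1 ≤ c1 := by
    have : 0 < 1 / (η * ρ) := by positivity
    linarith
  have hc10 : 0 < c1 := by linarith
  have hc1le : c1 ≤ (1 + 1 / η) / ρ := by
    rw [hc1, le_div_iff₀ hρ0, add_mul, one_mul]
    have : 1 / (η * ρ) * ρ = 1 / η := by field_simp
    rw [this]
    linarith
  set L : ℝ := CL / ρ with hL
  have hL0 : 0 ≤ L := by positivity
  have hLb : ∀ x r, Real.log (c1 * B.b m x r / m0) + ρ / c1 / 2 ≤ L := by
    intro x r
    have hb1 := b_le_tot B m x r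
    have hb0 := b_nonneg B m x r
    have h1 : Real.log (c1 * B.b m x r / m0) ≤ c1 + 16 * (d + 1) / ρ := by
      rcases hb0.eq_or_lt with h0 | h0
      · rw [← h0]
        simp only [mul_zero, zero_div, Real.log_zero]
        positivity
      · have h2 : c1 * B.b m x r / m0 ≤ c1 * (1 / ρ) ^ (16 * (d + 1)) := by
          rw [hm0, div_le_iff₀ (by positivity)]
          calc c1 * B.b m x r ≤ c1 * B.tot m := by gcongr
            _ = c1 * (1 / ρ) ^ (16 * (d + 1)) * (ρ ^ (16 * (d + 1)) * B.tot m) := by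
                rw [one_div, inv_pow]
                field_simp
        refine (Real.log_le_log (by positivity) h2).trans ?_
        rw [Real.log_mul (by positivity) (by positivity), Real.log_pow]
        have h3 := Real.log_le_self hc10.le
        have h4 := Real.log_le_self (by positivity : 0 ≤ 1 / ρ)
        have h5 : ((16 * (d + 1) : ℕ) : ℝ) * Real.log (1 / ρ) ≤
            ((16 * (d + 1) : ℕ) : ℝ) * (1 / ρ) := by gcongr
        push_cast at h5 ⊢
        calc Real.log c1 + 16 * ((d : ℝ) + 1) * Real.log (1 / ρ)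
            ≤ c1 + 16 * ((d : ℝ) + 1) * (1 / ρ) := add_le_add h3 h5
          _ = _ := by ring
    have h6 : ρ / c1 / 2 ≤ 1 / ρ := by
      have h7 : ρ / c1 ≤ 1 := by
        rw [div_le_one hc10]; linarith
      have h8 : 1 ≤ 1 / ρ := by rw [le_div_iff₀ hρ0]; linarith
      linarith
    calc Real.log (c1 * B.b m x r / m0) + ρ / c1 / 2
        ≤ (c1 + 16 * (d + 1) / ρ) + 1 / ρ := add_le_add h1 h6
      _ ≤ ((1 + 1 / η) / ρ + 16 * (d + 1) / ρ) + 1 / ρ := by gcongr
      _ = L := by rw [hL, hCL]; ring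
  set c : ℝ := ρ / c1 / 2 with hc
  have hc0 : 0 < c := by positivity
  -- the sets
  set S : Lat d → Set (E d) := fun q => setC B (B.pos m q) a m0 L θ c (3 * B.s) with hS
  have hSv : ∀ q, volume (S q) ≤ ENNReal.ofReal (κ0 * ρ * B.s ^ d) := by
    intro q
    refine (volume_setC_le hOK (B.pos m q) ha0.le hm00 hL0 hθ0.le hθ1 hc0
      (by positivity)).trans ?_
    apply ENNReal.ofReal_le_ofReal
    have h1 : L / c ≤ 2 * CL * (1 + 1 / η) / ρ ^ 3 := by
      have : L / c = 2 * CL * c1 / ρ ^ 2 := by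
        rw [hL, hc]; field_simp
      rw [this]
      calc 2 * CL * c1 / ρ ^ 2 ≤ 2 * CL * ((1 + 1 / η) / ρ) / ρ ^ 2 := by gcongr
        _ = _ := by field_simp
    calc (d : ℝ) * 2 ^ d * vB d * (L / c) * θ * (3 * B.s) ^ d
        ≤ (d : ℝ) * 2 ^ d * vB d * (2 * CL * (1 + 1 / η) / ρ ^ 3) * θ * (3 * B.s) ^ d := by
          gcongr
      _ = κ0 * ρ ^ 3 * B.s ^ d := by
          rw [hκ0, hθ, mul_pow]
          field_simp
      _ ≤ κ0 * ρ * B.s ^ d := by
          have := hpow 3 (by norm_num)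
          gcongr
  have hmaj := maj_sets B m (a := 2) (κ := κ0 * ρ) (by norm_num) S
    (fun q => measurableSet_setC _ _ _ _ _ _ _ _) hSv (by positivity)
  have hG0 : 0 ≤ 4 * (64 ^ d * ρ * B.tot m) := by positivity
  have hmaj2 := maj_const B hG0
  refine maj_mono (maj_or hmaj hmaj2 (by positivity) (by positivity)
    (Q := fun x r v => v ≤ B.b m x r ∧ B.condA η m x r ∧
        ∃ c, B.condB m x r c ∧ ¬ B.condC m x r c) ?_) ?_ (fun x r v _ _ hP => hP)
  · rintro x r v hx hr ⟨hvb, hA, q0, hqB, hqC⟩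
    classical
    set far := (B.Sh m x r).filter (fun c' => B.rho m * B.s / 16 < ‖B.pos m c' - B.pos m q0‖)
      with hfar
    set near := (B.Sh m x r).filter
      (fun c' => ¬ B.rho m * B.s / 16 < ‖B.pos m c' - B.pos m q0‖) with hnear
    set NL := near.filter (fun c' => ¬ B.MM m c' < m0) with hNL
    set NS := near.filter (fun c' => B.MM m c' < m0) with hNS
    have hsub : B.Sh m x r ⊆ B.cells m := Finset.filter_subset _ _
    have hsplit : B.b m x r = ∑ c' ∈ far, B.MM m c' + (∑ c' ∈ NS, B.MM m c' +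
        ∑ c' ∈ NL, B.MM m c') := by
      rw [hNS, hNL, Finset.sum_filter_add_sum_filter_not, hfar, hnear,
        Finset.sum_filter_add_sum_filter_not]
      rfl
    have hfarle : ∑ c' ∈ far, B.MM m c' ≤ ρ * B.b m x r := hqB.2
    have hNSle : ∑ c' ∈ NS, B.MM m c' ≤ 64 ^ d * ρ * B.tot m := by
      apply small_cells B hv
      · exact (Finset.filter_subset _ _).trans ((Finset.filter_subset _ _).trans hsub)
      · intro q hq
        exact (Finset.mem_filter.1 hq).2
    have hb0 := b_nonneg B m x r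
    rcases le_or_gt v (4 * (64 ^ d * ρ * B.tot m)) with hv1 | hv1
    · right; exact hv1
    left
    have hb4 : ρ * B.b m x r ≤ B.b m x r / 4 := by
      have : ρ * B.b m x r ≤ 1 / 4 * B.b m x r := by
        gcongr
        linarith
      linarith
    refine ⟨NL, (Finset.filter_subset _ _).trans ((Finset.filter_subset _ _).trans hsub), ?_,
      by linarith⟩
    intro q hq
    obtain ⟨hq1, hq2⟩ := Finset.mem_filter.1 hq
    obtain ⟨hq3, hq4⟩ := Finset.mem_filter.1 hq1
    have hq5 := (Finset.mem_filter.1 hq3).2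
    rw [not_lt] at hq2 hq4
    set p := B.pos m q with hp
    have hxp : |‖x - p‖ - r| ≤ h := by
      rw [norm_sub_rev]
      exact hq5.trans hwh
    have hr1 := hr.1
    have hr2 := hr.2
    have hxp' := abs_le.1 hxp
    have hbm0 : m0 ≤ B.b m x r := by
      refine hq2.trans ?_
      unfold Blk.b
      exact Finset.single_le_sum (f := fun c => B.MM m c) (fun c _ => MM_nonneg B m c) hq3
    refine ⟨by linarith, ?_⟩
    -- mass of the small lens
    have hA1 : η * ρ * B.mass (Metric.closedBall x (r - 2 * h)) ≤ B.b m x r := hA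
    have hu : Phi B p a (p + (1 - θ) • (x - p)) ≤ (c1 - 1) * B.b m x r := by
      have h1 : Phi B p a (p + (1 - θ) • (x - p)) ≤ B.mass (Metric.closedBall x (r - 2 * h)) :=
        mass_mono hOK (lens_sub_ball ha0 hh0 hs hr2 (by linarith) hxp hθa hθ0 hθ1)
      refine h1.trans ?_
      have h2 : c1 - 1 = 1 / (η * ρ) := by rw [hc1]; ring
      rw [h2, one_div, ← div_eq_inv_mul, le_div_iff₀ (by positivity)]
      linarith
    -- mass of the shell
    have hw : Phi B p a (p + (1 - θ) • (x - p)) + ρ * B.b m x r ≤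
        Phi B p a (p + (1 + θ) • (x - p)) := by
      set sh : Set (E d) := {z | |‖z - x‖ - r| ≤ 2 * h ∧ a < ‖z - p‖} with hsh
      have hshm : MeasurableSet sh := by
        have g1 : Measurable fun z : E d => |‖z - x‖ - r| := by
          have : Continuous fun z : E d => |‖z - x‖ - r| := by fun_prop
          exact this.measurable
        have g2 : Measurable fun z : E d => ‖z - p‖ := by fun_prop
        exact (measurableSet_le g1 measurable_const).inter (measurableSet_lt measurable_const g2)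
      have h1 : ρ * B.b m x r ≤ B.mass sh := by
        unfold Blk.condC at hqC
        rw [not_le] at hqC
        refine hqC.le.trans (mass_mono hOK ?_)
        rintro z ⟨hz1, hz2⟩
        refine ⟨hz1, ?_⟩
        have h3 : ‖z - B.pos m q0‖ ≤ ‖z - p‖ + ‖p - B.pos m q0‖ := by
          have : z - B.pos m q0 = (z - p) + (p - B.pos m q0) := by abel
          rw [this]
          exact norm_add_le _ _
        have h4 : ‖p - B.pos m q0‖ ≤ ρ * B.s / 16 := hq4
        have h5 : ρ * B.s / 8 < ‖z - B.pos m q0‖ := hz2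
        rw [ha]
        linarith
      have h2 : B.mass (lens p a (p + (1 - θ) • (x - p))) + B.mass sh ≤
          B.mass (lens p a (p + (1 + θ) • (x - p))) := by
        apply mass_add_le hOK hshm
        · rw [Set.disjoint_left]
          intro z hz1 hz2
          exact (shell_sub ha0 hh0 hhs hr2 hxp h30 hθa hθ0 hz2.1 hz2.2).2 hz1
        · apply union_subset
          · exact lens_mono ha0.le (x - p) (by linarith) (by linarith)
          · intro z hz
            exact (shell_sub ha0 hh0 hhs hr2 hxp h30 hθa hθ0 hz.1 hz.2).1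
      unfold Phi
      linarith
    exact log_step hm00 hbm0 (Phi_nonneg B p a _) hu hw hρ0.le (by linarith) hc1p (hLb x r)
  · have : 0 ≤ ρ * B.tot m := by positivity
    nlinarith

end Vale.Agent.P137.U.Cen.Mj
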