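import Vale.Agent.P137.C.Meas.MajBase

/-!
# P137, centered operator, block V.2: majorant for the condition `d_m`
-/

open MeasureTheory Set Filter Topology
open scoped ENNReal NNReal

namespace Vale.Agent.P137.U.Cen.Mj

open Vale.Agent.P137 Vale.Agent.P137.U Vale.Agent.P137.U.Cen
open Vale.Agent.P137.C.Meas (vB vB_pos vB_nonneg dil_measure volume_closedBall_eq)

variable {d : ℕ}

theorem kap_pos : 0 < kap d := by unfold kap; positivity

/-- Centres whose distance to `p` is close to `D`. -/
def shellD (D : E d → ℝ) (p : E d) (a K h : ℝ) : Set (E d) :=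
  {x | a ≤ ‖x - p‖ ∧ ‖x - p‖ ≤ K ∧ |‖x - p‖ - D x| ≤ h}

theorem measurableSet_shellD {D : E d → ℝ} (hD : Continuous D) (p : E d) (a K h : ℝ) :
    MeasurableSet (shellD D p a K h) := by
  have h1 : Measurable fun x : E d => ‖x - p‖ := by fun_prop
  have h2 : Measurable fun x : E d => |‖x - p‖ - D x| := by
    have : Continuous fun x : E d => |‖x - p‖ - D x| := by fun_prop
    exact this.measurable
  exact (measurableSet_le measurable_const h1).inter
    ((measurableSet_le h1 measurable_const).inter (measurableSet_le h2 measurable_const))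

theorem clamp_mono {h a b : ℝ} (hab : a ≤ b) : max 0 (min (4 * h) a) ≤ max 0 (min (4 * h) b) := by
  gcongr

theorem volume_shellD_le {D : E d → ℝ} (hD : LipschitzWith (1 / 4) D) (p : E d) {a K h : ℝ}
    (ha : 0 < a) (hK : 0 ≤ K) (hh : 0 < h) (hθ : 4 / 3 * h / a ≤ 1 / 2) :
    volume (shellD D p a K h) ≤
      ENNReal.ofReal (d * 2 ^ d * vB d * 4 * (4 / 3 * h / a) * K ^ d) := by
  have hDc : Continuous D := hD.continuous
  have hDl : ∀ x y, |D x - D y| ≤ 1 / 4 * ‖x - y‖ := by
    intro x y
    have h1 := hD.dist_le_mul x y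
    rw [Real.dist_eq, dist_eq_norm] at h1
    simpa using h1
  set θ := 4 / 3 * h / a with hθdef
  have hθ0 : 0 < θ := by positivity
  set F : E d → ℝ := fun x => max 0 (min (4 * h) (‖x - p‖ - D x + 2 * h)) with hF
  have hray : ∀ (v : E d) (s t : ℝ), 0 ≤ s → s ≤ t →
      ‖(p + s • v) - p‖ - D (p + s • v) + 3 / 4 * ((t - s) * ‖v‖) ≤
        ‖(p + t • v) - p‖ - D (p + t • v) := by
    intro v s t hs hst
    have h1 := hDl (p + t • v) (p + s • v)
    have h2 : (p + t • v) - (p + s • v) = (t - s) • v := by rw [sub_smul]; abel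
    rw [h2, norm_smul, Real.norm_of_nonneg (by linarith)] at h1
    rw [add_sub_cancel_left, add_sub_cancel_left, norm_smul, norm_smul, Real.norm_of_nonneg hs,
      Real.norm_of_nonneg (hs.trans hst)]
    have h3 := (abs_le.1 h1).2
    nlinarith [norm_nonneg v]
  have key := dil_measure (F := F) (L := 4 * h) (c := h) (θ := θ) (R := K) p hK hθ0.le hθ hh
    (by
      have : Continuous F := by fun_prop
      exact this.measurable)
    (fun x => le_max_left _ _)
    (fun x => max_le (by positivity) (min_le_left _ _))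
    (by
      intro v s t hs hst
      apply clamp_mono
      have := hray v s t hs hst
      have h2 : 0 ≤ (t - s) * ‖v‖ := mul_nonneg (by linarith) (norm_nonneg _)
      linarith)
    (shellD D p a K h)
    (by
      intro x hx
      rw [Metric.mem_closedBall, dist_eq_norm]
      exact hx.2.1)
    (by
      rintro x ⟨hx1, hx2, hx3⟩
      have hx3 := abs_le.1 hx3
      have e1 := hray (x - p) 1 (1 + θ) (by norm_num) (by linarith)
      have e2 := hray (x - p) (1 - θ) 1 (by linarith) (by linarith)
      have e3 : p + (1 : ℝ) • (x - p) = x := by rw [one_smul]; abel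
      rw [e3] at e1 e2
      have e4 : h ≤ 3 / 4 * (θ * ‖x - p‖) := by
        have : 4 / 3 * h = θ * a := by rw [hθdef]; field_simp
        have h5 : θ * a ≤ θ * ‖x - p‖ := by gcongr
        linarith
      have e5 : 0 ≤ 3 / 4 * ((1 - (1 - θ)) * ‖x - p‖) := by
        have : 1 - (1 - θ) = θ := by ring
        rw [this]; positivity
      have f1 : F (p + (1 - θ) • (x - p)) ≤ ‖x - p‖ - D x + 2 * h := by
        apply max_le
        · linarith [hx3.1]
        · refine (min_le_right _ _).trans ?_
          linarith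
      have f2 : ‖x - p‖ - D x + 3 * h ≤ F (p + (1 + θ) • (x - p)) := by
        refine le_trans ?_ (le_max_right _ _)
        apply le_min
        · linarith [hx3.2]
        · have : 1 + θ - 1 = θ := by ring
          rw [this] at e1
          linarith
      linarith)
  refine key.trans (le_of_eq ?_)
  congr 1
  field_simp

/-- BLOCK V.2 -/
theorem specMajD (hd : 0 < d) : SpecMajD d := by
  have hκ := kap_pos (d := d)
  -- smallness of `ρ`
  set A : ℝ := 16 * (4 + √d) / (3 * kap d) with hA
  have hA0 : 0 < A := by positivity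
  obtain ⟨S0, hS0⟩ := exists_S0 (d := d) (ε := min 1 (1 / (2 * A))) (by positivity)
  obtain ⟨S1, hS1⟩ := exists_S0 (d := d) (ε := kap d / (4 * (4 + √d))) (by positivity)
  refine ⟨max S0 S1, fun s0 hs0 => ?_⟩
  set κ : ℝ := d * 2 ^ d * vB d * 4 * A * (4 + √d) ^ d with hκdef
  have hκ0 : 0 ≤ κ := by
    have := vB_pos (d := d)
    positivity
  refine ⟨2 * κ + 1, by positivity, ?_⟩
  intro B e hB hOK D R hD m hm hv
  have hρ := hS0 B (by rw [hB]; exact le_trans (le_max_left _ _) hs0) m hm
  have hρ1 := hS1 B (by rw [hB]; exact le_trans (le_max_right _ _) hs0) m hm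
  have hρ0 := rho_pos B m
  have hρle := rho_le_one B m
  have hs := s_pos B
  have hH := H_pos B (m - 1)
  have hHm := H_pos B m
  have hHeq := H_pred hm hv
  have hHle : B.H m ≤ B.H (m - 1) := by
    rw [hHeq, H_eq hv]
    exact mul_le_mul_of_nonneg_left (pow_le_pow_of_le_one hρ0.le hρle (by norm_num)) hs.le
  have hd0 : 0 ≤ √(d : ℝ) := Real.sqrt_nonneg _
  -- width
  set h : ℝ := (4 + √d) * B.H (m - 1) with hh
  have hh0 : 0 < h := by positivity
  have hρ8 : B.rho m ^ 8 ≤ B.rho m := by
    calc B.rho m ^ 8 ≤ B.rho m ^ 1 := pow_le_pow_of_le_one hρ0.le hρle (by norm_num)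
      _ = B.rho m := pow_one _
  have hhs : h ≤ kap d * B.s / 4 := by
    rw [hh, hHeq]
    have : (4 + √d) * B.rho m ^ 8 ≤ kap d / 4 := by
      calc (4 + √d) * B.rho m ^ 8 ≤ (4 + √d) * (kap d / (4 * (4 + √d))) := by
            gcongr
            exact hρ8.trans hρ1
        _ = kap d / 4 := by field_simp
    calc (4 + √d) * (B.s * B.rho m ^ 8) = ((4 + √d) * B.rho m ^ 8) * B.s := by ring
      _ ≤ kap d / 4 * B.s := by gcongr
      _ = kap d * B.s / 4 := by ring
  have hκle : kap d ≤ 1 := by
    unfold kap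
    rw [div_le_one (by positivity)]
    nlinarith
  have hθeq : 4 / 3 * h / (kap d * B.s / 4) = A * B.rho m ^ 8 := by
    rw [hh, hHeq, hA]
    field_simp
    ring
  have hθle : 4 / 3 * h / (kap d * B.s / 4) ≤ 1 / 2 := by
    rw [hθeq]
    calc A * B.rho m ^ 8 ≤ A * (1 / (2 * A)) := by
          gcongr
          exact hρ8.trans (hρ.trans (min_le_right _ _))
      _ = 1 / 2 := by field_simp
  -- volume of the two shells
  have hvol : ∀ (D' : E d → ℝ), LipschitzWith (1 / 4) D' → ∀ c : Lat d,
      volume (shellD D' (B.pos m c) (kap d * B.s / 4) ((4 + √d) * B.s) h) ≤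
        ENNReal.ofReal (κ * B.rho m * B.s ^ d) := by
    intro D' hD' c
    refine (volume_shellD_le hD' (B.pos m c) (by positivity) (by positivity) hh0 hθle).trans ?_
    apply ENNReal.ofReal_le_ofReal
    rw [hθeq, mul_pow, hκdef]
    have hvB := vB_pos (d := d)
    calc (d : ℝ) * 2 ^ d * vB d * 4 * (A * B.rho m ^ 8) * ((4 + √d) ^ d * B.s ^ d)
        = (d * 2 ^ d * vB d * 4 * A * (4 + √d) ^ d) * B.rho m ^ 8 * B.s ^ d := by ring
      _ ≤ (d * 2 ^ d * vB d * 4 * A * (4 + √d) ^ d) * B.rho m * B.s ^ d := by gcongr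
  -- the two majorants
  have hmaj : ∀ (D' : E d → ℝ), LipschitzWith (1 / 4) D' →
      B.Maj (1 * (κ * B.rho m) * B.tot m) (fun x _ v => ∃ T : Finset (Lat d), T ⊆ B.cells m ∧
        (∀ c ∈ T, x ∈ shellD D' (B.pos m c) (kap d * B.s / 4) ((4 + √d) * B.s) h) ∧
          v ≤ 1 * ∑ c ∈ T, B.MM m c) := by
    intro D' hD'
    exact maj_sets B m zero_le_one _ (fun c => measurableSet_shellD hD'.continuous _ _ _ _)
      (hvol D' hD') (by positivity)
  have hconst : LipschitzWith (1 / 4) (fun _ : E d => R) := LipschitzWith.const' R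
  have ht := tot_nonneg B m
  refine maj_mono (maj_or (hmaj D hD) (hmaj _ hconst) (by positivity) (by positivity)
    (Q := fun x r v => v ≤ B.b m x r ∧ D x ≤ r ∧ r ≤ R ∧ ¬ B.condD m (D x) R r) ?_) ?_ ?_
  · intro x r v hx hr hP
    obtain ⟨hvb, hDr, hrR, hn⟩ := hP
    -- common part
    have hcommon : ∀ D' : E d → ℝ, |r - D' x| ≤ 2 * B.H (m - 1) →
        ∃ T : Finset (Lat d), T ⊆ B.cells m ∧
        (∀ c ∈ T, x ∈ shellD D' (B.pos m c) (kap d * B.s / 4) ((4 + √d) * B.s) h) ∧
          v ≤ 1 * ∑ c ∈ T, B.MM m c := by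
      intro D' hr'
      refine ⟨B.Sh m x r, Finset.filter_subset _ _, ?_, by rw [one_mul]; exact hvb⟩
      intro c hc
      have hc1 := (Finset.mem_filter.1 hc).2
      rw [norm_sub_rev] at hc1
      have hw : (2 + √d) * B.H m ≤ (2 + √d) * B.H (m - 1) := by gcongr
      have hc2 := abs_le.1 (hc1.trans hw)
      have hr2 := abs_le.1 hr'
      have hr1 := hr.1
      have hr3 := hr.2
      have hHs : B.H (m - 1) ≤ B.s := by
        rw [hHeq]
        calc B.s * B.rho m ^ 8 ≤ B.s * 1 := by
              gcongr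
              exact hρ8.trans hρle
          _ = B.s := mul_one _
      have hw2 : (2 + √d) * B.H (m - 1) ≤ h := by rw [hh]; gcongr; norm_num
      have hw3 : (2 + √d) * B.H (m - 1) ≤ (2 + √d) * B.s := by gcongr
      refine ⟨?_, ?_, ?_⟩
      · linarith [hc2.1]
      · linarith [hc2.2]
      · rw [abs_le]
        have : h = (2 + √d) * B.H (m - 1) + 2 * B.H (m - 1) := by rw [hh]; ring
        constructor <;> linarith [hc2.1, hc2.2, hr2.1, hr2.2]
    unfold Blk.condD at hn
    rw [not_and_or, not_le, not_le] at hn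
    rcases hn with hn | hn
    · left
      apply hcommon
      rw [abs_le]
      constructor <;> linarith
    · right
      apply hcommon
      rw [abs_le]
      constructor <;> linarith
  · have : 0 ≤ B.rho m * B.tot m := by positivity
    nlinarith
  · intro x r v _ _ hP
    exact hP

end Vale.Agent.P137.U.Cen.Mj
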