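import Vale.Agent.P137.C.Spec

/-!
# Block IV, part A: algebra of the affine fields, HALL selection, labels, Abel summation.
-/

open Set Metric
open scoped InnerProductSpace

namespace Vale.Agent.P137.C.PW

section Algebra

variable {E : Type*} [NormedAddCommGroup E] [InnerProductSpace ℝ E]

/-- The affine field `e + τ w + (⟪e,w⟫ N - ⟪N,w⟫ e)`. -/
noncomputable def fld (e : E) (τ : ℝ) (N w : E) : E :=
  e + τ • w + (⟪e, w⟫_ℝ • N - ⟪N, w⟫_ℝ • e)

theorem fld_sub (e : E) (τ : ℝ) (N w w' : E) :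
    fld e τ N w - fld e τ N w' =
      τ • (w - w') + (⟪e, w - w'⟫_ℝ • N - ⟪N, w - w'⟫_ℝ • e) := by
  simp only [fld, inner_sub_right, smul_sub, sub_smul]
  abel

theorem norm_fld_sub_le {e : E} (he : ‖e‖ = 1) {τ : ℝ} (hτ : |τ| ≤ 1) {N : E} (hN : ‖N‖ ≤ 1)
    (w w' : E) : ‖fld e τ N w - fld e τ N w'‖ ≤ 3 * ‖w - w'‖ := by
  rw [fld_sub]
  have h0 := norm_nonneg (w - w')
  have h1 : ‖τ • (w - w')‖ ≤ 1 * ‖w - w'‖ := by
    rw [norm_smul, Real.norm_eq_abs]
    gcongr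
  have h2 : ‖⟪e, w - w'⟫_ℝ • N‖ ≤ ‖w - w'‖ * 1 := by
    rw [norm_smul]
    have := norm_inner_le_norm (𝕜 := ℝ) e (w - w')
    rw [he, one_mul] at this
    gcongr
  have h3 : ‖⟪N, w - w'⟫_ℝ • e‖ ≤ ‖w - w'‖ * 1 := by
    rw [norm_smul, he]
    have := norm_inner_le_norm (𝕜 := ℝ) N (w - w')
    have h4 : ‖N‖ * ‖w - w'‖ ≤ 1 * ‖w - w'‖ := by gcongr
    have : ‖⟪N, w - w'⟫_ℝ‖ ≤ ‖w - w'‖ := by linarith
    gcongr
  calc _ ≤ ‖τ • (w - w')‖ + ‖⟪e, w - w'⟫_ℝ • N - ⟪N, w - w'⟫_ℝ • e‖ := norm_add_le _ _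
    _ ≤ ‖τ • (w - w')‖ + (‖⟪e, w - w'⟫_ℝ • N‖ + ‖⟪N, w - w'⟫_ℝ • e‖) := by
        gcongr
        exact norm_sub_le _ _
    _ ≤ 3 * ‖w - w'‖ := by linarith

theorem fld_self {e N : E} (hN : ‖N‖ = 1) : fld e (-⟪e, N⟫_ℝ) N N = 0 := by
  simp only [fld, real_inner_self_eq_norm_sq, hN]
  simp
  abel

theorem norm_fld_label_le {e N : E} (he : ‖e‖ = 1) (hN : ‖N‖ = 1) (w : E) :
    ‖fld e (-⟪e, N⟫_ℝ) N w‖ ≤ 3 * ‖w - N‖ := by
  have h := norm_fld_sub_le he (τ := -⟪e, N⟫_ℝ) (by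
    rw [abs_neg]
    have := norm_inner_le_norm (𝕜 := ℝ) e N
    rw [he, hN, Real.norm_eq_abs] at this
    simpa using this) hN.le w N
  rwa [fld_self hN, sub_zero] at h

theorem norm_fld_le {e : E} (he : ‖e‖ = 1) {τ : ℝ} (hτ : |τ| ≤ 1) {N : E} (hN : ‖N‖ ≤ 1)
    (w : E) : ‖fld e τ N w‖ ≤ 1 + 3 * ‖w‖ := by
  have h := norm_fld_sub_le he hτ hN w 0
  have h0 : fld e τ N 0 = e := by simp [fld]
  rw [h0, sub_zero] at h
  calc ‖fld e τ N w‖ = ‖(fld e τ N w - e) + e‖ := by rw [sub_add_cancel]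
    _ ≤ ‖fld e τ N w - e‖ + ‖e‖ := norm_add_le _ _
    _ ≤ 1 + 3 * ‖w‖ := by rw [he]; linarith

/-- Bulk field: positive on the cone. -/
theorem bulk_pos {e : E} {τ : ℝ} (hτ : |τ| ≤ 7 / 10) {w v : E} (hw : ‖w‖ ≤ 1)
    (hv : 8 / 10 * ‖v‖ ≤ ⟪e, v⟫_ℝ) : 1 / 10 * ‖v‖ ≤ ⟪fld e τ 0 w, v⟫_ℝ := by
  have h1 : ⟪fld e τ 0 w, v⟫_ℝ = ⟪e, v⟫_ℝ + τ * ⟪w, v⟫_ℝ := by
    simp [fld, inner_add_left, real_inner_smul_left]
  have h2 : |⟪w, v⟫_ℝ| ≤ ‖v‖ := by
    have := norm_inner_le_norm (𝕜 := ℝ) w v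
    rw [Real.norm_eq_abs] at this
    have h3 : ‖w‖ * ‖v‖ ≤ 1 * ‖v‖ := by gcongr
    linarith
  have h4 : |τ * ⟪w, v⟫_ℝ| ≤ 7 / 10 * ‖v‖ := by
    rw [abs_mul]; gcongr
  have := neg_abs_le (τ * ⟪w, v⟫_ℝ)
  rw [h1]; linarith

/-- Angle lemma: `N` close to `e` within 45.6 degrees, `v` within 36.9 degrees. -/
theorem angle_lemma {e N v : E} (he : ‖e‖ = 1) (hN : ‖N‖ = 1) (h1 : 7 / 10 ≤ ⟪e, N⟫_ℝ)
    (h2 : 8 / 10 * ‖v‖ ≤ ⟪e, v⟫_ℝ) : 1 / 10 * ‖v‖ ≤ ⟪N, v⟫_ℝ := by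
  set a := ⟪e, N⟫_ℝ with ha
  set c := ⟪e, v⟫_ℝ with hc
  have hv0 := norm_nonneg v
  -- decompose
  have hN' : ‖N - a • e‖ ^ 2 = 1 - a ^ 2 := by
    rw [norm_sub_sq_real, norm_smul, he, hN, real_inner_smul_right, real_inner_comm, ← ha]
    rw [Real.norm_eq_abs, mul_one, sq_abs]
    ring
  have hv' : ‖v - c • e‖ ^ 2 = ‖v‖ ^ 2 - c ^ 2 := by
    rw [norm_sub_sq_real, norm_smul, he, real_inner_smul_right, real_inner_comm, ← hc]
    rw [Real.norm_eq_abs, mul_one, sq_abs]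
    ring
  have hsplit : ⟪N, v⟫_ℝ = a * c + ⟪N - a • e, v - c • e⟫_ℝ := by
    simp only [inner_sub_left, inner_sub_right, real_inner_smul_left, real_inner_smul_right,
      real_inner_self_eq_norm_sq, he]
    rw [real_inner_comm e N, ← ha, ← hc]
    ring
  have hcs : |⟪N - a • e, v - c • e⟫_ℝ| ≤ ‖N - a • e‖ * ‖v - c • e‖ := by
    have := norm_inner_le_norm (𝕜 := ℝ) (N - a • e) (v - c • e)
    rwa [Real.norm_eq_abs] at this
  have hcle : c ≤ ‖v‖ := by
    have := real_inner_le_norm e v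
    rwa [he, one_mul] at this
  have hale : a ≤ 1 := by
    have := real_inner_le_norm e N
    rwa [he, hN, one_mul] at this
  have hn1 : ‖N - a • e‖ ≤ 715 / 1000 := by
    apply le_of_sq_le_sq _ (by norm_num)
    rw [hN']
    nlinarith
  have hn2 : ‖v - c • e‖ ≤ 6 / 10 * ‖v‖ := by
    apply le_of_sq_le_sq _ (by positivity)
    rw [hv']
    nlinarith
  have hprod : ‖N - a • e‖ * ‖v - c • e‖ ≤ 715 / 1000 * (6 / 10 * ‖v‖) := by
    gcongr
  have hac : 7 / 10 * (8 / 10 * ‖v‖) ≤ a * c := by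
    apply mul_le_mul h1 h2 (by positivity) (by linarith)
  have := neg_abs_le (⟪N - a • e, v - c • e⟫_ℝ)
  rw [hsplit]
  linarith

end Algebra

section Hall

/-- HALL selection. -/
theorem hall {b J : ℕ → ℝ} (hJ0 : 0 ≤ J 0) {η : ℝ} (hη : 0 < η) (K : ℕ) :
    ∃ n0 ≤ K, ∑ i ∈ Finset.range n0, b i ≤ η * J n0 ∧
      ∀ n, n0 ≤ n → n ≤ K → J n ≤ J n0 + η⁻¹ * ∑ i ∈ Finset.Ico n0 n, b i := by
  classical
  let P : ℕ → Prop := fun n => ∑ i ∈ Finset.range n, b i ≤ η * J n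
  have hP0 : P 0 := by
    simp only [P, Finset.range_zero, Finset.sum_empty]
    positivity
  refine ⟨Nat.findGreatest P K, Nat.findGreatest_le K, ?_, ?_⟩
  · exact Nat.findGreatest_spec (P := P) (Nat.zero_le K) hP0
  · intro n hn hnK
    set n0 := Nat.findGreatest P K with hn0
    have hPn0 : P n0 := Nat.findGreatest_spec (P := P) (Nat.zero_le K) hP0
    rcases eq_or_lt_of_le hn with h | h
    · rw [← h]; simp
    · have hnot : ¬ P n := Nat.findGreatest_is_greatest (P := P) h hnK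
      have h1 : η * J n < ∑ i ∈ Finset.range n, b i := not_le.mp hnot
      have h2 : ∑ i ∈ Finset.range n, b i
          = ∑ i ∈ Finset.range n0, b i + ∑ i ∈ Finset.Ico n0 n, b i :=
        (Finset.sum_range_add_sum_Ico _ hn).symm
      have h3 : η * J n ≤ η * (J n0 + η⁻¹ * ∑ i ∈ Finset.Ico n0 n, b i) := by
        rw [mul_add, ← mul_assoc, mul_inv_cancel₀ hη.ne', one_mul]
        have : ∑ i ∈ Finset.range n0, b i ≤ η * J n0 := hPn0
        linarith
      exact le_of_mul_le_mul_left h3 hη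

/-- Abel summation comparison. -/
theorem abel_le {φ J F : ℕ → ℝ} {k K : ℕ} (hkK : k ≤ K)
    (hφ0 : ∀ n, k ≤ n → n ≤ K → 0 ≤ φ n)
    (hφ : ∀ n, k ≤ n → n < K → φ (n + 1) ≤ φ n) (hJF : ∀ n, k ≤ n → n ≤ K + 1 → J n ≤ F n)
    (hJ : 0 ≤ J k) :
    ∑ n ∈ Finset.Icc k K, φ n * (J (n + 1) - J n) ≤
      φ k * F k + ∑ n ∈ Finset.Icc k K, φ n * (F (n + 1) - F n) := by
  have key : ∀ L, k ≤ L → L ≤ K → ∑ n ∈ Finset.Icc k L, φ n * (J (n + 1) - J n) ≤
      φ k * F k + ∑ n ∈ Finset.Icc k L, φ n * (F (n + 1) - F n)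
        - φ L * (F (L + 1) - J (L + 1)) := by
    intro L hL
    induction L, hL using Nat.le_induction with
    | base =>
      intro _
      rw [Finset.Icc_self, Finset.sum_singleton, Finset.sum_singleton]
      have h0 := hφ0 k le_rfl hkK
      have : 0 ≤ φ k * J k := mul_nonneg h0 hJ
      linarith
    | succ L hL ih =>
      intro hLK
      have ih' := ih (by omega)
      rw [Finset.sum_Icc_succ_top (by omega), Finset.sum_Icc_succ_top (by omega)]
      have h1 := hφ L hL (by omega)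
      have h2 := hJF (L + 1) (by omega) (by omega)
      have h3 : φ (L + 1) * (F (L + 1) - J (L + 1)) ≤ φ L * (F (L + 1) - J (L + 1)) :=
        mul_le_mul_of_nonneg_right h1 (by linarith)
      nlinarith
  have h := key K hkK le_rfl
  have h1 := hφ0 K hkK le_rfl
  have h2 := hJF (K + 1) (by omega) le_rfl
  have h3 : 0 ≤ φ K * (F (K + 1) - J (K + 1)) := mul_nonneg h1 (by linarith)
  linarith

end Hall

section Labels

variable {E : Type*} [PseudoMetricSpace E]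

/-- The largest element of `S` which is `≤ n`, or `0`. -/
noncomputable def pv (S : Finset ℕ) (n : ℕ) : ℕ := Nat.findGreatest (· ∈ S) n

variable {S : Finset ℕ} {k1 M : ℕ}

theorem pv_mem (h1 : k1 ∈ S) {n : ℕ} (hn : k1 ≤ n) : pv S n ∈ S :=
  Nat.findGreatest_spec (P := (· ∈ S)) hn h1

theorem pv_le (S : Finset ℕ) (n : ℕ) : pv S n ≤ n := Nat.findGreatest_le n

theorem le_pv {k n : ℕ} (hk : k ∈ S) (hn : k ≤ n) : k ≤ pv S n :=
  Nat.le_findGreatest hn hk

theorem pv_self {n : ℕ} (hn : n ∈ S) : pv S n = n :=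
  le_antisymm (pv_le S n) (le_pv hn le_rfl)

theorem pv_succ_of_notMem {n : ℕ} (hn : n + 1 ∉ S) : pv S (n + 1) = pv S n := by
  simp [pv, hn]

theorem pv_mono (S : Finset ℕ) : Monotone (pv S) := fun _ _ h => Nat.findGreatest_mono_right _ h

/-- Existence of the labels. -/
theorem exists_labels (h1 : k1 ∈ S) (y : ℕ → E)
    {ρ : ℕ → ℝ} {s : ℝ} (hs : 0 < s) (hρ0 : ∀ n, 0 ≤ ρ n)
    (hρ : ∀ m n, m < n → ρ n ≤ ρ m / 2) :
    ∃ li : ℕ → ℕ,
      (∀ n, k1 ≤ n → n ≤ M + 1 → li n ∈ S ∧ pv S n ≤ li n ∧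
        dist (y (pv S n)) (y (li n)) ≤ ρ (pv S n) * s) ∧
      (∀ n, k1 ≤ n → n ≤ M →
        dist (y (pv S n)) (y (pv S (n + 1))) ≤ ρ (pv S n) * s / 2 → li n = li (n + 1)) := by
  classical
  -- downward recursion: `A j` is the label index at `n = M + 1 - j`
  let A : ℕ → ℕ := fun j => Nat.rec (pv S (M + 1)) (fun j a =>
    if dist (y (pv S (M - j))) (y (pv S (M - j + 1))) ≤ ρ (pv S (M - j)) * s / 2 then a
    else pv S (M - j)) j
  have hA0 : A 0 = pv S (M + 1) := rfl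
  have hAs : ∀ j, A (j + 1) =
    if dist (y (pv S (M - j))) (y (pv S (M - j + 1))) ≤ ρ (pv S (M - j)) * s / 2 then A j
    else pv S (M - j) := fun j => rfl
  have hstep : ∀ n, n ≤ M → A (M + 1 - n) =
    if dist (y (pv S n)) (y (pv S (n + 1))) ≤ ρ (pv S n) * s / 2 then A (M + 1 - (n + 1))
    else pv S n := by
    intro n hn
    have e1 : M + 1 - n = (M - n) + 1 := by omega
    have e2 : M - (M - n) = n := by omega
    have e3 : M + 1 - (n + 1) = M - n := by omega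
    rw [e1, hAs, e2, e3]
  refine ⟨fun n => A (M + 1 - n), ?_, ?_⟩
  · -- downward induction
    have key : ∀ j n, n + j = M + 1 → k1 ≤ n → A (M + 1 - n) ∈ S ∧ pv S n ≤ A (M + 1 - n) ∧
        dist (y (pv S n)) (y (A (M + 1 - n))) ≤ ρ (pv S n) * s := by
      intro j
      induction j with
      | zero =>
        intro n hn hk
        have : n = M + 1 := by omega
        subst this
        rw [Nat.sub_self, hA0]
        refine ⟨pv_mem h1 hk, le_rfl, ?_⟩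
        rw [dist_self]
        exact mul_nonneg (hρ0 _) hs.le
      | succ j ih =>
        intro n hn hk
        have ih' := ih (n + 1) (by omega) (by omega)
        rw [hstep n (by omega)]
        split_ifs with hlink
        · refine ⟨ih'.1, (pv_mono S (Nat.le_succ n)).trans ih'.2.1, ?_⟩
          by_cases hmem : n + 1 ∈ S
          · rw [pv_self hmem] at ih' hlink
            have hlt : pv S n < n + 1 := Nat.lt_succ_of_le (pv_le S n)
            have hr := hρ (pv S n) (n + 1) hlt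
            calc dist (y (pv S n)) (y (A (M + 1 - (n + 1))))
                ≤ dist (y (pv S n)) (y (n + 1)) + dist (y (n + 1)) (y (A (M + 1 - (n + 1)))) :=
                  dist_triangle _ _ _
              _ ≤ ρ (pv S n) * s / 2 + ρ (n + 1) * s := by
                  gcongr
                  exact ih'.2.2
              _ ≤ ρ (pv S n) * s := by nlinarith
          · rw [pv_succ_of_notMem hmem] at ih'
            exact ih'.2.2
        · refine ⟨pv_mem h1 hk, le_rfl, ?_⟩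
          rw [dist_self]
          exact mul_nonneg (hρ0 _) hs.le
    intro n hk hn
    exact key (M + 1 - n) n (by omega) hk
  · intro n hk hn hlink
    show A (M + 1 - n) = A (M + 1 - (n + 1))
    rw [hstep n hn, if_pos hlink]

end Labels

end Vale.Agent.P137.C.PW
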