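import Vale.Agent.P137.C.Basic
import Vale.Agent.P137.C.PW1Alg

/-!
# P137, block IV.2: pointwise inequality for a given set of good bands
-/

open MeasureTheory Set Filter Topology
open scoped ENNReal NNReal

namespace Vale.Agent.P137.U.Cen

open Vale.Agent.P137 Vale.Agent.P137.U Vale.Agent.P137.C.PW

variable {d : ℕ}

namespace PW1

/-! ### Facts on the radial cutoffs -/

theorem th_nonneg (d : ℕ) (a b ρ : ℝ) : 0 ≤ th d a b ρ := le_max_left _ _

theorem q_lt_one (hd : 0 < d) {a b : ℝ} (ha : 0 < a) (hab : a < b) : (a / b) ^ d < 1 := by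
  have hb : 0 < b := ha.trans hab
  exact pow_lt_one₀ (by positivity) ((div_lt_one hb).2 hab) hd.ne'

theorem th_le_one (hd : 0 < d) {a b : ℝ} (ha : 0 < a) (hab : a < b) (ρ : ℝ) :
    th d a b ρ ≤ 1 := by
  have h1 := q_lt_one hd ha hab
  unfold th
  refine max_le zero_le_one ?_
  rw [div_le_one (by linarith)]
  have h2 : (a / max a ρ) ^ d ≤ 1 := by
    refine pow_le_one₀ ?_ ?_
    · have : 0 < max a ρ := lt_max_of_lt_left ha
      positivity
    · rw [div_le_one (lt_max_of_lt_left ha)]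
      exact le_max_left _ _
  linarith

theorem th_eq_one (hd : 0 < d) {a b : ℝ} (ha : 0 < a) (hab : a < b) {ρ : ℝ} (hρ : ρ ≤ a) :
    th d a b ρ = 1 := by
  have h1 := q_lt_one hd ha hab
  unfold th
  rw [max_eq_left hρ, div_self ha.ne', one_pow, div_self (by linarith)]
  norm_num

theorem th_eq_zero (hd : 0 < d) {a b : ℝ} (ha : 0 < a) (hab : a < b) {ρ : ℝ} (hρ : b ≤ ρ) :
    th d a b ρ = 0 := by
  have h1 := q_lt_one hd ha hab
  have hb : 0 < b := ha.trans hab
  unfold th
  rw [max_eq_right (hab.le.trans hρ)]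
  refine max_eq_left ?_
  refine div_nonpos_of_nonpos_of_nonneg ?_ (by linarith)
  have : a / ρ ≤ a / b := by gcongr
  have h2 : (a / ρ) ^ d ≤ (a / b) ^ d := by
    have : 0 ≤ a / ρ := div_nonneg ha.le (hb.le.trans hρ)
    gcongr
  linarith

theorem measurable_th (d : ℕ) (a b : ℝ) : Measurable (th d a b) := by
  unfold th
  fun_prop

theorem measurable_th_norm (d : ℕ) (a b : ℝ) (x : E d) :
    Measurable fun z : E d => th d a b ‖z - x‖ :=
  (measurable_th d a b).comp (by fun_prop)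

/-! ### Integrability -/

theorem integrable_aux {x : E d} {R0 A : ℝ} {χ : E d → ℝ} (hχ : Measurable χ)
    (hb : ∀ z, |χ z| ≤ A) (hs : ∀ z, R0 < ‖z - x‖ → χ z = 0) {K : E d → E d}
    (hK : Continuous K) {g : E d → E d} (hg : Integrable g) :
    Integrable fun z => χ z * inner ℝ (K z) (g z) := by
  obtain ⟨C, hC⟩ := (isCompact_closedBall x R0).exists_bound_of_continuousOn hK.continuousOn
  have hA : 0 ≤ A := (abs_nonneg _).trans (hb x)
  refine Integrable.mono' (hg.norm.const_mul (A * |C|)) ?_ (Eventually.of_forall fun z => ?_)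
  · exact hχ.aestronglyMeasurable.mul (hK.aestronglyMeasurable.inner hg.aestronglyMeasurable)
  · by_cases hz : R0 < ‖z - x‖
    · rw [hs z hz, zero_mul, norm_zero]
      positivity
    · have hz' : z ∈ Metric.closedBall x R0 := by
        rw [Metric.mem_closedBall, dist_eq_norm]
        exact not_lt.1 hz
      have h1 := hC z hz'
      rw [norm_mul]
      have h2 := norm_inner_le_norm (𝕜 := ℝ) (K z) (g z)
      have h3 := hb z
      rw [← Real.norm_eq_abs] at h3
      calc ‖χ z‖ * ‖inner ℝ (K z) (g z)‖ ≤ A * (‖K z‖ * ‖g z‖) := by gcongr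
        _ ≤ A * (|C| * ‖g z‖) := by
            have := h1.trans (le_abs_self C)
            gcongr
        _ = A * |C| * ‖g z‖ := by ring

theorem continuous_fld (e' : E d) (τ : ℝ) (N : E d) : Continuous fun z => fld e' τ N z := by
  unfold fld
  fun_prop

theorem continuous_fldw (e' : E d) (τ : ℝ) (N : E d) (r : ℝ) (x : E d) :
    Continuous fun z => fld e' τ N (r⁻¹ • (z - x)) := by
  unfold fld
  fun_prop

/-! ### Facts on `Th`, `xi` -/

section
variable (B : Blk d) (x : E d) (r : ℝ)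

theorem measurable_Th (m : ℕ) : Measurable (Th B x r m) := by
  classical
  unfold Th
  by_cases h : B.valid m
  · simp only [h, if_true]
    exact measurable_th_norm _ _ _ _
  · simp only [h, if_false]
    refine Measurable.ite ?_ measurable_const measurable_const
    exact measurableSet_le (by fun_prop) measurable_const

theorem measurable_xi (m : ℕ) : Measurable (xi B x r m) := by
  unfold xi
  exact (measurable_th_norm _ _ _ _).sub (measurable_th_norm _ _ _ _)

variable {B x r}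

theorem Th_bounds (hd : 0 < d) {m : ℕ} (hr : B.H m < r) (z : E d) :
    0 ≤ Th B x r m z ∧ Th B x r m z ≤ 1 := by
  unfold Th
  split_ifs
  · exact ⟨th_nonneg _ _ _ _, th_le_one hd (by linarith) (by linarith [B.H_pos m]) _⟩
  · exact ⟨zero_le_one, le_rfl⟩
  · exact ⟨le_rfl, zero_le_one⟩

theorem Th_out (hd : 0 < d) {m : ℕ} (hr : B.H m < r) {z : E d} (hz : r < ‖z - x‖) :
    Th B x r m z = 0 := by
  unfold Th
  split_ifs with h1 h2
  · exact th_eq_zero hd (by linarith) (by linarith [B.H_pos m]) hz.le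
  · exact absurd h2 (not_le.2 hz)
  · rfl

theorem Th_top {m : ℕ} (h : ¬ B.valid m) (z : E d) :
    Th B x r m z = (Metric.closedBall x r).indicator (fun _ => (1 : ℝ)) z := by
  classical
  unfold Th
  rw [if_neg h, indicator_apply]
  simp only [Metric.mem_closedBall, dist_eq_norm]

theorem xi_bounds (hd : 0 < d) {m : ℕ} (hr : B.H m < r) (z : E d) :
    0 ≤ xi B x r m z ∧ xi B x r m z ≤ 1 := by
  have hH := B.H_pos m
  unfold xi
  rcases le_or_gt ‖z - x‖ r with h | h
  · rw [th_eq_one hd (by linarith) (by linarith) h]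
    have h1 := th_nonneg d (r - B.H m) r ‖z - x‖
    have h2 := th_le_one hd (a := r - B.H m) (b := r) (by linarith) (by linarith) ‖z - x‖
    constructor <;> linarith
  · rw [th_eq_zero hd (a := r - B.H m) (b := r) (by linarith) (by linarith) h.le, sub_zero]
    exact ⟨th_nonneg _ _ _ _, th_le_one hd (by linarith) (by linarith) _⟩

theorem xi_support (hd : 0 < d) {m : ℕ} (hr : B.H m < r) {z : E d} (hz : xi B x r m z ≠ 0) :
    |‖z - x‖ - r| ≤ B.H m := by
  have hH := B.H_pos m
  by_contra hcon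
  rw [not_le, lt_abs] at hcon
  apply hz
  unfold xi
  rcases hcon with h | h
  · rw [th_eq_zero hd (a := r) (b := r + B.H m) (by linarith) (by linarith) (by linarith),
      th_eq_zero hd (a := r - B.H m) (b := r) (by linarith) (by linarith) (by linarith), sub_zero]
  · rw [th_eq_one hd (a := r) (b := r + B.H m) (by linarith) (by linarith) (by linarith),
      th_eq_one hd (a := r - B.H m) (b := r) (by linarith) (by linarith) (by linarith), sub_self]

end

/-! ### Identities from `SpecId` -/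

section
variable {B : Blk d} {f : E d → ℝ} {x : E d} {D0 R r : ℝ}

theorem inner_w (r : ℝ) (x z v : E d) :
    inner ℝ (r⁻¹ • (z - x)) v = r⁻¹ * inner ℝ (z - x) v := real_inner_smul_left _ _ _

theorem integrable_gradient (hf : ContDiff ℝ 1 f) (hc : HasCompactSupport f) :
    Integrable (gradient f) := by
  have h1 : Continuous (gradient f) := by
    have := hf.continuous_fderiv one_ne_zero
    unfold gradient
    exact (InnerProductSpace.toDual ℝ (E d)).symm.continuous.comp this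
  have h2 : HasCompactSupport (gradient f) := by
    have h3 := hc.fderiv (𝕜 := ℝ)
    unfold gradient
    exact h3.comp_left (g := (InnerProductSpace.toDual ℝ (E d)).symm) (map_zero _)
  exact h1.integrable_of_hasCompactSupport h2

theorem integrable_th_w {a b : ℝ} (hd : 0 < d) (ha : 0 < a) (hab : a < b) (r : ℝ) {g : E d → E d}
    (hg : Integrable g) :
    Integrable fun z => th d a b ‖z - x‖ * inner ℝ (r⁻¹ • (z - x)) (g z) := by
  refine integrable_aux (A := 1) (R0 := b) (x := x) (measurable_th_norm d a b x) (fun z => ?_)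
    (fun z hz => th_eq_zero hd ha hab hz.le) (by fun_prop) hg
  rw [abs_of_nonneg (th_nonneg _ _ _ _)]
  exact th_le_one hd ha hab _

theorem Q_nonneg (hI : SpecId d) (hf : ContDiff ℝ 1 f) (hc : HasCompactSupport f)
    (hmax : MaxAt f x D0 R r) {m : ℕ} (hm : B.valid m) (hHr : B.H m < r)
    (hD : D0 + B.H m ≤ r) :
    0 ≤ ∫ z, Th B x r m z * inner ℝ (r⁻¹ • (z - x)) (gradient f z) := by
  have hH := B.H_pos m
  obtain ⟨c, hc0, hcd⟩ := hI.dil f hf hc x (r - B.H m) r (by linarith) (by linarith)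
  have h1 : ∫ z, Th B x r m z * inner ℝ (r⁻¹ • (z - x)) (gradient f z) =
      r⁻¹ * ∫ z, th d (r - B.H m) r ‖z - x‖ * inner ℝ (z - x) (gradient f z) := by
    rw [← integral_const_mul]
    congr 1
    funext z
    rw [inner_w]
    unfold Th
    rw [if_pos hm]
    ring
  rw [h1, hcd]
  have h2 := hmax.max (r - B.H m) (by linarith) (by linarith [hmax.hi])
  have hr : 0 < r := hH.trans hHr
  have : 0 ≤ avg f x r - avg f x (r - B.H m) := by linarith
  positivity

theorem Q_le (hd : 0 < d) (hI : SpecId d) (hf : ContDiff ℝ 1 f) (hc : HasCompactSupport f)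
    (hmax : MaxAt f x D0 R r) {m : ℕ} (hm : B.valid m) (hHr : B.H m < r)
    (hD : r + B.H m ≤ R) :
    ∫ z, Th B x r m z * inner ℝ (r⁻¹ • (z - x)) (gradient f z) ≤
      - ∫ z, xi B x r m z * inner ℝ (r⁻¹ • (z - x)) (gradient f z) := by
  have hH := B.H_pos m
  have hr : 0 < r := hH.trans hHr
  have hg := integrable_gradient hf hc
  obtain ⟨c, hc0, hcd⟩ := hI.dil f hf hc x r (r + B.H m) (by linarith) (by linarith)
  have h1 : ∫ z, th d r (r + B.H m) ‖z - x‖ * inner ℝ (r⁻¹ • (z - x)) (gradient f z) =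
      r⁻¹ * ∫ z, th d r (r + B.H m) ‖z - x‖ * inner ℝ (z - x) (gradient f z) := by
    rw [← integral_const_mul]
    congr 1
    funext z
    rw [inner_w]
    ring
  have h2 : ∫ z, xi B x r m z * inner ℝ (r⁻¹ • (z - x)) (gradient f z) =
      (∫ z, th d r (r + B.H m) ‖z - x‖ * inner ℝ (r⁻¹ • (z - x)) (gradient f z)) -
      ∫ z, Th B x r m z * inner ℝ (r⁻¹ • (z - x)) (gradient f z) := by
    rw [← integral_sub]
    · congr 1
      funext z
      unfold xi Th
      rw [if_pos hm]
      ring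
    · exact integrable_th_w hd hr (by linarith) r hg
    · have h3 := integrable_th_w (x := x) (a := r - B.H m) (b := r) hd (by linarith)
        (by linarith) r hg
      refine h3.congr (Eventually.of_forall fun z => ?_)
      simp only [Th, if_pos hm]
  have h3 : ∫ z, th d r (r + B.H m) ‖z - x‖ * inner ℝ (r⁻¹ • (z - x)) (gradient f z) ≤ 0 := by
    rw [h1, hcd]
    have h4 := hmax.max (r + B.H m) (by linarith [hmax.lo]) hD
    have h5 : avg f x (r + B.H m) - avg f x r ≤ 0 := by linarith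
    have h6 : c * (avg f x (r + B.H m) - avg f x r) ≤ 0 :=
      mul_nonpos_of_nonneg_of_nonpos hc0 h5
    exact mul_nonpos_of_nonneg_of_nonpos (inv_nonneg.2 hr.le) h6
  rw [h2]
  linarith

theorem dr_zero (hI : SpecId d) (hf : ContDiff ℝ 1 f) (hc : HasCompactSupport f)
    (hmax : MaxAt f x D0 R r) (hr : 0 < r) (h1 : D0 < r) (h2 : r < R) :
    ∫ z in Metric.closedBall x r, inner ℝ (z - x) (gradient f z) = 0 := by
  have hder := hI.dr f hf hc x r hr
  have hloc : IsLocalMax (fun ρ => avg f x ρ) r := by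
    filter_upwards [Ioo_mem_nhds h1 h2] with ρ hρ
    exact hmax.max ρ hρ.1.le hρ.2.le
  have h3 := hloc.hasDerivAt_eq_zero hder
  have hv : 0 < volume.real (Metric.closedBall x r) := by
    rw [measureReal_def]
    refine ENNReal.toReal_pos ?_ ?_
    · exact (Metric.measure_closedBall_pos volume x hr).ne'
    · exact (isCompact_closedBall x r).measure_lt_top.ne
  have h4 : r⁻¹ * (volume.real (Metric.closedBall x r))⁻¹ ≠ 0 := by positivity
  exact (mul_eq_zero.1 h3).resolve_left h4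

/-- the rotation kernel -/
theorem rot_Th (hI : SpecId d) (hf : ContDiff ℝ 1 f) (hc : HasCompactSupport f) {m : ℕ}
    (hHr : B.H m < r) (u v : E d) :
    ∫ z, Th B x r m z * inner ℝ ((inner ℝ u (r⁻¹ • (z - x)) : ℝ) • v -
      (inner ℝ v (r⁻¹ • (z - x)) : ℝ) • u) (gradient f z) = 0 := by
  have hH := B.H_pos m
  have hr : 0 < r := hH.trans hHr
  have hz : ∀ z : E d, inner ℝ ((inner ℝ u (r⁻¹ • (z - x)) : ℝ) • v -
      (inner ℝ v (r⁻¹ • (z - x)) : ℝ) • u) (gradient f z) = r⁻¹ *
      inner ℝ ((inner ℝ u (z - x) : ℝ) • v - (inner ℝ v (z - x) : ℝ) • u) (gradient f z) := by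
    intro z
    simp only [real_inner_smul_right, mul_smul, ← smul_sub, real_inner_smul_left]
  by_cases hm : B.valid m
  · have h := hI.rot f hf hc x (r - B.H m) r (by linarith) (by linarith) u v
    calc _ = ∫ z, r⁻¹ * (th d (r - B.H m) r ‖z - x‖ *
          inner ℝ ((inner ℝ u (z - x) : ℝ) • v - (inner ℝ v (z - x) : ℝ) • u)
            (gradient f z)) := by
          congr 1
          funext z
          rw [hz]
          unfold Th
          rw [if_pos hm]
          ring
      _ = 0 := by rw [integral_const_mul, h, mul_zero]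
  · have h := hI.rot' f hf hc x r hr u v
    calc _ = ∫ z, r⁻¹ * (Metric.closedBall x r).indicator (fun z =>
          inner ℝ ((inner ℝ u (z - x) : ℝ) • v - (inner ℝ v (z - x) : ℝ) • u)
            (gradient f z)) z := by
          congr 1
          funext z
          rw [hz, Th_top hm]
          by_cases h0 : z ∈ Metric.closedBall x r
          · rw [indicator_of_mem h0, indicator_of_mem h0, one_mul]
          · rw [indicator_of_notMem h0, indicator_of_notMem h0, zero_mul, mul_zero]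
      _ = 0 := by
          rw [integral_const_mul, integral_indicator Metric.isClosed_closedBall.measurableSet, h,
            mul_zero]

end

/-! ### Telescoping -/

section
variable {B : Blk d} {f : E d → ℝ} {x : E d} {D0 R r : ℝ}

theorem abs_Th_le (hd : 0 < d) {m : ℕ} (hHr : B.H m < r) (z : E d) : |Th B x r m z| ≤ 1 := by
  have := Th_bounds (x := x) hd hHr z
  rw [abs_of_nonneg this.1]
  exact this.2

theorem integrable_Th (hd : 0 < d) {m : ℕ} (hHr : B.H m < r) {K : E d → E d}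
    (hK : Continuous K) {g : E d → E d} (hg : Integrable g) :
    Integrable fun z => Th B x r m z * inner ℝ (K z) (g z) :=
  integrable_aux (A := 1) (R0 := r) (x := x) (measurable_Th B x r m) (abs_Th_le hd hHr)
    (fun _ hz => Th_out hd hHr hz) hK hg

theorem integrable_Th_sub (hd : 0 < d) {m : ℕ} (hHr : B.H m < r) (hHr' : B.H (m + 1) < r)
    {K : E d → E d} (hK : Continuous K) {g : E d → E d} (hg : Integrable g) :
    Integrable fun z => (Th B x r (m + 1) z - Th B x r m z) * inner ℝ (K z) (g z) := by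
  have h := (integrable_Th (x := x) hd hHr' hK hg).sub (integrable_Th (x := x) hd hHr hK hg)
  refine h.congr (Eventually.of_forall fun z => ?_)
  simp only [Pi.sub_apply, sub_mul]

theorem fld_diff (e' : E d) (τ1 τ2 : ℝ) (N1 N2 w : E d) :
    Cen.fld e' τ1 N1 w - Cen.fld e' τ2 N2 w = (τ1 - τ2) • w +
      ((inner ℝ e' w : ℝ) • (N1 - N2) - (inner ℝ (N1 - N2) w : ℝ) • e') := by
  simp only [Cen.fld, inner_sub_left, smul_sub, sub_smul]
  abel

theorem change_eq (hd : 0 < d) (hI : SpecId d) (hf : ContDiff ℝ 1 f) (hc : HasCompactSupport f)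
    {m : ℕ} (hHr : B.H m < r) (e' : E d) (τ1 τ2 : ℝ) (N1 N2 : E d) :
    (∫ z, Th B x r m z * inner ℝ (Cen.fld e' τ1 N1 (r⁻¹ • (z - x))) (gradient f z)) -
      (∫ z, Th B x r m z * inner ℝ (Cen.fld e' τ2 N2 (r⁻¹ • (z - x))) (gradient f z)) =
    (τ1 - τ2) * ∫ z, Th B x r m z * inner ℝ (r⁻¹ • (z - x)) (gradient f z) := by
  have hg := integrable_gradient hf hc
  have hw : Continuous fun z : E d => r⁻¹ • (z - x) := by fun_prop
  rw [← integral_sub (integrable_Th hd hHr (continuous_fldw _ _ _ _ _) hg)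
    (integrable_Th hd hHr (continuous_fldw _ _ _ _ _) hg)]
  have h1 := rot_Th (x := x) hI hf hc hHr e' (N1 - N2)
  have h2 : ∀ z, Th B x r m z * inner ℝ (Cen.fld e' τ1 N1 (r⁻¹ • (z - x))) (gradient f z) -
      Th B x r m z * inner ℝ (Cen.fld e' τ2 N2 (r⁻¹ • (z - x))) (gradient f z) =
      (τ1 - τ2) * (Th B x r m z * inner ℝ (r⁻¹ • (z - x)) (gradient f z)) +
      Th B x r m z * inner ℝ ((inner ℝ e' (r⁻¹ • (z - x)) : ℝ) • (N1 - N2) -
      (inner ℝ (N1 - N2) (r⁻¹ • (z - x)) : ℝ) • e') (gradient f z) := by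
    intro z
    rw [← mul_sub, ← inner_sub_left, fld_diff, inner_add_left, real_inner_smul_left]
    ring
  simp_rw [h2]
  rw [integral_add, integral_const_mul, h1, add_zero]
  · exact (integrable_Th hd hHr hw hg).const_mul _
  · exact integrable_Th hd hHr (K := fun z => (inner ℝ e' (r⁻¹ • (z - x)) : ℝ) • (N1 - N2) -
      (inner ℝ (N1 - N2) (r⁻¹ • (z - x)) : ℝ) • e') (by fun_prop) hg

theorem telescope (hd : 0 < d) (hI : SpecId d) (hf : ContDiff ℝ 1 f) (hc : HasCompactSupport f)
    (hmax : MaxAt f x D0 R r) (h1 : D0 < r) (h2 : r < R) (hHr : ∀ m, B.H m < r) {M : ℕ}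
    (hM : ¬ B.valid (M + 1)) (e' : E d) (τ : ℕ → ℝ) (N : ℕ → E d) :
    ∫ z in Metric.closedBall x r, inner ℝ e' (gradient f z) =
      (∫ z, Th B x r 0 z * inner ℝ (Cen.fld e' (τ 0) (N 0) (r⁻¹ • (z - x))) (gradient f z)) +
      ∑ m ∈ Finset.range (M + 1),
        ((∫ z, (Th B x r (m + 1) z - Th B x r m z) *
            inner ℝ (Cen.fld e' (τ (m + 1)) (N (m + 1)) (r⁻¹ • (z - x))) (gradient f z)) +
        (τ (m + 1) - τ m) *
          ∫ z, Th B x r m z * inner ℝ (r⁻¹ • (z - x)) (gradient f z)) := by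
  have hr : 0 < r := (B.H_pos 0).trans (hHr 0)
  have hg := integrable_gradient hf hc
  have hw : Continuous fun z : E d => r⁻¹ • (z - x) := by fun_prop
  set a : ℕ → ℝ := fun m => ∫ z, Th B x r m z *
    inner ℝ (Cen.fld e' (τ m) (N m) (r⁻¹ • (z - x))) (gradient f z) with ha
  have htop : ∫ z in Metric.closedBall x r, inner ℝ e' (gradient f z) = a (M + 1) := by
    have h0 : ∫ z, Th B x r (M + 1) z *
        inner ℝ (Cen.fld e' 0 0 (r⁻¹ • (z - x))) (gradient f z) =
        ∫ z in Metric.closedBall x r, inner ℝ e' (gradient f z) := by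
      rw [← integral_indicator Metric.isClosed_closedBall.measurableSet]
      congr 1
      funext z
      rw [Th_top hM]
      have : Cen.fld e' 0 0 (r⁻¹ • (z - x)) = e' := by simp [Cen.fld]
      rw [this]
      by_cases h0 : z ∈ Metric.closedBall x r
      · rw [indicator_of_mem h0, indicator_of_mem h0, one_mul]
      · rw [indicator_of_notMem h0, indicator_of_notMem h0, zero_mul]
    have h3 := change_eq (x := x) hd hI hf hc (hHr (M + 1)) e' (τ (M + 1)) 0 (N (M + 1)) 0
    have h4 : ∫ z, Th B x r (M + 1) z * inner ℝ (r⁻¹ • (z - x)) (gradient f z) = 0 := by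
      have h5 := dr_zero hI hf hc hmax hr h1 h2
      calc _ = ∫ z, r⁻¹ * (Metric.closedBall x r).indicator (fun z =>
            inner ℝ (z - x) (gradient f z)) z := by
            congr 1
            funext z
            rw [inner_w, Th_top hM]
            by_cases h0 : z ∈ Metric.closedBall x r
            · rw [indicator_of_mem h0, indicator_of_mem h0, one_mul]
            · rw [indicator_of_notMem h0, indicator_of_notMem h0, zero_mul, mul_zero]
        _ = 0 := by
            rw [integral_const_mul, integral_indicator Metric.isClosed_closedBall.measurableSet,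
              h5, mul_zero]
    rw [h4, mul_zero, h0] at h3
    exact (sub_eq_zero.1 h3).symm
  have hstep : ∀ m, a (m + 1) - a m =
      ((∫ z, (Th B x r (m + 1) z - Th B x r m z) *
            inner ℝ (Cen.fld e' (τ (m + 1)) (N (m + 1)) (r⁻¹ • (z - x))) (gradient f z)) +
        (τ (m + 1) - τ m) *
          ∫ z, Th B x r m z * inner ℝ (r⁻¹ • (z - x)) (gradient f z)) := by
    intro m
    have h3 := change_eq (x := x) hd hI hf hc (hHr m) e' (τ (m + 1)) (τ m) (N (m + 1)) (N m)
    have h4 : ∫ z, (Th B x r (m + 1) z - Th B x r m z) *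
            inner ℝ (Cen.fld e' (τ (m + 1)) (N (m + 1)) (r⁻¹ • (z - x))) (gradient f z) =
        a (m + 1) - ∫ z, Th B x r m z *
          inner ℝ (Cen.fld e' (τ (m + 1)) (N (m + 1)) (r⁻¹ • (z - x))) (gradient f z) := by
      simp only [ha]
      rw [← integral_sub (integrable_Th hd (hHr _) (continuous_fldw _ _ _ _ _) hg)
        (integrable_Th hd (hHr _) (continuous_fldw _ _ _ _ _) hg)]
      simp_rw [sub_mul]
    rw [← h3, h4]
    ring
  have hsum := Finset.sum_range_sub a (M + 1)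
  rw [htop]
  have : a (M + 1) = a 0 + ∑ m ∈ Finset.range (M + 1), (a (m + 1) - a m) := by
    rw [hsum]; ring
  rw [this]
  congr 1
  exact Finset.sum_congr rfl fun m _ => hstep m

end

/-! ### `nxt` -/

section
variable {S : Finset ℕ} {M : ℕ}

theorem nxt_nonempty {k : ℕ} (hk : k < M + 2) : {i | k < i ∧ (i ∈ S ∨ i = M + 2)}.Nonempty :=
  ⟨M + 2, hk, Or.inr rfl⟩

theorem nxt_spec {k : ℕ} (hk : k < M + 2) :
    k < nxt S M k ∧ (nxt S M k ∈ S ∨ nxt S M k = M + 2) := Nat.sInf_mem (nxt_nonempty hk)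

theorem nxt_le {k i : ℕ} (hk : k < i) (hi : i ∈ S ∨ i = M + 2) : nxt S M k ≤ i :=
  Nat.sInf_le ⟨hk, hi⟩

theorem pv_of_lt_nxt {k n : ℕ} (hk : k ∈ S) (hkn : k ≤ n) (hn : n < nxt S M k) :
    pv S n = k := by
  have h1 : pv S n ∈ S := pv_mem hk hkn
  have h2 : k ≤ pv S n := le_pv hk hkn
  by_contra hne
  have h3 : k < pv S n := lt_of_le_of_ne h2 (Ne.symm hne)
  have h4 := nxt_le (M := M) h3 (Or.inl h1)
  have h5 := pv_le S n
  omega

end

/-! ### Geometry of cells near the sphere -/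

section
variable {B : Blk d} {x : E d} {r : ℝ}

/-- smallness of the bands -/
structure Small (B : Blk d) (r : ℝ) : Prop where
  rad : B.rad r
  small : (2 + √d) * B.rho 0 ≤ kap d / 100
  val : B.valid 0
  s0 : 1 ≤ B.s0

theorem Small.rpos (h : Small B r) : 0 < r := by
  have := h.rad.1
  have h1 := kap_pos d
  have h2 := B.s_pos
  have : 0 < kap d * B.s / 2 := by positivity
  linarith

theorem Small.H_le (h : Small B r) {m : ℕ} (hm : B.valid m) :
    (2 + √d) * B.H m ≤ B.rho m * r / 8 := by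
  rw [B.H_eq hm]
  have h0 := B.rho_pos m
  have h1 := B.rho_le_one m
  have h2 : (2 + √d) * B.rho m ≤ kap d / 16 := by
    have : B.rho m ≤ B.rho 0 := B.rho_anti (Nat.zero_le m)
    have h3 : 0 ≤ 2 + √d := by positivity
    have h4 := (mul_le_mul_of_nonneg_left this h3).trans h.small
    linarith [kap_pos d]
  have h3 : B.rho m ^ 16 ≤ B.rho m * B.rho m := by
    have : B.rho m ^ 16 ≤ B.rho m ^ 2 := pow_le_pow_of_le_one h0.le h1 (by norm_num)
    rw [pow_two] at this
    exact this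
  have h4 := h.rad.1
  have hs := B.s_pos
  have h5 : 0 ≤ 2 + √d := by positivity
  calc (2 + √d) * (B.s * B.rho m ^ 16) ≤ (2 + √d) * (B.s * (B.rho m * B.rho m)) := by gcongr
    _ = ((2 + √d) * B.rho m) * (B.s * B.rho m) := by ring
    _ ≤ kap d / 16 * (B.s * B.rho m) := by gcongr
    _ = B.rho m * (kap d * B.s / 2) / 8 := by ring
    _ ≤ B.rho m * r / 8 := by gcongr

theorem Small.H_lt (h : Small B r) (m : ℕ) : B.H m < r := by
  have h1 := h.H_le h.val
  have h2 := B.H_anti (Nat.zero_le m)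
  have h3 := B.rho_le_one 0
  have h4 := h.rpos
  have h5 : 0 ≤ √(d : ℝ) := Real.sqrt_nonneg _
  have h6 := B.H_pos 0
  have h7 : B.rho 0 * r ≤ 1 * r := by gcongr
  nlinarith

theorem Small.pos_near (h : Small B r) {m : ℕ} (hm : B.valid m) {c : Lat d}
    (hc : c ∈ B.Sh m x r) : |‖B.pos m c - x‖ - r| ≤ B.rho m * r / 8 := by
  have h1 := (Finset.mem_filter.1 hc).2
  exact h1.trans (h.H_le hm)

theorem Small.w_le_two (h : Small B r) {m : ℕ} (hm : B.valid m) {c : Lat d}
    (hc : c ∈ B.Sh m x r) : ‖r⁻¹ • (B.pos m c - x)‖ ≤ 2 := by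
  have h1 := h.pos_near hm hc
  have hr := h.rpos
  rw [norm_smul, norm_inv, Real.norm_of_nonneg hr.le, inv_mul_le_iff₀ hr]
  have h2 := (abs_le.1 h1).2
  have h3 := B.rho_le_one m
  have h7 : B.rho m * r ≤ 1 * r := by gcongr
  linarith

/-- unit vector from `x` towards a point -/
noncomputable def uv (x y : E d) : E d := (‖y - x‖)⁻¹ • (y - x)

theorem norm_uv {y : E d} (h : 0 < ‖y - x‖) : ‖uv x y‖ = 1 := by
  unfold uv
  rw [norm_smul, norm_inv, norm_norm, inv_mul_cancel₀ h.ne']

theorem norm_uv_sub {y : E d} (h : 0 < ‖y - x‖) (r : ℝ) :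
    ‖(x + r • uv x y) - y‖ = |‖y - x‖ - r| := by
  have h1 : (x + r • uv x y) - y = (r - ‖y - x‖) • uv x y := by
    rw [sub_smul]
    have : ‖y - x‖ • uv x y = y - x := by
      unfold uv
      rw [smul_smul, mul_inv_cancel₀ h.ne', one_smul]
    rw [this]
    abel
  rw [h1, norm_smul, norm_uv h, mul_one, Real.norm_eq_abs, abs_sub_comm]

/-- distance in the rescaled picture -/
theorem norm_w_sub (hr : 0 < r) (z N : E d) :
    ‖r⁻¹ • (z - x) - N‖ = r⁻¹ * ‖z - (x + r • N)‖ := by
  have : r⁻¹ • (z - x) - N = r⁻¹ • (z - (x + r • N)) := by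
    rw [← sub_sub, smul_sub r⁻¹ (z - x) (r • N), smul_smul, inv_mul_cancel₀ hr.ne', one_smul]
  rw [this, norm_smul, norm_inv, Real.norm_of_nonneg hr.le]

end

/-! ### Bounds of the bad part sums -/

section
variable {B : Blk d} {x : E d} {r : ℝ}

theorem bad_crude (h : Small B r) {m : ℕ} (hm : B.valid m) {e' N : E d} {τ : ℝ}
    (he : ‖e'‖ = 1) (hN : ‖N‖ ≤ 1) (hτ : |τ| ≤ 1) (T : Finset (Lat d)) (hT : T ⊆ B.Sh m x r) :
    ∑ c ∈ T, (‖Cen.fld e' τ N (r⁻¹ • (B.pos m c - x))‖ + B.rho m) * B.MM m c ≤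
      8 * ∑ c ∈ T, B.MM m c := by
  rw [Finset.mul_sum]
  refine Finset.sum_le_sum fun c hc => ?_
  have h1 := h.w_le_two hm (hT hc)
  have h2 : ‖Cen.fld e' τ N (r⁻¹ • (B.pos m c - x))‖ ≤ 1 + 3 * ‖r⁻¹ • (B.pos m c - x)‖ :=
    norm_fld_le he hτ hN _
  have h3 := B.rho_le_one m
  have h4 := B.MM_nonneg m c
  have h5 : ‖Cen.fld e' τ N (r⁻¹ • (B.pos m c - x))‖ + B.rho m ≤ 8 := by linarith
  gcongr

theorem bad_good (h : Small B r) {m : ℕ} (hm : B.valid m) {e' N : E d}
    (he : ‖e'‖ = 1) (hN : ‖N‖ = 1) {c0 : Lat d} (hc0 : B.condB m x r c0)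
    (hlab : ‖(x + r • N) - B.pos m c0‖ ≤ 2 * (B.rho m * B.s)) :
    ∑ c ∈ B.Sh m x r, (‖Cen.fld e' (-inner ℝ e' N) N (r⁻¹ • (B.pos m c - x))‖ + B.rho m) *
      B.MM m c ≤ (18 / kap d + 9) * (B.rho m * B.b m x r) := by
  classical
  have hk := kap_pos d
  have hs := B.s_pos
  have hρ := B.rho_pos m
  have hr := h.rpos
  have hτ : |-(inner ℝ e' N : ℝ)| ≤ 1 := by
    rw [abs_neg]
    have := norm_inner_le_norm (𝕜 := ℝ) e' N
    rw [he, hN, Real.norm_eq_abs] at this
    simpa using this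
  set p : Lat d → Prop := fun c' => B.rho m * B.s / 16 < ‖B.pos m c' - B.pos m c0‖ with hp
  rw [← Finset.sum_filter_add_sum_filter_not (B.Sh m x r) p]
  have hfar : ∑ c ∈ (B.Sh m x r).filter p,
      (‖Cen.fld e' (-inner ℝ e' N) N (r⁻¹ • (B.pos m c - x))‖ + B.rho m) * B.MM m c ≤
      8 * (B.rho m * B.b m x r) := by
    refine (bad_crude h hm he hN.le hτ _ (Finset.filter_subset _ _)).trans ?_
    have := hc0.2
    gcongr
  have hnear : ∑ c ∈ (B.Sh m x r).filter (fun c => ¬ p c),
      (‖Cen.fld e' (-inner ℝ e' N) N (r⁻¹ • (B.pos m c - x))‖ + B.rho m) * B.MM m c ≤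
      (18 / kap d + 1) * B.rho m * B.b m x r := by
    have h1 : ∀ c ∈ (B.Sh m x r).filter (fun c => ¬ p c),
        (‖Cen.fld e' (-inner ℝ e' N) N (r⁻¹ • (B.pos m c - x))‖ + B.rho m) * B.MM m c ≤
        (18 / kap d + 1) * B.rho m * B.MM m c := by
      intro c hc
      rw [Finset.mem_filter] at hc
      have h2 : ‖B.pos m c - B.pos m c0‖ ≤ B.rho m * B.s / 16 := not_lt.1 hc.2
      have h3 : ‖Cen.fld e' (-inner ℝ e' N) N (r⁻¹ • (B.pos m c - x))‖ ≤
          3 * ‖r⁻¹ • (B.pos m c - x) - N‖ := norm_fld_label_le he hN _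
      have h4 : ‖B.pos m c - (x + r • N)‖ ≤ 3 * (B.rho m * B.s) := by
        calc ‖B.pos m c - (x + r • N)‖
            = ‖(B.pos m c - B.pos m c0) - ((x + r • N) - B.pos m c0)‖ := by congr 1; abel
          _ ≤ ‖B.pos m c - B.pos m c0‖ + ‖(x + r • N) - B.pos m c0‖ := norm_sub_le _ _
          _ ≤ 3 * (B.rho m * B.s) := by
              have : 0 < B.rho m * B.s := by positivity
              linarith
      rw [norm_w_sub hr] at h3
      have h5 : r⁻¹ * ‖B.pos m c - (x + r • N)‖ ≤ 6 / kap d * B.rho m := by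
        rw [inv_mul_le_iff₀ hr]
        have h6 := h.rad.1
        calc ‖B.pos m c - (x + r • N)‖ ≤ 3 * (B.rho m * B.s) := h4
          _ = (kap d * B.s / 2) * (6 / kap d * B.rho m) := by
              field_simp
              ring
          _ ≤ r * (6 / kap d * B.rho m) := by gcongr
      have h7 := B.MM_nonneg m c
      have h8 : ‖Cen.fld e' (-inner ℝ e' N) N (r⁻¹ • (B.pos m c - x))‖ + B.rho m ≤
          (18 / kap d + 1) * B.rho m := by
        have : (18 / kap d + 1) * B.rho m = 3 * (6 / kap d * B.rho m) + B.rho m := by ring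
        rw [this]
        linarith
      gcongr
    refine (Finset.sum_le_sum h1).trans ?_
    rw [← Finset.mul_sum]
    have h9 : ∑ c ∈ (B.Sh m x r).filter (fun c => ¬ p c), B.MM m c ≤ B.b m x r :=
      Finset.sum_le_sum_of_subset_of_nonneg (Finset.filter_subset _ _)
        fun c _ _ => B.MM_nonneg _ _
    have : 0 ≤ (18 / kap d + 1) * B.rho m := by positivity
    gcongr
  have : (18 / kap d + 9) * (B.rho m * B.b m x r) =
      8 * (B.rho m * B.b m x r) + (18 / kap d + 1) * B.rho m * B.b m x r := by ring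
  rw [this]
  exact add_le_add hfar hnear

end

/-! ### Cost of a change of label -/

section
variable {B : Blk d} {x : E d} {r : ℝ} {e : E d}

theorem integrable_xi (hd : 0 < d) {m : ℕ} (hHr : B.H m < r) {K : E d → E d}
    (hK : Continuous K) {g : E d → E d} (hg : Integrable g) :
    Integrable fun z => xi B x r m z * inner ℝ (K z) (g z) := by
  refine integrable_aux (A := 1) (R0 := r + B.H m) (x := x) (measurable_xi B x r m)
    (fun z => ?_) (fun z hz => ?_) hK hg
  · have := xi_bounds (x := x) hd hHr z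
    rw [abs_of_nonneg this.1]
    exact this.2
  · by_contra hcon
    have := xi_support hd hHr hcon
    have := (abs_le.1 this).2
    linarith

/-- lower bound of the good part of the hat term -/
theorem xi_gam_lb (hd : 0 < d) (h : Small B r) (hOK : B.OK e) {m : ℕ}
    {A : Set (E d)} (hA : MeasurableSet A)
    (hpt : ∀ z, |‖z - x‖ - r| ≤ B.H m → z ∉ A → 0 ≤ inner ℝ (r⁻¹ • (z - x)) (gam B.c0 z)) :
    -(2 * B.mass A) ≤ ∫ z, xi B x r m z * inner ℝ (r⁻¹ • (z - x)) (gam B.c0 z) := by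
  have hr := h.rpos
  have hHr := h.H_lt m
  have h1 : -(2 * B.mass A) = ∫ z, A.indicator (fun z => -(2 * ‖gam B.c0 z‖)) z := by
    rw [integral_indicator hA, integral_neg, integral_const_mul]
    rfl
  rw [h1]
  refine integral_mono ?_ (integrable_xi hd hHr (by fun_prop) (Blk.integrable_gam hOK)) fun z => ?_
  · exact (((Blk.integrable_gam hOK).norm.const_mul 2).neg).indicator hA
  · have hx := xi_bounds (x := x) hd hHr z
    by_cases hz : |‖z - x‖ - r| ≤ B.H m
    · by_cases hzA : z ∈ A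
      · simp only [indicator_of_mem hzA]
        have h2 : ‖r⁻¹ • (z - x)‖ ≤ 2 := by
          rw [norm_smul, norm_inv, Real.norm_of_nonneg hr.le, inv_mul_le_iff₀ hr]
          have := (abs_le.1 hz).2
          linarith
        have h3 := norm_inner_le_norm (𝕜 := ℝ) (r⁻¹ • (z - x)) (gam B.c0 z)
        rw [Real.norm_eq_abs] at h3
        have h4 : ‖r⁻¹ • (z - x)‖ * ‖gam B.c0 z‖ ≤ 2 * ‖gam B.c0 z‖ := by gcongr
        have h5 := neg_abs_le (inner ℝ (r⁻¹ • (z - x)) (gam B.c0 z) : ℝ)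
        have h6 : 0 ≤ 2 * ‖gam B.c0 z‖ := by positivity
        nlinarith
      · simp only [indicator_of_notMem hzA]
        exact mul_nonneg hx.1 (hpt z hz hzA)
    · have h0 : xi B x r m z = 0 := by
        by_contra hcon
        exact hz (xi_support hd hHr hcon)
      rw [h0, zero_mul]
      by_cases hzA : z ∈ A
      · simp only [indicator_of_mem hzA]
        have : 0 ≤ 2 * ‖gam B.c0 z‖ := by positivity
        linarith
      · simp only [indicator_of_notMem hzA]
        exact le_rfl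

theorem change_lb (hd : 0 < d) (hI : SpecId d) {f : E d → ℝ} (hf : ContDiff ℝ 1 f)
    (hc : HasCompactSupport f) {D0 R : ℝ} (hmax : MaxAt f x D0 R r)
    (h : Small B r) (hg : B.g = gradient f) (hOK : B.OK e)
    {m : ℕ} (hm : B.valid m) (hD : D0 + B.H m ≤ r) (hR : r + B.H m ≤ R) {CB : ℝ}
    (hCB : 0 < CB)
    (hxi : |∫ z, xi B x r m z * inner ℝ (r⁻¹ • (z - x)) (B.g z - gam B.c0 z)| ≤ CB * B.b m x r)
    {τ1 τ0 : ℝ} (hτ : |τ1 - τ0| ≤ 2) {A : Set (E d)} (hA : MeasurableSet A)
    (hpt : τ1 < τ0 → ∀ z, |‖z - x‖ - r| ≤ B.H m → z ∉ A →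
      0 ≤ inner ℝ (r⁻¹ • (z - x)) (gam B.c0 z)) :
    -(2 * (2 * B.mass A + CB * B.b m x r)) ≤
      (τ1 - τ0) * ∫ z, Th B x r m z * inner ℝ (r⁻¹ • (z - x)) (gradient f z) := by
  have hr := h.rpos
  have hHr := h.H_lt m
  have hmass : 0 ≤ B.mass A := Blk.mass_nonneg A
  have hb := B.b_nonneg m x r
  rcases le_or_gt τ0 τ1 with hle | hlt
  · have h1 := Q_nonneg hI hf hc hmax hm hHr hD
    have h2 : 0 ≤ (τ1 - τ0) * ∫ z, Th B x r m z * inner ℝ (r⁻¹ • (z - x)) (gradient f z) :=
      mul_nonneg (by linarith) h1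
    have h3 : 0 ≤ 2 * (2 * B.mass A + CB * B.b m x r) := by positivity
    linarith
  · have h1 := Q_le hd hI hf hc hmax hm hHr hR
    have h2 := xi_gam_lb hd h hOK hA (hpt hlt)
    have h3 : ∫ z, xi B x r m z * inner ℝ (r⁻¹ • (z - x)) (gradient f z) =
        (∫ z, xi B x r m z * inner ℝ (r⁻¹ • (z - x)) (B.g z - gam B.c0 z)) +
        ∫ z, xi B x r m z * inner ℝ (r⁻¹ • (z - x)) (gam B.c0 z) := by
      rw [← integral_add]
      · congr 1
        funext z
        rw [← hg, ← mul_add, ← inner_add_right, sub_add_cancel]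
      · exact integrable_xi hd hHr (by fun_prop) (hOK.g_int.sub (Blk.integrable_gam hOK))
      · exact integrable_xi hd hHr (by fun_prop) (Blk.integrable_gam hOK)
    have h4 := neg_abs_le (∫ z, xi B x r m z * inner ℝ (r⁻¹ • (z - x)) (B.g z - gam B.c0 z))
    have h5 : -(2 * B.mass A + CB * B.b m x r) ≤
        ∫ z, xi B x r m z * inner ℝ (r⁻¹ • (z - x)) (gradient f z) := by
      rw [h3]; linarith
    have h6 : 0 < τ0 - τ1 := by linarith
    have h7 : τ0 - τ1 ≤ 2 := by
      have := (abs_le.1 hτ).1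
      linarith
    have h8 : 0 ≤ 2 * B.mass A + CB * B.b m x r := by positivity
    set X := ∫ z, xi B x r m z * inner ℝ (r⁻¹ • (z - x)) (gradient f z)
    set Y := ∫ z, Th B x r m z * inner ℝ (r⁻¹ • (z - x)) (gradient f z)
    have h9 : (τ0 - τ1) * X ≤ (τ1 - τ0) * Y := by nlinarith
    have h10 : -(2 * (2 * B.mass A + CB * B.b m x r)) ≤ (τ0 - τ1) * X := by nlinarith
    linarith

end

/-! ### Assembly -/

section
variable {B : Blk d} {x : E d} {r : ℝ} {e : E d}

theorem assembly (hd : 0 < d) (hI : SpecId d) {f : E d → ℝ} (hf : ContDiff ℝ 1 f)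
    (hc : HasCompactSupport f) {D0 R : ℝ} (hmax : MaxAt f x D0 R r) (h1 : D0 < r) (h2 : r < R)
    (h : Small B r) (hg : B.g = gradient f) (hOK : B.OK e) {M : ℕ}
    (hM1 : ¬ B.valid (M + 1)) {S : Finset ℕ} (hS : ∀ k ∈ S, 1 ≤ k ∧ k ≤ M)
    {e' : E d} (τ : ℕ → ℝ) (N : ℕ → E d) (G C0 CB CS : ℝ)
    (hgood : G ≤ (∫ z, Th B x r 0 z * inner ℝ (Cen.fld e' (τ 0) (N 0) (r⁻¹ • (z - x)))
        (gam B.c0 z)) +
      ∑ m ∈ Finset.range (M + 1), ∫ z, (Th B x r (m + 1) z - Th B x r m z) *
        inner ℝ (Cen.fld e' (τ (m + 1)) (N (m + 1)) (r⁻¹ • (z - x))) (gam B.c0 z))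
    (hbad0 : |∫ z, Th B x r 0 z * inner ℝ (Cen.fld e' (τ 0) (N 0) (r⁻¹ • (z - x)))
      (B.g z - gam B.c0 z)| ≤ C0 * B.E0)
    (hbad : ∀ m ≤ M, |∫ z, (Th B x r (m + 1) z - Th B x r m z) *
        inner ℝ (Cen.fld e' (τ (m + 1)) (N (m + 1)) (r⁻¹ • (z - x))) (B.g z - gam B.c0 z)| ≤
      CB * (if m ∈ S then CS * (B.rho m * B.b m x r) else 8 * B.b m x r))
    (hchange : -(8 * ∑ k ∈ S, B.rho k * B.b k x r +
        2 * CB * ∑ m ∈ (Finset.range (M + 1)) \ S, B.b m x r) ≤
      ∑ m ∈ Finset.range (M + 1), (τ (m + 1) - τ m) *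
        ∫ z, Th B x r m z * inner ℝ (r⁻¹ • (z - x)) (gradient f z)) :
    G - (CB * CS + 8) * ∑ k ∈ S, B.rho k * B.b k x r -
      10 * CB * ∑ m ∈ (Finset.range (M + 1)) \ S, B.b m x r - C0 * B.E0 ≤
      ∫ z in Metric.closedBall x r, inner ℝ e' (B.g z) := by
  have hgi : Integrable (fun z => B.g z - gam B.c0 z) := hOK.g_int.sub (Blk.integrable_gam hOK)
  have hgam := Blk.integrable_gam hOK
  have htel := telescope (x := x) hd hI hf hc hmax h1 h2 h.H_lt hM1 e' τ N
  rw [← hg] at htel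
  rw [htel]
  have hs0 : ∫ z, Th B x r 0 z * inner ℝ (Cen.fld e' (τ 0) (N 0) (r⁻¹ • (z - x))) (B.g z) =
      (∫ z, Th B x r 0 z * inner ℝ (Cen.fld e' (τ 0) (N 0) (r⁻¹ • (z - x)))
        (B.g z - gam B.c0 z)) +
      ∫ z, Th B x r 0 z * inner ℝ (Cen.fld e' (τ 0) (N 0) (r⁻¹ • (z - x))) (gam B.c0 z) := by
    rw [← integral_add (integrable_Th hd (h.H_lt _) (continuous_fldw _ _ _ _ _) hgi)
      (integrable_Th hd (h.H_lt _) (continuous_fldw _ _ _ _ _) hgam)]
    congr 1
    funext z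
    rw [← mul_add, ← inner_add_right, sub_add_cancel]
  have hsm : ∀ m, ∫ z, (Th B x r (m + 1) z - Th B x r m z) *
        inner ℝ (Cen.fld e' (τ (m + 1)) (N (m + 1)) (r⁻¹ • (z - x))) (B.g z) =
      (∫ z, (Th B x r (m + 1) z - Th B x r m z) *
        inner ℝ (Cen.fld e' (τ (m + 1)) (N (m + 1)) (r⁻¹ • (z - x))) (B.g z - gam B.c0 z)) +
      ∫ z, (Th B x r (m + 1) z - Th B x r m z) *
        inner ℝ (Cen.fld e' (τ (m + 1)) (N (m + 1)) (r⁻¹ • (z - x))) (gam B.c0 z) := by
    intro m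
    rw [← integral_add
      (integrable_Th_sub hd (h.H_lt _) (h.H_lt _) (continuous_fldw _ _ _ _ _) hgi)
      (integrable_Th_sub hd (h.H_lt _) (h.H_lt _) (continuous_fldw _ _ _ _ _) hgam)]
    congr 1
    funext z
    rw [← mul_add, ← inner_add_right, sub_add_cancel]
  rw [hs0]
  simp_rw [hsm, hg] at *
  rw [Finset.sum_add_distrib, Finset.sum_add_distrib]
  have hb0 := neg_abs_le (∫ z, Th B x r 0 z * inner ℝ (Cen.fld e' (τ 0) (N 0) (r⁻¹ • (z - x)))
      (gradient f z - gam B.c0 z))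
  have hbs : -(CB * (CS * ∑ k ∈ S, B.rho k * B.b k x r +
      8 * ∑ m ∈ (Finset.range (M + 1)) \ S, B.b m x r)) ≤
      ∑ m ∈ Finset.range (M + 1), ∫ z, (Th B x r (m + 1) z - Th B x r m z) *
        inner ℝ (Cen.fld e' (τ (m + 1)) (N (m + 1)) (r⁻¹ • (z - x)))
          (gradient f z - gam B.c0 z) := by
    have hSsub : S ⊆ Finset.range (M + 1) := fun k hk => by
      have := hS k hk
      rw [Finset.mem_range]; omega
    have e1 : -(CB * (CS * ∑ k ∈ S, B.rho k * B.b k x r +
        8 * ∑ m ∈ (Finset.range (M + 1)) \ S, B.b m x r)) =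
        ∑ m ∈ Finset.range (M + 1),
          -(CB * (if m ∈ S then CS * (B.rho m * B.b m x r) else 8 * B.b m x r)) := by
      rw [Finset.sum_neg_distrib, ← Finset.mul_sum, Finset.sum_ite, Finset.mul_sum,
        Finset.mul_sum, Finset.filter_mem_eq_inter, Finset.inter_eq_right.2 hSsub,
        Finset.filter_notMem_eq_sdiff]
    rw [e1]
    refine Finset.sum_le_sum fun m hm => ?_
    have h3 := hbad m (by rw [Finset.mem_range] at hm; omega)
    have h4 := neg_abs_le (∫ z, (Th B x r (m + 1) z - Th B x r m z) *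
        inner ℝ (Cen.fld e' (τ (m + 1)) (N (m + 1)) (r⁻¹ • (z - x)))
          (gradient f z - gam B.c0 z))
    linarith
  linarith

end

/-! ### The labels -/

section
variable {B : Blk d} {x : E d} {r : ℝ} {e : E d}

/-- the far part of the shell of the band `k` -/
def farC (B : Blk d) (x : E d) (r : ℝ) (y : ℕ → Lat d) (k : ℕ) : Set (E d) :=
  {z | |‖z - x‖ - r| ≤ 2 * B.H (k - 1) ∧ B.rho k * B.s / 8 < ‖z - B.pos k (y k)‖}

theorem measurableSet_farC (B : Blk d) (x : E d) (r : ℝ) (y : ℕ → Lat d) (k : ℕ) :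
    MeasurableSet (farC B x r y k) := by
  have h1 : MeasurableSet {z : E d | |‖z - x‖ - r| ≤ 2 * B.H (k - 1)} :=
    (isClosed_le (by fun_prop) continuous_const).measurableSet
  have h2 : MeasurableSet {z : E d | B.rho k * B.s / 8 < ‖z - B.pos k (y k)‖} :=
    (isOpen_lt continuous_const (by fun_prop)).measurableSet
  exact h1.inter h2

theorem rho_lt_half (hs0 : 1 ≤ B.s0) {m n : ℕ} (h : m < n) : B.rho n ≤ B.rho m / 2 := by
  have h1 : B.rho n ≤ B.rho (m + 1) := B.rho_anti h
  rw [B.rho_succ] at h1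
  have h2 : B.rho m ≤ 1 / 2 := by
    refine (B.rho_le m).trans ?_
    calc (1 / 2 : ℝ) ^ B.s0 ≤ (1 / 2) ^ 1 :=
          pow_le_pow_of_le_one (by norm_num) (by norm_num) hs0
      _ = 1 / 2 := by norm_num
  have h3 := B.rho_nonneg m
  nlinarith

/-- the data of the labels -/
structure Lab (B : Blk d) (x : E d) (r : ℝ) (M : ℕ) (S : Finset ℕ) (y : ℕ → Lat d) (k1 : ℕ)
    (li : ℕ → ℕ) : Prop where
  sm : Small B r
  vM : B.valid M
  hS : ∀ k ∈ S, 1 ≤ k ∧ k ≤ M
  cB : ∀ k ∈ S, B.condB k x r (y k)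
  cC : ∀ k ∈ S, B.condC k x r (y k)
  adj : ∀ k ∈ S, k + 1 ∈ S →
    ‖B.pos k (y k) - B.pos (k + 1) (y (k + 1))‖ ≤ B.rho k * B.s / 4
  k1m : k1 ∈ S
  k1n : nxt S M 0 = k1
  li1 : ∀ n, k1 ≤ n → n ≤ M + 1 → li n ∈ S ∧ pv S n ≤ li n ∧
    dist (B.pos (pv S n) (y (pv S n))) (B.pos (li n) (y (li n))) ≤ B.rho (pv S n) * B.s
  li2 : ∀ n, k1 ≤ n → n ≤ M → dist (B.pos (pv S n) (y (pv S n)))
    (B.pos (pv S (n + 1)) (y (pv S (n + 1)))) ≤ B.rho (pv S n) * B.s / 2 → li n = li (n + 1)

variable {M : ℕ} {S : Finset ℕ} {y : ℕ → Lat d} {k1 : ℕ} {li : ℕ → ℕ}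

/-- the label vector -/
noncomputable def lv' (B : Blk d) (x : E d) (y : ℕ → Lat d) (j : ℕ) : E d :=
  uv x (B.pos j (y j))

namespace Lab

theorem val (L : Lab B x r M S y k1 li) {k : ℕ} (hk : k ∈ S) : B.valid k :=
  B.valid_anti (L.hS k hk).2 L.vM

theorem pos_gt (L : Lab B x r M S y k1 li) {k : ℕ} (hk : k ∈ S) :
    0 < ‖B.pos k (y k) - x‖ := by
  have h1 := L.sm.pos_near (L.val hk) (L.cB k hk).1
  have h2 := (abs_le.1 h1).1
  have h3 := B.rho_le_one k
  have h4 := L.sm.rpos
  have h5 : B.rho k * r ≤ 1 * r := by gcongr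
  linarith

theorem norm_lv (L : Lab B x r M S y k1 li) {k : ℕ} (hk : k ∈ S) : ‖lv' B x y k‖ = 1 :=
  norm_uv (L.pos_gt hk)

theorem le_of_mem (L : Lab B x r M S y k1 li) {k : ℕ} (hk : k ∈ S) : k1 ≤ k := by
  have h := nxt_le (M := M) (k := 0) (i := k) (S := S) (L.hS k hk).1 (Or.inl hk)
  rw [L.k1n] at h
  exact h

theorem near_pv (L : Lab B x r M S y k1 li) {n : ℕ} (hn : k1 ≤ n) (hn' : n ≤ M + 1) :
    ‖(x + r • lv' B x y (li n)) - B.pos (pv S n) (y (pv S n))‖ ≤
      5 / 4 * (B.rho (pv S n) * B.s) := by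
  obtain ⟨h1, h2, h3⟩ := L.li1 n hn hn'
  have h4 : ‖(x + r • lv' B x y (li n)) - B.pos (li n) (y (li n))‖ ≤ B.rho (li n) * r / 8 := by
    unfold lv'
    rw [norm_uv_sub (L.pos_gt h1)]
    exact L.sm.pos_near (L.val h1) (L.cB _ h1).1
  have h5 : B.rho (li n) * r / 8 ≤ B.rho (pv S n) * B.s / 4 := by
    have := B.rho_anti h2
    have h6 := L.sm.rad.2
    have h7 := B.rho_nonneg (li n)
    have h8 := B.s_pos
    calc B.rho (li n) * r / 8 ≤ B.rho (li n) * (2 * B.s) / 8 := by gcongr
      _ ≤ B.rho (pv S n) * (2 * B.s) / 8 := by gcongr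
      _ = B.rho (pv S n) * B.s / 4 := by ring
  rw [dist_eq_norm] at h3
  calc ‖(x + r • lv' B x y (li n)) - B.pos (pv S n) (y (pv S n))‖
      = ‖((x + r • lv' B x y (li n)) - B.pos (li n) (y (li n))) -
          (B.pos (pv S n) (y (pv S n)) - B.pos (li n) (y (li n)))‖ := by congr 1; abel
    _ ≤ ‖(x + r • lv' B x y (li n)) - B.pos (li n) (y (li n))‖ +
          ‖B.pos (pv S n) (y (pv S n)) - B.pos (li n) (y (li n))‖ := norm_sub_le _ _
    _ ≤ 5 / 4 * (B.rho (pv S n) * B.s) := by linarith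

/-- the label does not change if `n + 1` is not in `S` -/
theorem li_succ_of_notMem (L : Lab B x r M S y k1 li) {n : ℕ} (hn : k1 ≤ n) (hn' : n ≤ M)
    (h : n + 1 ∉ S) : li n = li (n + 1) := by
  refine L.li2 n hn hn' ?_
  rw [pv_succ_of_notMem h, dist_self]
  have := B.rho_nonneg (pv S n)
  have := B.s_pos
  positivity

/-- the label does not change at elements of `S` -/
theorem li_succ_of_mem (L : Lab B x r M S y k1 li) {n : ℕ} (hn : n ∈ S) :
    li n = li (n + 1) := by
  by_cases h : n + 1 ∈ S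
  · refine L.li2 n (L.le_of_mem hn) (L.hS n hn).2 ?_
    rw [pv_self hn, pv_self h, dist_eq_norm]
    have := L.adj n hn h
    have := B.rho_nonneg n
    have := B.s_pos
    have : 0 ≤ B.rho n * B.s := by positivity
    linarith
  · exact L.li_succ_of_notMem (L.le_of_mem hn) (L.hS n hn).2 h

theorem li_const (L : Lab B x r M S y k1 li) {k : ℕ} (hk : k ∈ S) {n : ℕ} (hkn : k ≤ n)
    (hn : n < nxt S M k) (hn' : n ≤ M + 1) : li n = li k := by
  induction n, hkn using Nat.le_induction with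
  | base => rfl
  | succ n hkn ih =>
    rw [← ih (by omega) (by omega)]
    refine (L.li_succ_of_notMem ((L.le_of_mem hk).trans hkn) (by omega) ?_).symm
    intro hmem
    have := nxt_le (M := M) (k := k) (i := n + 1) (S := S) (by omega) (Or.inl hmem)
    omega

/-- at a real change -/
theorem change_facts (L : Lab B x r M S y k1 li) {n : ℕ} (hn : k1 ≤ n) (hn' : n ≤ M)
    (h : li n ≠ li (n + 1)) : n ∉ S ∧ n + 1 ∈ S ∧
      B.rho (pv S n) * B.s / 2 <
        ‖B.pos (pv S n) (y (pv S n)) - B.pos (n + 1) (y (n + 1))‖ := by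
  have h1 : n ∉ S := fun hmem => h (L.li_succ_of_mem hmem)
  have h2 : n + 1 ∈ S := by
    by_contra hcon
    exact h (L.li_succ_of_notMem hn hn' hcon)
  refine ⟨h1, h2, ?_⟩
  by_contra hcon
  refine h (L.li2 n hn hn' ?_)
  rw [pv_self h2, dist_eq_norm]
  exact not_lt.1 hcon

theorem mass_farC_le (L : Lab B x r M S y k1 li) {k : ℕ} (hk : k ∈ S) :
    B.mass (farC B x r y k) ≤ B.rho k * B.b k x r := L.cC k hk

/-- cost of a change between two labels -/
theorem change_mass (L : Lab B x r M S y k1 li) (hOK : B.OK e) {n : ℕ} (hn : k1 ≤ n)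
    (hn' : n ≤ M) (h : li n ≠ li (n + 1)) :
    B.mass (farC B x r y (pv S n) ∪ farC B x r y (n + 1)) ≤
      B.rho (pv S n) * B.b (pv S n) x r + B.rho (n + 1) * B.b (n + 1) x r ∧
    ∀ z, |‖z - x‖ - r| ≤ B.H n → z ∈ farC B x r y (pv S n) ∪ farC B x r y (n + 1) := by
  obtain ⟨h1, h2, h3⟩ := L.change_facts hn hn' h
  have hpv : pv S n ∈ S := pv_mem L.k1m hn
  constructor
  · refine (Blk.mass_union_le hOK _ _ (measurableSet_farC B x r y (n + 1))).trans ?_
    exact add_le_add (L.mass_farC_le hpv) (L.mass_farC_le h2)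
  · intro z hz
    have hH := B.H_pos n
    by_cases hz1 : z ∈ farC B x r y (pv S n)
    · exact Or.inl hz1
    · right
      have hH1 : B.H n ≤ B.H (pv S n - 1) := B.H_anti (by have := pv_le S n; omega)
      have h4 : ‖z - B.pos (pv S n) (y (pv S n))‖ ≤ B.rho (pv S n) * B.s / 8 := by
        by_contra hcon
        exact hz1 ⟨by linarith, not_le.1 hcon⟩
      refine ⟨by rw [Nat.add_sub_cancel]; linarith, ?_⟩
      by_contra hcon
      rw [not_lt] at hcon
      have h5 : B.rho (n + 1) ≤ B.rho (pv S n) / 2 :=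
        rho_lt_half L.sm.s0 (Nat.lt_succ_of_le (pv_le S n))
      have h6 : ‖B.pos (pv S n) (y (pv S n)) - B.pos (n + 1) (y (n + 1))‖ ≤
          ‖z - B.pos (n + 1) (y (n + 1))‖ + ‖z - B.pos (pv S n) (y (pv S n))‖ := by
        calc ‖B.pos (pv S n) (y (pv S n)) - B.pos (n + 1) (y (n + 1))‖
            = ‖(z - B.pos (n + 1) (y (n + 1))) - (z - B.pos (pv S n) (y (pv S n)))‖ := by
              congr 1; abel
          _ ≤ _ := norm_sub_le _ _
      have hs := B.s_pos
      have hρ := B.rho_pos (pv S n)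
      have h7 : 0 < B.rho (pv S n) * B.s := by positivity
      nlinarith

/-- positivity near the first label when the label is on the far side of the cone -/
theorem bulk_change (L : Lab B x r M S y k1 li) (hOK : B.OK e) {e' : E d} (he' : ‖e'‖ = 1)
    (hee : ‖e' - e‖ ≤ 1 / 50) (hτ : 7 / 10 ≤ (inner ℝ e' (lv' B x y (li k1)) : ℝ)) :
    ∀ z, |‖z - x‖ - r| ≤ B.H (k1 - 1) → z ∉ farC B x r y k1 →
      0 ≤ inner ℝ (r⁻¹ • (z - x)) (gam B.c0 z) := by
  intro z hz hzf
  have hr := L.sm.rpos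
  have hs := B.s_pos
  have hk := kap_pos d
  have hρ := B.rho_pos k1
  have h1 : ‖z - B.pos k1 (y k1)‖ ≤ B.rho k1 * B.s / 8 := by
    by_contra hcon
    refine hzf ⟨?_, not_le.1 hcon⟩
    have := B.H_pos (k1 - 1)
    linarith
  have hkM : k1 ≤ M + 1 := by have := (L.hS _ L.k1m).2; omega
  have h2 := L.near_pv (le_refl k1) hkM
  rw [pv_self L.k1m] at h2
  set N := lv' B x y (li k1) with hN
  have hN1 : ‖N‖ = 1 := L.norm_lv (L.li1 k1 le_rfl hkM).1
  have h3 : ‖z - (x + r • N)‖ ≤ 2 * (B.rho k1 * B.s) := by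
    calc ‖z - (x + r • N)‖ = ‖(z - B.pos k1 (y k1)) - ((x + r • N) - B.pos k1 (y k1))‖ := by
          congr 1; abel
      _ ≤ ‖z - B.pos k1 (y k1)‖ + ‖(x + r • N) - B.pos k1 (y k1)‖ := norm_sub_le _ _
      _ ≤ 2 * (B.rho k1 * B.s) := by
          have : 0 < B.rho k1 * B.s := by positivity
          linarith
  have h4 : ‖r⁻¹ • (z - x) - N‖ ≤ 1 / 10 := by
    rw [norm_w_sub hr, inv_mul_le_iff₀ hr]
    have h5 := L.sm.rad.1
    have h6 : B.rho k1 ≤ kap d / 200 := by
      have h7 : B.rho k1 ≤ B.rho 0 := B.rho_anti (Nat.zero_le _)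
      have h8 := L.sm.small
      have h9 : 0 ≤ √(d : ℝ) := Real.sqrt_nonneg _
      have h10 := B.rho_pos 0
      nlinarith
    calc ‖z - (x + r • N)‖ ≤ 2 * (B.rho k1 * B.s) := h3
      _ ≤ 2 * (kap d / 200 * B.s) := by gcongr
      _ ≤ (kap d * B.s / 2) * (1 / 10) := by nlinarith [mul_pos hk hs]
      _ ≤ r * (1 / 10) := by gcongr
  have h5 := angle_lemma he' hN1 hτ (v := gam B.c0 z) (by
    have := Blk.gam_cone hOK he' hee z
    linarith)
  have h6 : (inner ℝ (r⁻¹ • (z - x)) (gam B.c0 z) : ℝ) =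
      inner ℝ N (gam B.c0 z) + inner ℝ (r⁻¹ • (z - x) - N) (gam B.c0 z) := by
    rw [← inner_add_left]
    congr 1
    abel
  have h7 := norm_inner_le_norm (𝕜 := ℝ) (r⁻¹ • (z - x) - N) (gam B.c0 z)
  rw [Real.norm_eq_abs] at h7
  have h8 : ‖r⁻¹ • (z - x) - N‖ * ‖gam B.c0 z‖ ≤ 1 / 10 * ‖gam B.c0 z‖ := by gcongr
  have h9 := neg_abs_le (inner ℝ (r⁻¹ • (z - x) - N) (gam B.c0 z) : ℝ)
  rw [h6]
  linarith

end Lab

end

/-! ### Final step -/

section
variable {B : Blk d} {x : E d} {r : ℝ} {e : E d}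
variable {M : ℕ} {S : Finset ℕ} {y : ℕ → Lat d} {k1 : ℕ} {li : ℕ → ℕ}

open Classical in
/-- field parameter `τ` -/
noncomputable def ts (B : Blk d) (x : E d) (e' : E d) (y : ℕ → Lat d) (k1 : ℕ) (li : ℕ → ℕ)
    (n : ℕ) : ℝ :=
  if n < k1 then max (-(7 / 10)) (min (7 / 10) (-inner ℝ e' (lv' B x y (li k1))))
  else -inner ℝ e' (lv' B x y (li n))

open Classical in
/-- field parameter `N` -/
noncomputable def Ns (B : Blk d) (x : E d) (y : ℕ → Lat d) (k1 : ℕ) (li : ℕ → ℕ) (n : ℕ) : E d :=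
  if n < k1 then 0 else lv' B x y (li n)

theorem abs_clamp (t : ℝ) : |max (-(7 / 10)) (min (7 / 10) t)| ≤ (7 / 10 : ℝ) := by
  rw [abs_le]
  constructor
  · exact le_max_left _ _
  · exact max_le (by norm_num) (min_le_left _ _)

theorem abs_inner_le {e' N : E d} (he' : ‖e'‖ = 1) (hN : ‖N‖ = 1) :
    |-(inner ℝ e' N : ℝ)| ≤ 1 := by
  rw [abs_neg]
  have := norm_inner_le_norm (𝕜 := ℝ) e' N
  rw [he', hN, Real.norm_eq_abs] at this
  simpa using this

namespace Lab

theorem abs_ts (L : Lab B x r M S y k1 li) {e' : E d} (he' : ‖e'‖ = 1) {n : ℕ}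
    (hn : n ≤ M + 1) : |ts B x e' y k1 li n| ≤ 1 := by
  unfold ts
  split_ifs with h
  · exact (abs_clamp _).trans (by norm_num)
  · exact abs_inner_le he' (L.norm_lv (L.li1 n (by omega) hn).1)

theorem norm_Ns (L : Lab B x r M S y k1 li) {n : ℕ} (hn : n ≤ M + 1) :
    ‖Ns B x y k1 li n‖ ≤ 1 := by
  unfold Ns
  split_ifs with h
  · rw [norm_zero]; exact zero_le_one
  · exact (L.norm_lv (L.li1 n (by omega) hn).1).le

/-- sum of the costs of the changes -/
theorem change_sum (L : Lab B x r M S y k1 li) (hd : 0 < d) (hI : SpecId d) {f : E d → ℝ}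
    (hf : ContDiff ℝ 1 f) (hc : HasCompactSupport f) {D0 R : ℝ} (hmax : MaxAt f x D0 R r)
    (hg : B.g = gradient f) (hOK : B.OK e) {e' : E d} (he' : ‖e'‖ = 1) (hee : ‖e' - e‖ ≤ 1 / 50)
    (hD : ∀ k ∈ S, B.condD k D0 R r) {CB : ℝ} (hCB : 0 < CB)
    (hxi : ∀ m ≤ M, |∫ z, xi B x r m z * inner ℝ (r⁻¹ • (z - x)) (B.g z - gam B.c0 z)| ≤
      CB * B.b m x r) :
    -(8 * ∑ k ∈ S, B.rho k * B.b k x r +
        2 * CB * ∑ m ∈ (Finset.range (M + 1)) \ S, B.b m x r) ≤
      ∑ m ∈ Finset.range (M + 1), (ts B x e' y k1 li (m + 1) - ts B x e' y k1 li m) *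
        ∫ z, Th B x r m z * inner ℝ (r⁻¹ • (z - x)) (gradient f z) := by
  classical
  set F : ℕ → ℝ := fun k => B.rho k * B.b k x r with hF
  have hF0 : ∀ k, 0 ≤ F k := fun k => mul_nonneg (B.rho_nonneg k) (B.b_nonneg k x r)
  set c1 : ℕ → ℝ := fun m => if m ∉ S ∧ m + 1 ∈ S then 4 * F (m + 1) else 0 with hc1
  set c2 : ℕ → ℝ := fun m => if k1 ≤ m ∧ m ∉ S ∧ m + 1 ∈ S then 4 * F (pv S m) else 0 with hc2
  set c3 : ℕ → ℝ := fun m => if m ∈ S then 0 else 2 * CB * B.b m x r with hc3
  have c1n : ∀ m, 0 ≤ c1 m := fun m => by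
    simp only [hc1]; split_ifs
    · have := hF0 (m + 1); positivity
    · exact le_rfl
  have c2n : ∀ m, 0 ≤ c2 m := fun m => by
    simp only [hc2]; split_ifs
    · have := hF0 (pv S m); positivity
    · exact le_rfl
  have c3n : ∀ m, 0 ≤ c3 m := fun m => by
    simp only [hc3]; split_ifs
    · exact le_rfl
    · have := B.b_nonneg m x r; positivity
  have hk1M := (L.hS _ L.k1m)
  -- pointwise
  have hpt : ∀ m ∈ Finset.range (M + 1), -(c1 m + c2 m + c3 m) ≤
      (ts B x e' y k1 li (m + 1) - ts B x e' y k1 li m) *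
        ∫ z, Th B x r m z * inner ℝ (r⁻¹ • (z - x)) (gradient f z) := by
    intro m hm
    rw [Finset.mem_range] at hm
    have hmM : m ≤ M := by omega
    have hval : B.valid m := B.valid_anti hmM L.vM
    have hcn : 0 ≤ c1 m + c2 m + c3 m := by
      have := c1n m; have := c2n m; have := c3n m; linarith
    have hzero : ts B x e' y k1 li (m + 1) = ts B x e' y k1 li m →
        -(c1 m + c2 m + c3 m) ≤ (ts B x e' y k1 li (m + 1) - ts B x e' y k1 li m) *
        ∫ z, Th B x r m z * inner ℝ (r⁻¹ • (z - x)) (gradient f z) := by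
      intro h0
      rw [h0, sub_self, zero_mul]
      linarith
    have hts2 : |ts B x e' y k1 li (m + 1) - ts B x e' y k1 li m| ≤ 2 := by
      have h1 := L.abs_ts he' (n := m + 1) (by omega)
      have h2 := L.abs_ts he' (n := m) (by omega)
      rw [abs_le] at *
      constructor <;> linarith [h1.1, h1.2, h2.1, h2.2]
    rcases lt_trichotomy (m + 1) k1 with hlt | heq | hgt
    · apply hzero
      unfold ts
      rw [if_pos hlt, if_pos (by omega)]
    · -- bulk to first label
      have hmS : m ∉ S := fun hmem => by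
        have := L.le_of_mem hmem
        omega
      have hm1S : m + 1 ∈ S := by rw [heq]; exact L.k1m
      have hDk := hD (m + 1) hm1S
      unfold Blk.condD at hDk
      rw [Nat.add_sub_cancel] at hDk
      have hH := B.H_pos m
      have hval1 : ts B x e' y k1 li (m + 1) = -inner ℝ e' (lv' B x y (li k1)) := by
        unfold ts
        rw [if_neg (by omega), heq]
      have hval0 : ts B x e' y k1 li m =
          max (-(7 / 10)) (min (7 / 10) (-inner ℝ e' (lv' B x y (li k1)))) := by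
        unfold ts
        rw [if_pos (by omega)]
      have hA := change_lb hd hI hf hc hmax L.sm hg hOK hval (by linarith [hDk.1])
        (by linarith [hDk.2]) hCB (hxi m hmM) hts2 (measurableSet_farC B x r y k1) ?_
      · have h1 := L.mass_farC_le L.k1m
        have h2 : c1 m = 4 * F k1 := by
          simp only [hc1]
          rw [if_pos ⟨hmS, hm1S⟩, heq]
        have h3 : c3 m = 2 * CB * B.b m x r := by
          simp only [hc3]
          rw [if_neg hmS]
        have h4 := c2n m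
        have h5 : F k1 = B.rho k1 * B.b k1 x r := rfl
        rw [h2, h3]
        linarith
      · intro hlt'
        have hbig : 7 / 10 ≤ (inner ℝ e' (lv' B x y (li k1)) : ℝ) := by
          rw [hval1, hval0] at hlt'
          by_contra hcon
          rw [not_le] at hcon
          rcases lt_max_iff.1 hlt' with h5 | h5
          · linarith
          · have := min_le_right (7 / 10 : ℝ) (-inner ℝ e' (lv' B x y (li k1)))
            linarith
        have hb := L.bulk_change hOK he' hee hbig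
        have : k1 - 1 = m := by omega
        rw [this] at hb
        exact hb
    · have hk1m : k1 ≤ m := by omega
      by_cases hli : li m = li (m + 1)
      · apply hzero
        unfold ts
        rw [if_neg (by omega), if_neg (by omega), hli]
      · obtain ⟨hmS, hm1S, -⟩ := L.change_facts hk1m hmM hli
        obtain ⟨hmass, hall⟩ := L.change_mass hOK hk1m hmM hli
        have hDk := hD (m + 1) hm1S
        unfold Blk.condD at hDk
        rw [Nat.add_sub_cancel] at hDk
        have hH := B.H_pos m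
        have hA := change_lb hd hI hf hc hmax L.sm hg hOK hval (by linarith [hDk.1])
          (by linarith [hDk.2]) hCB (hxi m hmM) hts2
          ((measurableSet_farC B x r y (pv S m)).union (measurableSet_farC B x r y (m + 1)))
          (fun _ z hz hzA => absurd (hall z hz) hzA)
        have h2 : c1 m = 4 * F (m + 1) := by
          simp only [hc1]
          rw [if_pos ⟨hmS, hm1S⟩]
        have h3 : c3 m = 2 * CB * B.b m x r := by
          simp only [hc3]
          rw [if_neg hmS]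
        have h4 : c2 m = 4 * F (pv S m) := by
          simp only [hc2]
          rw [if_pos ⟨hk1m, hmS, hm1S⟩]
        have h5 : F (m + 1) = B.rho (m + 1) * B.b (m + 1) x r := rfl
        have h6 : F (pv S m) = B.rho (pv S m) * B.b (pv S m) x r := rfl
        rw [h2, h3, h4]
        linarith
  -- sums
  have hs1 : ∑ m ∈ Finset.range (M + 1), c1 m ≤ 4 * ∑ k ∈ S, F k := by
    simp only [hc1]
    rw [← Finset.sum_filter]
    rw [Finset.mul_sum]
    have hinj : Set.InjOn (fun m : ℕ => m + 1)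
        ↑((Finset.range (M + 1)).filter (fun m => m ∉ S ∧ m + 1 ∈ S)) :=
      fun a _ b _ hab => by simpa using hab
    have h1 : ∑ m ∈ (Finset.range (M + 1)).filter (fun m => m ∉ S ∧ m + 1 ∈ S), 4 * F (m + 1) =
        ∑ k ∈ ((Finset.range (M + 1)).filter (fun m => m ∉ S ∧ m + 1 ∈ S)).image
          (fun m => m + 1), 4 * F k := (Finset.sum_image (f := fun k => 4 * F k) hinj).symm
    rw [h1]
    refine Finset.sum_le_sum_of_subset_of_nonneg ?_ fun k _ _ => by
      have := hF0 k; positivity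
    intro k hk
    rw [Finset.mem_image] at hk
    obtain ⟨m, hm, rfl⟩ := hk
    exact (Finset.mem_filter.1 hm).2.2
  have hs2 : ∑ m ∈ Finset.range (M + 1), c2 m ≤ 4 * ∑ k ∈ S, F k := by
    simp only [hc2]
    rw [← Finset.sum_filter]
    rw [Finset.mul_sum]
    set T := (Finset.range (M + 1)).filter (fun m => k1 ≤ m ∧ m ∉ S ∧ m + 1 ∈ S) with hT
    have hinj : Set.InjOn (fun m : ℕ => pv S m) ↑T := by
      have key : ∀ a ∈ T, ∀ b ∈ T, a < b → pv S a ≠ pv S b := by
        intro a ha b hb hab heq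
        have ha' := (Finset.mem_filter.1 ha).2
        have h1 : a + 1 ≤ pv S b := le_pv ha'.2.2 (by omega)
        have h2 := pv_le S a
        omega
      intro a ha b hb hab
      rcases lt_trichotomy a b with h | h | h
      · exact absurd hab (key a ha b hb h)
      · exact h
      · exact absurd hab.symm (key b hb a ha h)
    have h1 : ∑ m ∈ T, 4 * F (pv S m) = ∑ k ∈ T.image (fun m => pv S m), 4 * F k :=
      (Finset.sum_image (f := fun k => 4 * F k) hinj).symm
    rw [h1]
    refine Finset.sum_le_sum_of_subset_of_nonneg ?_ fun k _ _ => by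
      have := hF0 k; positivity
    intro k hk
    rw [Finset.mem_image] at hk
    obtain ⟨m, hm, rfl⟩ := hk
    exact pv_mem L.k1m (Finset.mem_filter.1 hm).2.1
  have hs3 : ∑ m ∈ Finset.range (M + 1), c3 m =
      2 * CB * ∑ m ∈ (Finset.range (M + 1)) \ S, B.b m x r := by
    simp only [hc3]
    rw [Finset.sum_ite, Finset.sum_const_zero, zero_add, Finset.filter_notMem_eq_sdiff,
      Finset.mul_sum]
  have hsum := Finset.sum_le_sum hpt
  rw [Finset.sum_neg_distrib, Finset.sum_add_distrib, Finset.sum_add_distrib, hs3] at hsum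
  have h8 : ∑ k ∈ S, F k = ∑ k ∈ S, B.rho k * B.b k x r := rfl
  rw [← h8]
  linarith

end Lab

end

end PW1

open PW1 in
theorem pw1 (hd : 0 < d) (hG : SpecGood d) (hB : SpecBad d) (hI : SpecId d) : SpecPW1 d := by
  classical
  obtain ⟨CG, cG, SG, hCG, hcG, hG⟩ := hG
  obtain ⟨CB, SB, hCB, hB⟩ := hB
  have hk := kap_pos d
  obtain ⟨S1, hS1⟩ : ∃ S1 : ℕ, (2 + √d) * (1 / 2 : ℝ) ^ S1 ≤ kap d / 100 := by
    have h2 : 0 < 2 + √(d : ℝ) := by positivity
    obtain ⟨n, hn⟩ := exists_pow_lt_of_lt_one (x := kap d / 100 / (2 + √d)) (y := (1 / 2 : ℝ))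
      (by positivity) (by norm_num)
    refine ⟨n, ?_⟩
    rw [lt_div_iff₀ h2] at hn
    linarith
  refine ⟨CG + (CB * (18 / kap d + 9) + 8) + 10 * CB, cG, max (max SG SB) (max S1 1), by positivity,
    hcG, ?_⟩
  intro s0 hs0
  have hs0G : SG ≤ s0 := le_trans (by simp) hs0
  have hs0B : SB ≤ s0 := le_trans (by simp) hs0
  have hs01 : S1 ≤ s0 := le_trans (by simp) hs0
  have hs0' : 1 ≤ s0 := le_trans (by simp) hs0
  obtain ⟨C0, hC0, hB⟩ := hB s0 hs0B
  refine ⟨C0, hC0, ?_⟩
  intro f hf hc B e e' hBs hg hOK he' hee M hM hM1 x D0 R r hnear hrad hmax h1 h2 S hS y hy hadj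
  have hv0 : B.valid 0 := B.valid_anti (Nat.zero_le _) hM
  have hsm : Small B r := by
    refine ⟨hrad, ?_, hv0, hBs ▸ hs0'⟩
    have h3 : B.rho 0 ≤ (1 / 2) ^ B.s0 := B.rho_le 0
    have h4 : (1 / 2 : ℝ) ^ B.s0 ≤ (1 / 2) ^ S1 :=
      pow_le_pow_of_le_one (by norm_num) (by norm_num) (hBs ▸ hs01)
    have h5 : 0 ≤ 2 + √(d : ℝ) := by positivity
    calc (2 + √d) * B.rho 0 ≤ (2 + √d) * (1 / 2 : ℝ) ^ S1 := by
          gcongr; exact h3.trans h4
      _ ≤ kap d / 100 := hS1
  have hbound : ∀ m ≤ M, B.valid m := fun m hm => B.valid_anti hm hM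
  have hBB := fun (N : E d) (τ : ℝ) (hN : ‖N‖ ≤ 1) (hτ : |τ| ≤ 1) =>
    hB B e hBs hOK hv0 x r hnear hrad e' N τ he'.le hN hτ
  have hxi : ∀ m ≤ M, |∫ z, xi B x r m z * inner ℝ (r⁻¹ • (z - x)) (B.g z - gam B.c0 z)| ≤
      CB * B.b m x r := fun m hm =>
    (hBB 0 0 (by simp) (by simp)).2.1 m (hbound m hm)
  have hbnn : ∀ m, 0 ≤ B.b m x r := fun m => B.b_nonneg m x r
  have hsumS : 0 ≤ ∑ k ∈ S, B.rho k * B.b k x r :=
    Finset.sum_nonneg fun k _ => mul_nonneg (B.rho_nonneg k) (hbnn k)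
  have hsumN : 0 ≤ ∑ m ∈ (Finset.range (M + 1)) \ S, B.b m x r :=
    Finset.sum_nonneg fun m _ => hbnn m
  have hsumI : 0 ≤ ∑ k ∈ S, B.rho k * B.In x r (nxt S M k - 1) :=
    Finset.sum_nonneg fun k _ => mul_nonneg (B.rho_nonneg k) (Blk.In_nonneg _ _ _)
  -- final combination from the assembly
  have hfinal : ∀ (τ : ℕ → ℝ) (N : ℕ → E d),
      (∀ n ≤ M + 1, |τ n| ≤ 1) → (∀ n ≤ M + 1, ‖N n‖ ≤ 1) →
      (cG * B.In x r (nxt S M 0 - 1) - CG * (∑ k ∈ S, B.rho k * B.b k x r +
        ∑ k ∈ S, B.rho k * B.In x r (nxt S M k - 1)) ≤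
        (∫ z, Th B x r 0 z * inner ℝ (fld e' (τ 0) (N 0) (r⁻¹ • (z - x))) (gam B.c0 z)) +
        ∑ m ∈ Finset.range (M + 1), ∫ z, (Th B x r (m + 1) z - Th B x r m z) *
          inner ℝ (fld e' (τ (m + 1)) (N (m + 1)) (r⁻¹ • (z - x))) (gam B.c0 z)) →
      (∀ m ∈ S, ∑ c ∈ B.Sh m x r,
        (‖fld e' (τ (m + 1)) (N (m + 1)) (r⁻¹ • (B.pos m c - x))‖ + B.rho m) * B.MM m c ≤
          (18 / kap d + 9) * (B.rho m * B.b m x r)) →
      (-(8 * ∑ k ∈ S, B.rho k * B.b k x r +
        2 * CB * ∑ m ∈ (Finset.range (M + 1)) \ S, B.b m x r) ≤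
        ∑ m ∈ Finset.range (M + 1), (τ (m + 1) - τ m) *
          ∫ z, Th B x r m z * inner ℝ (r⁻¹ • (z - x)) (gradient f z)) →
      cG * B.In x r (nxt S M 0 - 1) - (CG + (CB * (18 / kap d + 9) + 8) + 10 * CB) *
        (∑ k ∈ S, B.rho k * B.b k x r +
        ∑ m ∈ (Finset.range (M + 1)) \ S, B.b m x r +
        ∑ k ∈ S, B.rho k * B.In x r (nxt S M k - 1)) - C0 * B.E0 ≤
      ∫ z in Metric.closedBall x r, inner ℝ e' (B.g z) := by
    intro τ N hτ hN hgood hbadS hchange
    have hbad : ∀ m ≤ M, |∫ z, (Th B x r (m + 1) z - Th B x r m z) *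
        inner ℝ (fld e' (τ (m + 1)) (N (m + 1)) (r⁻¹ • (z - x))) (B.g z - gam B.c0 z)| ≤
        CB * (if m ∈ S then (18 / kap d + 9) * (B.rho m * B.b m x r) else 8 * B.b m x r) := by
      intro m hm
      refine ((hBB (N (m + 1)) (τ (m + 1)) (hN _ (by omega)) (hτ _ (by omega))).1 m
        (hbound m hm)).trans ?_
      refine mul_le_mul_of_nonneg_left ?_ hCB.le
      split_ifs with hmS
      · exact hbadS m hmS
      · exact bad_crude hsm (hbound m hm) he' (hN _ (by omega)) (hτ _ (by omega)) _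
          (Finset.Subset.refl _)
    have hA := assembly hd hI hf hc hmax h1 h2 hsm hg hOK hM1 hS τ N _ C0 CB (18 / kap d + 9)
      hgood (hBB (N 0) (τ 0) (hN _ (by omega)) (hτ _ (by omega))).2.2 hbad hchange
    refine le_trans ?_ hA
    have hX : 0 ≤ (CB * (18 / kap d + 9) + 8) + 10 * CB := by positivity
    have e1 : 0 ≤ ((CB * (18 / kap d + 9) + 8) + 10 * CB) *
        ∑ k ∈ S, B.rho k * B.In x r (nxt S M k - 1) := mul_nonneg hX hsumI
    have e2 : 0 ≤ (CG + (CB * (18 / kap d + 9) + 8)) *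
        ∑ m ∈ (Finset.range (M + 1)) \ S, B.b m x r := by positivity
    have e3 : 0 ≤ 10 * CB * ∑ k ∈ S, B.rho k * B.b k x r := by positivity
    nlinarith
  have hGG := hG B e e' (hBs ▸ hs0G) hOK he' hee M hM hM1 x r hnear hrad S hS y
    (fun k hk => ⟨(hy k hk).1, (hy k hk).2.1⟩)
  rcases S.eq_empty_or_nonempty with hemp | hne
  · -- no good band
    have hnx : ∀ k, nxt S M k = sInf {i | k < i ∧ i = M + 2} := by
      intro k
      unfold nxt
      rw [hemp]
      simp
    have hgood := hGG (fun _ => 0) (by rw [hemp]; simp) (by rw [hemp]; simp) 0 (by norm_num)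
      (fun _ => 0) (fun _ => 0) (fun _ _ => ⟨rfl, rfl⟩) (by rw [hemp]; simp)
    refine hfinal (fun _ => 0) (fun _ => 0) (by simp) (by simp) hgood (by rw [hemp]; simp) ?_
    simp only [sub_self, zero_mul, Finset.sum_const_zero]
    have : 0 ≤ 8 * ∑ k ∈ S, B.rho k * B.b k x r +
        2 * CB * ∑ m ∈ (Finset.range (M + 1)) \ S, B.b m x r := by positivity
    linarith
  · -- at least one good band
    obtain ⟨kk, hkk⟩ := hne
    have hnxs := nxt_spec (S := S) (M := M) (k := 0) (by omega)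
    have hnxl := nxt_le (S := S) (M := M) (k := 0) (i := kk) (hS kk hkk).1 (Or.inl hkk)
    have hk1S : nxt S M 0 ∈ S := by
      rcases hnxs.2 with h | h
      · exact h
      · have := (hS kk hkk).2
        omega
    set k1 := nxt S M 0 with hk1
    obtain ⟨li, hli1, hli2⟩ := exists_labels (M := M) hk1S (fun k => B.pos k (y k)) (ρ := B.rho)
      (s := B.s) B.s_pos B.rho_nonneg (fun m n hmn => rho_lt_half hsm.s0 hmn)
    have L : Lab B x r M S y k1 li :=
      { sm := hsm
        vM := hM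
        hS := hS
        cB := fun k hk => (hy k hk).1
        cC := fun k hk => (hy k hk).2.1
        adj := hadj
        k1m := hk1S
        k1n := hk1.symm
        li1 := hli1
        li2 := hli2 }
    have hgood := hGG (fun k => lv' B x y (li k)) ?_ ?_
      (max (-(7 / 10)) (min (7 / 10) (-inner ℝ e' (lv' B x y (li k1))))) (abs_clamp _)
      (fun m => ts B x e' y k1 li (m + 1)) (fun m => Ns B x y k1 li (m + 1)) ?_ ?_
    · refine hfinal (ts B x e' y k1 li) (Ns B x y k1 li) (fun n hn => L.abs_ts he' hn)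
        (fun n hn => L.norm_Ns hn) ?_ ?_ ?_
      · have e1 : ts B x e' y k1 li 0 =
            max (-(7 / 10)) (min (7 / 10) (-inner ℝ e' (lv' B x y (li k1)))) := by
          unfold ts
          rw [if_pos hnxs.1]
        have e2 : Ns B x y k1 li 0 = 0 := by
          unfold Ns
          rw [if_pos hnxs.1]
        rw [e1, e2]
        exact hgood
      · intro m hm
        have hk1m := L.le_of_mem hm
        have hmM := (hS m hm).2
        have e1 : ts B x e' y k1 li (m + 1) = -inner ℝ e' (lv' B x y (li m)) := by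
          unfold ts
          rw [if_neg (by omega), ← L.li_succ_of_mem hm]
        have e2 : Ns B x y k1 li (m + 1) = lv' B x y (li m) := by
          unfold Ns
          rw [if_neg (by omega), ← L.li_succ_of_mem hm]
        rw [e1, e2]
        refine bad_good hsm (hbound m hmM) he' (L.norm_lv (L.li1 m hk1m (by omega)).1)
          (hy m hm).1 ?_
        have h3 := L.near_pv hk1m (show m ≤ M + 1 by omega)
        rw [pv_self hm] at h3
        have : 0 ≤ B.rho m * B.s := mul_nonneg (B.rho_nonneg m) B.s_pos.le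
        linarith
      · exact L.change_sum hd hI hf hc hmax hg hOK he' hee (fun k hk => (hy k hk).2.2) hCB hxi
    · intro k hk
      have hk1k := L.le_of_mem hk
      have hkM := (hS k hk).2
      refine ⟨L.norm_lv (L.li1 k hk1k (by omega)).1, ?_⟩
      have h3 := L.near_pv hk1k (show k ≤ M + 1 by omega)
      rw [pv_self hk] at h3
      have : 0 ≤ B.rho k * B.s := mul_nonneg (B.rho_nonneg k) B.s_pos.le
      linarith
    · intro k hk k' hk' hnk
      have hkM := (hS k hk).2
      have hkM' := (hS k' hk').2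
      have hk1k := L.le_of_mem hk
      have hns := nxt_spec (S := S) (M := M) (k := k) (by omega)
      rw [hnk] at hns
      obtain ⟨q, rfl⟩ : ∃ q, k' = q + 1 := ⟨k' - 1, by omega⟩
      have h4 : li q = li k := L.li_const hk (by omega) (by omega) (by omega)
      by_cases hlq : li q = li (q + 1)
      · left
        show lv' B x y (li k) = lv' B x y (li (q + 1))
        rw [← h4, hlq]
      · right
        have h5 := (L.change_facts (by omega) (by omega) hlq).2.2
        rw [pv_of_lt_nxt (M := M) hk (by omega) (by omega)] at h5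
        exact h5.le
    · intro m hm
      refine ⟨?_, ?_⟩
      · show ts B x e' y k1 li (m + 1) = _
        unfold ts
        rw [if_pos hm]
      · show Ns B x y k1 li (m + 1) = _
        unfold Ns
        rw [if_pos hm]
    · intro m hm k hk hkm hmn
      have hk1k := L.le_of_mem hk
      have h4 : li (m + 1) = li k := L.li_const hk hkm hmn (by omega)
      refine ⟨?_, ?_⟩
      · show Ns B x y k1 li (m + 1) = _
        unfold Ns
        rw [if_neg (by omega), h4]
      · show ts B x e' y k1 li (m + 1) = _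
        unfold ts
        rw [if_neg (by omega), h4]

end Vale.Agent.P137.U.Cen
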