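import Vale.Agent.P137.C.Basic

/-!
# P137, centered operator: block IV.3, absorption
-/

open MeasureTheory Set Filter Topology
open scoped ENNReal NNReal

namespace Vale.Agent.P137.U.Cen

open Vale.Agent.P137 Vale.Agent.P137.U

variable {d : ℕ}

theorem pw2_geom {ρ : ℕ → ℝ} (hρ : ∀ m, 0 ≤ ρ m) (h2 : ∀ m, 2 * ρ (m + 1) ≤ ρ m) (i N : ℕ) :
    ∑ l ∈ Finset.Ico i N, ρ l ≤ 2 * ρ i := by
  rcases le_total i N with h | h
  · have key : ∑ l ∈ Finset.Ico i N, ρ l ≤ 2 * ρ i - 2 * ρ N := by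
      induction N, h using Nat.le_induction with
      | base => simp
      | succ N hN ih =>
        rw [Finset.sum_Ico_succ_top hN]
        linarith [h2 N]
    linarith [hρ N]
  · rw [Finset.Ico_eq_empty_of_le h]
    simp only [Finset.sum_empty]
    linarith [hρ i]

theorem pw2_nxt_mem (S : Finset ℕ) {M k : ℕ} (hk : k < M + 2) :
    k < nxt S M k ∧ (nxt S M k ∈ S ∨ nxt S M k = M + 2) := by
  have h : {i | k < i ∧ (i ∈ S ∨ i = M + 2)}.Nonempty := ⟨M + 2, hk, Or.inr rfl⟩
  exact Nat.sInf_mem h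

theorem pw2_nxt_le (S : Finset ℕ) {M k i : ℕ} (hk : k < i) (hi : i ∈ S) : nxt S M k ≤ i :=
  Nat.sInf_le ⟨hk, Or.inl hi⟩

theorem pw2_nxt_le' (S : Finset ℕ) {M k : ℕ} (hk : k < M + 2) : nxt S M k ≤ M + 2 :=
  Nat.sInf_le ⟨hk, Or.inr rfl⟩

/-- Abstract absorption lemma. -/
theorem pw2_absorb {M n0 : ℕ} {b In ρ : ℕ → ℝ} {η C c X T C0 E : ℝ} (S : Finset ℕ)
    (Ad : ℕ → Prop) (cost : ℕ → ℝ)
    (hb : ∀ m, 0 ≤ b m) (hρ : ∀ m, 0 ≤ ρ m) (hρ2 : ∀ m, 2 * ρ (m + 1) ≤ ρ m)
    (hη : 0 < η) (hC : 0 < C) (hc : 0 < c) (hX : 0 ≤ X)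
    (hρ1 : ρ 1 ≤ η) (hρ1' : ρ 1 ≤ 1 / 4) (hηC : 6 * C * η ≤ c)
    (hS : ∀ k ∈ S, 1 ≤ k ∧ n0 ≤ k ∧ k ≤ M)
    (hlow : ∑ m ∈ Finset.range (min n0 (M + 1)), b m ≤ η * X)
    (hhall : ∀ i, n0 ≤ i → i ≤ M + 1 →
      In i ≤ X + η⁻¹ * ∑ l ∈ Finset.Ico n0 (min (i + 1) (M + 1)), b l)
    (hXk : X ≤ In (nxt S M 0 - 1))
    (hAd : ∀ l, 1 ≤ l → n0 ≤ l → l ≤ M → Ad l → b l ≤ η * ρ l * X +
      ρ l * ∑ i ∈ Finset.Ico n0 l, b i)
    (hcost0 : ∀ m, 0 ≤ cost m)
    (hcost : ∀ m, n0 ≤ m → m ≤ M → m ∉ S → ¬ (Ad m ∧ 1 ≤ m) → b m ≤ cost m)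
    (hT : c * In (nxt S M 0 - 1) - C * (∑ k ∈ S, ρ k * b k +
        ∑ m ∈ (Finset.range (M + 1)) \ S, b m +
        ∑ k ∈ S, ρ k * In (nxt S M k - 1)) - C0 * E ≤ T) :
    -T ≤ C0 * E + (7 + 2 * η⁻¹) * C * ∑ k ∈ S, ρ k * b k +
      9 * C * ∑ m ∈ Finset.range (M + 1), cost m := by
  classical
  set P := ∑ k ∈ S, ρ k * b k with hP
  set Q := ∑ m ∈ Finset.range (M + 1), cost m with hQ
  set Zs := (Finset.Ico n0 (M + 1)).filter (fun m => m ∉ S ∧ (Ad m ∧ 1 ≤ m)) with hZs
  set Z := ∑ m ∈ Zs, b m with hZ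
  have hP0 : 0 ≤ P := Finset.sum_nonneg fun k _ => mul_nonneg (hρ k) (hb k)
  have hQ0 : 0 ≤ Q := Finset.sum_nonneg fun k _ => hcost0 k
  have hZ0 : 0 ≤ Z := Finset.sum_nonneg fun k _ => hb k
  have hρanti : ∀ m, ρ (m + 1) ≤ ρ m := fun m => by linarith [hρ2 m, hρ (m + 1)]
  have hρanti' : ∀ m m', m ≤ m' → ρ m' ≤ ρ m := fun m m' h => antitone_nat_of_succ_le hρanti h
  -- weighted sums over `[n0, M]`
  have hsplit : ∀ (ω : ℕ → ℝ), (∀ i, 0 ≤ ω i) →
      ∑ l ∈ Finset.Ico n0 (M + 1), b l * ω l ≤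
        ∑ l ∈ S, b l * ω l + ∑ l ∈ Zs, b l * ω l +
          ∑ l ∈ Finset.range (M + 1), cost l * ω l := by
    intro ω hω
    have h1 : ∀ l ∈ Finset.Ico n0 (M + 1), b l * ω l ≤ (if l ∈ S then b l * ω l else 0) +
        (if l ∉ S ∧ (Ad l ∧ 1 ≤ l) then b l * ω l else 0) + cost l * ω l := by
      intro l hl
      rw [Finset.mem_Ico] at hl
      have h2 := mul_nonneg (hcost0 l) (hω l)
      have h3 := mul_nonneg (hb l) (hω l)
      by_cases hlS : l ∈ S
      · simp only [hlS, if_true, not_true, false_and, if_false]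
        linarith
      · by_cases hlA : Ad l ∧ 1 ≤ l
        · simp only [hlS, if_false, hlA, not_false_iff, true_and, and_self, if_true]
          linarith
        · have h4 : b l ≤ cost l := hcost l hl.1 (by omega) hlS hlA
          have h5 := mul_le_mul_of_nonneg_right h4 (hω l)
          split_ifs <;> linarith
    refine (Finset.sum_le_sum h1).trans ?_
    rw [Finset.sum_add_distrib, Finset.sum_add_distrib, ← Finset.sum_filter, ← Finset.sum_filter]
    have h6 : ∑ l ∈ (Finset.Ico n0 (M + 1)).filter (fun l => l ∈ S), b l * ω l ≤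
        ∑ l ∈ S, b l * ω l := by
      refine Finset.sum_le_sum_of_subset_of_nonneg ?_ fun l _ _ => mul_nonneg (hb l) (hω l)
      intro l hl
      exact (Finset.mem_filter.1 hl).2
    have h7 : ∑ l ∈ Finset.Ico n0 (M + 1), cost l * ω l ≤
        ∑ l ∈ Finset.range (M + 1), cost l * ω l := by
      refine Finset.sum_le_sum_of_subset_of_nonneg ?_ fun l _ _ => mul_nonneg (hcost0 l) (hω l)
      intro l hl
      rw [Finset.mem_Ico] at hl
      exact Finset.mem_range.2 hl.2
    linarith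
  -- the bound for `Z`
  have hZb : Z ≤ 4 * η * ρ 1 * X + 2 * P + 2 * Q := by
    have h1 : Z ≤ ∑ l ∈ Zs, (η * ρ l * X + ρ l * ∑ i ∈ Finset.Ico n0 l, b i) := by
      refine Finset.sum_le_sum fun l hl => ?_
      rw [hZs, Finset.mem_filter, Finset.mem_Ico] at hl
      exact hAd l hl.2.2.2 hl.1.1 (by omega) hl.2.2.1
    rw [Finset.sum_add_distrib] at h1
    have hZsub : Zs ⊆ Finset.Ico 1 (M + 1) := by
      intro l hl
      rw [hZs, Finset.mem_filter, Finset.mem_Ico] at hl
      rw [Finset.mem_Ico]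
      exact ⟨hl.2.2.2, hl.1.2⟩
    have h2 : ∑ l ∈ Zs, η * ρ l * X ≤ 2 * η * ρ 1 * X := by
      have h3 : ∑ l ∈ Zs, η * ρ l * X = η * X * ∑ l ∈ Zs, ρ l := by
        rw [Finset.mul_sum]
        exact Finset.sum_congr rfl fun l _ => by ring
      rw [h3]
      have h4 : ∑ l ∈ Zs, ρ l ≤ 2 * ρ 1 :=
        (Finset.sum_le_sum_of_subset_of_nonneg hZsub fun l _ _ => hρ l).trans
          (pw2_geom hρ hρ2 1 (M + 1))
      nlinarith [mul_nonneg hη.le hX]
    have h5 : ∑ l ∈ Zs, ρ l * ∑ i ∈ Finset.Ico n0 l, b i ≤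
        ∑ i ∈ Finset.Ico n0 (M + 1), b i * (2 * ρ (i + 1)) := by
      have h6 : ∑ l ∈ Zs, ρ l * ∑ i ∈ Finset.Ico n0 l, b i ≤
          ∑ l ∈ Finset.Ico n0 (M + 1), ρ l * ∑ i ∈ Finset.Ico n0 l, b i := by
        refine Finset.sum_le_sum_of_subset_of_nonneg (Finset.filter_subset _ _) ?_
        intro l _ _
        exact mul_nonneg (hρ l) (Finset.sum_nonneg fun i _ => hb i)
      refine h6.trans ?_
      simp_rw [Finset.mul_sum]
      rw [← Finset.sum_Ico_Ico_comm' n0 (M + 1) (fun i l => ρ l * b i)]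
      refine Finset.sum_le_sum fun i _ => ?_
      rw [← Finset.sum_mul, mul_comm]
      exact mul_le_mul_of_nonneg_left (pw2_geom hρ hρ2 _ _) (hb i)
    have h7 := hsplit (fun i => 2 * ρ (i + 1)) (fun i => by linarith [hρ (i + 1)])
    have h8 : ∑ l ∈ S, b l * (2 * ρ (l + 1)) ≤ P := by
      refine Finset.sum_le_sum fun l _ => ?_
      nlinarith [hb l, hρ2 l]
    have h9 : ∑ l ∈ Zs, b l * (2 * ρ (l + 1)) ≤ Z / 2 := by
      rw [hZ, Finset.sum_div]
      refine Finset.sum_le_sum fun l hl => ?_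
      have h10 := hρanti' 1 (l + 1) (by omega)
      nlinarith [hb l, hρ2 l]
    have h11 : ∑ l ∈ Finset.range (M + 1), cost l * (2 * ρ (l + 1)) ≤ Q := by
      refine Finset.sum_le_sum fun l hl => ?_
      have h10 := hρanti' 1 (l + 1) (by omega)
      nlinarith [hcost0 l, hρ2 l]
    linarith
  -- the sum over the complement of `S`
  have hcomp : ∑ m ∈ (Finset.range (M + 1)) \ S, b m ≤ η * X + Z + Q := by
    have h1 : ∀ m ∈ (Finset.range (M + 1)) \ S, b m ≤
        (if m < n0 then b m else 0) + (if m ∈ Zs then b m else 0) + cost m := by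
      intro m hm
      rw [Finset.mem_sdiff, Finset.mem_range] at hm
      have h2 := hcost0 m
      have h3 := hb m
      by_cases hmn : m < n0
      · rw [if_pos hmn]
        split_ifs <;> linarith
      · rw [if_neg hmn]
        by_cases hmA : Ad m ∧ 1 ≤ m
        · have h4 : m ∈ Zs := by
            rw [hZs, Finset.mem_filter, Finset.mem_Ico]
            exact ⟨⟨not_lt.1 hmn, hm.1⟩, hm.2, hmA⟩
          rw [if_pos h4]
          linarith
        · have h4 := hcost m (not_lt.1 hmn) (by omega) hm.2 hmA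
          split_ifs <;> linarith
    refine (Finset.sum_le_sum h1).trans ?_
    rw [Finset.sum_add_distrib, Finset.sum_add_distrib, ← Finset.sum_filter, ← Finset.sum_filter]
    have h5 : ∑ m ∈ (Finset.range (M + 1) \ S).filter (fun m => m < n0), b m ≤ η * X := by
      refine le_trans ?_ hlow
      refine Finset.sum_le_sum_of_subset_of_nonneg ?_ fun l _ _ => hb l
      intro l hl
      rw [Finset.mem_filter, Finset.mem_sdiff, Finset.mem_range] at hl
      rw [Finset.mem_range]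
      omega
    have h6 : ∑ m ∈ (Finset.range (M + 1) \ S).filter (fun m => m ∈ Zs), b m ≤ Z := by
      refine Finset.sum_le_sum_of_subset_of_nonneg ?_ fun l _ _ => hb l
      intro l hl
      exact (Finset.mem_filter.1 hl).2
    have h7 : ∑ m ∈ (Finset.range (M + 1) \ S), cost m ≤ Q :=
      Finset.sum_le_sum_of_subset_of_nonneg Finset.sdiff_subset fun l _ _ => hcost0 l
    linarith
  -- the sum of the inner masses
  have hin : ∑ k ∈ S, ρ k * In (nxt S M k - 1) ≤
      2 * ρ 1 * X + η⁻¹ * (2 * P + 2 * ρ 1 * Z + 2 * ρ 1 * Q) := by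
    have h1 : ∀ k ∈ S, ρ k * In (nxt S M k - 1) ≤ ρ k * X + η⁻¹ *
        ∑ l ∈ Finset.Ico n0 (M + 1), b l * (if l < nxt S M k then ρ k else 0) := by
      intro k hk
      obtain ⟨hk1, hk2, hk3⟩ := hS k hk
      have h2 := pw2_nxt_mem S (M := M) (k := k) (by omega)
      have h3 := pw2_nxt_le' S (M := M) (k := k) (by omega)
      have h4 := hhall (nxt S M k - 1) (by omega) (by omega)
      have h5 : ∑ l ∈ Finset.Ico n0 (min (nxt S M k - 1 + 1) (M + 1)), b l =
          ∑ l ∈ Finset.Ico n0 (M + 1), (if l < nxt S M k then b l else 0) := by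
        rw [← Finset.sum_filter]
        congr 1
        ext l
        simp only [Finset.mem_Ico, Finset.mem_filter]
        omega
      rw [h5] at h4
      have h6 := mul_le_mul_of_nonneg_left h4 (hρ k)
      refine h6.trans (le_of_eq ?_)
      rw [mul_add, Finset.mul_sum, Finset.mul_sum, Finset.mul_sum]
      congr 1
      refine Finset.sum_congr rfl fun l _ => ?_
      split_ifs <;> ring
    refine (Finset.sum_le_sum h1).trans ?_
    rw [Finset.sum_add_distrib, ← Finset.sum_mul, ← Finset.mul_sum, Finset.sum_comm]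
    have hSsub : S ⊆ Finset.Ico 1 (M + 1) := by
      intro l hl
      have := hS l hl
      rw [Finset.mem_Ico]
      omega
    have hSρ : ∑ k ∈ S, ρ k ≤ 2 * ρ 1 :=
      (Finset.sum_le_sum_of_subset_of_nonneg hSsub fun l _ _ => hρ l).trans
        (pw2_geom hρ hρ2 1 (M + 1))
    have h2 : ∑ l ∈ Finset.Ico n0 (M + 1), ∑ k ∈ S, b l * (if l < nxt S M k then ρ k else 0) ≤
        2 * P + 2 * ρ 1 * Z + 2 * ρ 1 * Q := by
      have h3 : ∀ l, ∑ k ∈ S, b l * (if l < nxt S M k then ρ k else 0) =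
          b l * ∑ k ∈ S, (if l < nxt S M k then ρ k else 0) := fun l => by rw [Finset.mul_sum]
      simp_rw [h3]
      have hω : ∀ l, 0 ≤ ∑ k ∈ S, (if l < nxt S M k then ρ k else 0) := fun l =>
        Finset.sum_nonneg fun k _ => by
          split_ifs
          · exact hρ k
          · exact le_rfl
      have hω1 : ∀ l, ∑ k ∈ S, (if l < nxt S M k then ρ k else 0) ≤ 2 * ρ 1 := by
        intro l
        refine le_trans (Finset.sum_le_sum fun k _ => ?_) hSρ
        split_ifs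
        · exact le_rfl
        · exact hρ k
      refine (hsplit _ hω).trans ?_
      have h4 : ∑ l ∈ S, b l * ∑ k ∈ S, (if l < nxt S M k then ρ k else 0) ≤ 2 * P := by
        rw [hP, Finset.mul_sum]
        refine Finset.sum_le_sum fun l hl => ?_
        have h5 : ∑ k ∈ S, (if l < nxt S M k then ρ k else 0) ≤ 2 * ρ l := by
          refine le_trans ?_ (pw2_geom hρ hρ2 l (M + 1))
          rw [← Finset.sum_filter]
          refine Finset.sum_le_sum_of_subset_of_nonneg ?_ fun i _ _ => hρ i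
          intro k hk
          rw [Finset.mem_filter] at hk
          rw [Finset.mem_Ico]
          refine ⟨?_, by have := hS k hk.1; omega⟩
          by_contra hcon
          exact absurd (pw2_nxt_le S (M := M) (not_le.1 hcon) hl) (not_le.2 hk.2)
        nlinarith [hb l]
      have h6 : ∑ l ∈ Zs, b l * ∑ k ∈ S, (if l < nxt S M k then ρ k else 0) ≤ 2 * ρ 1 * Z := by
        rw [hZ, Finset.mul_sum]
        refine Finset.sum_le_sum fun l hl => ?_
        nlinarith [hb l, hω1 l]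
      have h7 : ∑ l ∈ Finset.range (M + 1), cost l *
          ∑ k ∈ S, (if l < nxt S M k then ρ k else 0) ≤ 2 * ρ 1 * Q := by
        rw [hQ, Finset.mul_sum]
        refine Finset.sum_le_sum fun l hl => ?_
        nlinarith [hcost0 l, hω1 l]
      linarith
    have h8 : (∑ k ∈ S, ρ k) * X ≤ 2 * ρ 1 * X := mul_le_mul_of_nonneg_right hSρ hX
    have h9 := mul_le_mul_of_nonneg_left h2 (inv_nonneg.2 hη.le)
    linarith
  -- conclusion
  have hηi : ρ 1 * η⁻¹ ≤ 1 := by
    rw [← div_eq_mul_inv, div_le_one hη]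
    exact hρ1
  have hηi0 : 0 ≤ η⁻¹ := inv_nonneg.2 hη.le
  have hρ10 := hρ 1
  have e1 : η⁻¹ * (2 * P + 2 * ρ 1 * Z + 2 * ρ 1 * Q) ≤ 2 * η⁻¹ * P + 2 * Z + 2 * Q := by
    have : η⁻¹ * (2 * P + 2 * ρ 1 * Z + 2 * ρ 1 * Q) =
        2 * η⁻¹ * P + 2 * (ρ 1 * η⁻¹) * Z + 2 * (ρ 1 * η⁻¹) * Q := by ring
    rw [this]
    nlinarith
  have e2 : 2 * ρ 1 * X ≤ 2 * η * X := by nlinarith
  have e3 : 4 * η * ρ 1 * X ≤ η * X := by nlinarith [mul_nonneg hη.le hX]
  have e4 : ∑ k ∈ S, ρ k * b k + ∑ m ∈ (Finset.range (M + 1)) \ S, b m +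
        ∑ k ∈ S, ρ k * In (nxt S M k - 1) ≤
        6 * η * X + (7 + 2 * η⁻¹) * P + 9 * Q := by
    rw [← hP]
    linarith
  have e5 : c * X ≤ c * In (nxt S M 0 - 1) := mul_le_mul_of_nonneg_left hXk hc.le
  have e6 := mul_le_mul_of_nonneg_left e4 hC.le
  have e7 : C * (6 * η * X) ≤ c * X := by
    have := mul_le_mul_of_nonneg_right hηC hX
    linarith
  linarith

theorem pw2_rho_half (B : Blk d) (h : 1 ≤ B.s0) (m : ℕ) : 2 * B.rho (m + 1) ≤ B.rho m := by
  rw [B.rho_succ]
  have h1 := B.rho_nonneg m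
  have h2 : B.rho m ≤ 1 / 2 := by
    refine (B.rho_le m).trans ?_
    calc ((1 : ℝ) / 2) ^ B.s0 ≤ (1 / 2) ^ 1 := pow_le_pow_of_le_one (by norm_num) (by norm_num) h
      _ = 1 / 2 := by norm_num
  nlinarith

theorem specPW2 (H : SpecPW1 d) : SpecPW2 d := by
  classical
  obtain ⟨C, c, S0, hC, hc, H⟩ := H
  -- choice of `η` and `S0`
  obtain ⟨η, hη⟩ : ∃ η : ℝ, η = min 1 (c / (6 * C)) := ⟨_, rfl⟩
  have hη0 : 0 < η := by rw [hη]; positivity
  have hηC : 6 * C * η ≤ c := by
    have h1 : η ≤ c / (6 * C) := by rw [hη]; exact min_le_right _ _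
    rw [le_div_iff₀ (by positivity)] at h1
    linarith
  obtain ⟨S1, hS1⟩ : ∃ n : ℕ, ((1 : ℝ) / 2) ^ n < min η (1 / 4) :=
    exists_pow_lt_of_lt_one (by positivity) (by norm_num)
  refine ⟨η, max (max S0 S1) 1, hη0, fun s0 hs0 => ?_⟩
  have hs00 : S0 ≤ s0 := le_trans (le_max_left _ _) (le_trans (le_max_left _ _) hs0)
  have hs01 : S1 ≤ s0 := le_trans (le_max_right _ _) (le_trans (le_max_left _ _) hs0)
  have hs02 : 1 ≤ s0 := le_trans (le_max_right _ _) hs0
  obtain ⟨C0, hC0, H⟩ := H s0 hs00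
  refine ⟨C0 + (7 + 2 * η⁻¹) * C + 9 * C, by positivity, ?_⟩
  intro f hf hfc B e e' hBs hBg hOK he' hee M hM hM' x D0 R r hx hr hmax hD0 hR
  have hρ1 : B.rho 1 ≤ min η (1 / 4) := by
    refine (B.rho_le 1).trans (le_trans ?_ hS1.le)
    rw [hBs]
    exact pow_le_pow_of_le_one (by norm_num) (by norm_num) hs01
  -- the choice of the centres
  let y : ℕ → Lat d := fun m => if h : ∃ c, B.condB m x r c then h.choose else 0
  have hy : ∀ m, (∃ c, B.condB m x r c) → B.condB m x r (y m) := by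
    intro m h
    simp only [y, dif_pos h]
    exact h.choose_spec
  let Gd : ℕ → Prop := fun m => (∃ c, B.condB m x r c) ∧ B.condC m x r (y m) ∧
    B.condD m D0 R r ∧ B.condA η m x r
  let far : ℕ → Prop := fun m => B.rho m * B.s / 4 <
    ‖B.pos m (y m) - B.pos (m + 1) (y (m + 1))‖
  let dropL : ℕ → Prop := fun m => Gd m ∧ Gd (m + 1) ∧ far m ∧ m + 1 ≤ M ∧
    B.b m x r ≤ B.b (m + 1) x r
  let dropR : ℕ → Prop := fun m => Gd (m - 1) ∧ Gd m ∧ far (m - 1) ∧ 2 ≤ m ∧
    B.b m x r < B.b (m - 1) x r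
  -- `n0` and `X`
  let Xf : ℕ → ℝ := fun n => if n = 0 then 0 else B.In x r (n - 1)
  let good : ℕ → Prop := fun n => ∑ m ∈ Finset.range (min n (M + 1)), B.b m x r ≤ η * Xf n
  have hgood0 : good 0 := by simp [good, Xf]
  let n0 : ℕ := Nat.findGreatest good (M + 2)
  have hn0 : good n0 := Nat.findGreatest_spec (Nat.zero_le _) hgood0
  have hn0' : ∀ n, n0 < n → n ≤ M + 2 → ¬ good n := fun n h1 h2 =>
    Nat.findGreatest_is_greatest h1 h2
  have hX : 0 ≤ Xf n0 := by
    simp only [Xf]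
    split_ifs
    · exact le_rfl
    · exact Blk.In_nonneg _ _ _
  have hhall : ∀ i, n0 ≤ i → i ≤ M + 1 → B.In x r i ≤ Xf n0 +
      η⁻¹ * ∑ l ∈ Finset.Ico n0 (min (i + 1) (M + 1)), B.b l x r := by
    intro i hi1 hi2
    have h1 := hn0' (i + 1) (by omega) (by omega)
    simp only [good, Xf, Nat.add_eq_zero_iff, one_ne_zero, and_false, if_false,
      Nat.add_sub_cancel, not_le] at h1
    have h2 : ∑ m ∈ Finset.range (min (i + 1) (M + 1)), B.b m x r ≤
        ∑ m ∈ Finset.range (min n0 (M + 1)), B.b m x r +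
        ∑ l ∈ Finset.Ico n0 (min (i + 1) (M + 1)), B.b l x r := by
      rw [← Finset.sum_range_add_sum_Ico (fun m => B.b m x r)
        (show min n0 (M + 1) ≤ min (i + 1) (M + 1) by omega)]
      gcongr
      · exact fun _ _ _ => B.b_nonneg _ _ _
      · omega
    have h3 : ∑ m ∈ Finset.range (min n0 (M + 1)), B.b m x r ≤ η * Xf n0 := hn0
    have h4 : η * B.In x r i ≤ η * (Xf n0 +
        η⁻¹ * ∑ l ∈ Finset.Ico n0 (min (i + 1) (M + 1)), B.b l x r) := by
      rw [mul_add, ← mul_assoc, mul_inv_cancel₀ hη0.ne', one_mul]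
      linarith
    exact le_of_mul_le_mul_left h4 hη0
  let S : Finset ℕ := (Finset.Icc (max n0 1) M).filter
    (fun m => Gd m ∧ ¬ dropL m ∧ ¬ dropR m)
  have hSmem : ∀ k ∈ S, 1 ≤ k ∧ n0 ≤ k ∧ k ≤ M := by
    intro k hk
    simp only [S, Finset.mem_filter, Finset.mem_Icc] at hk
    omega
  have hSgd : ∀ k ∈ S, Gd k := fun k hk => (Finset.mem_filter.1 hk).2.1
  have hT := H f hf hfc B e e' hBs hBg hOK he' hee M hM hM' x D0 R r hx hr hmax hD0 hR S
    (fun k hk => ⟨(hSmem k hk).1, (hSmem k hk).2.2⟩) y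
    (fun k hk => ⟨hy k (hSgd k hk).1, (hSgd k hk).2.1, (hSgd k hk).2.2.1⟩)
    (by
      intro k hk hk1
      by_contra hcon
      rw [not_le] at hcon
      have h1 := (Finset.mem_filter.1 hk).2
      have h2 := (Finset.mem_filter.1 hk1).2
      rcases le_or_gt (B.b k x r) (B.b (k + 1) x r) with h | h
      · exact h1.2.1 ⟨h1.1, h2.1, hcon, (hSmem _ hk1).2.2, h⟩
      · exact h2.2.2 ⟨h1.1, h2.1, hcon, by have := (hSmem _ hk).1; omega, h⟩)
  let cost : ℕ → ℝ := fun m => if n0 ≤ m ∧ m ∉ S ∧ ¬ (¬ B.condA η m x r ∧ 1 ≤ m) then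
    B.b m x r else 0
  have hcost0 : ∀ m, 0 ≤ cost m := by
    intro m
    simp only [cost]
    split_ifs
    · exact B.b_nonneg _ _ _
    · exact le_rfl
  refine ⟨cost, ?_, ?_⟩
  · have habs := pw2_absorb (M := M) (n0 := n0) (b := fun m => B.b m x r)
      (In := fun i => B.In x r i) (ρ := B.rho) (η := η) (C := C) (c := c) (X := Xf n0)
      (T := ∫ z in Metric.closedBall x r, inner ℝ e' (B.g z)) (C0 := C0) (E := B.E0) S
      (fun m => ¬ B.condA η m x r) cost (fun m => B.b_nonneg _ _ _) B.rho_nonneg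
      (pw2_rho_half B (by rw [hBs]; exact hs02)) hη0 hC hc hX
      (hρ1.trans (min_le_left _ _)) (hρ1.trans (min_le_right _ _)) hηC hSmem hn0 hhall
      ?_ ?_ hcost0 ?_ hT
    · refine habs.trans ?_
      have h1 : ∑ k ∈ S, B.rho k * B.b k x r ≤
          ∑ m ∈ Finset.range (M + 1), B.rho m * B.b m x r := by
        refine Finset.sum_le_sum_of_subset_of_nonneg ?_ fun l _ _ =>
          mul_nonneg (B.rho_nonneg _) (B.b_nonneg _ _ _)
        intro k hk
        rw [Finset.mem_range]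
        have := hSmem k hk
        omega
      have h2 : 0 ≤ ∑ k ∈ S, B.rho k * B.b k x r :=
        Finset.sum_nonneg fun l _ => mul_nonneg (B.rho_nonneg _) (B.b_nonneg _ _ _)
      have h3 : 0 ≤ ∑ m ∈ Finset.range (M + 1), cost m := Finset.sum_nonneg fun l _ => hcost0 l
      have h4 := B.E0_nonneg
      have h5 : 0 ≤ (7 + 2 * η⁻¹) * C := by positivity
      have h6 : (7 + 2 * η⁻¹) * C * ∑ k ∈ S, B.rho k * B.b k x r ≤
          (7 + 2 * η⁻¹) * C * ∑ m ∈ Finset.range (M + 1), B.rho m * B.b m x r :=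
        mul_le_mul_of_nonneg_left h1 h5
      have h7 : 0 ≤ ∑ m ∈ Finset.range (M + 1), B.rho m * B.b m x r := h2.trans h1
      have h8 := mul_nonneg hC0.le h7
      have h9 := mul_nonneg hC0.le h3
      have h10 := mul_nonneg h5 h4
      have h11 := mul_nonneg h5 h3
      have h12 := mul_nonneg hC.le h4
      have h13 := mul_nonneg hC.le h7
      nlinarith
    · -- `X ≤ In (k1 - 1)`
      simp only [Xf]
      split_ifs with h0
      · exact Blk.In_nonneg _ _ _
      · refine Blk.In_mono hOK x r ?_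
        have h1 := pw2_nxt_mem S (M := M) (k := 0) (by omega)
        rcases h1.2 with h2 | h2
        · have := (hSmem _ h2).2.1
          omega
        · have : n0 ≤ M + 2 := Nat.findGreatest_le _
          omega
    · -- bands dropped by `A`
      intro l hl1 hl2 hl3 hA
      simp only [Blk.condA, not_le] at hA
      have hvl : B.valid (l - 1) := B.valid_anti (by omega) hM
      have h1 : B.mass (Metric.closedBall x (r - 2 * B.H (l - 1))) ≤ B.In x r (l - 1) := by
        unfold Blk.In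
        refine Blk.mass_mono hOK (Metric.closedBall_subset_closedBall ?_)
        rw [if_pos hvl]
        linarith [B.H_pos (l - 1)]
      have h2 : B.In x r (l - 1) ≤ Xf n0 + η⁻¹ * ∑ i ∈ Finset.Ico n0 l, B.b i x r := by
        rcases eq_or_lt_of_le hl2 with h | h
        · simp only [Xf]
          rw [if_neg (by omega), ← h]
          simp
        · have h3 := hhall (l - 1) (by omega) (by omega)
          have h4 : min (l - 1 + 1) (M + 1) = l := by omega
          rw [h4] at h3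
          exact h3
      have h5 : η * B.rho l * B.mass (Metric.closedBall x (r - 2 * B.H (l - 1))) ≤
          η * B.rho l * (Xf n0 + η⁻¹ * ∑ i ∈ Finset.Ico n0 l, B.b i x r) :=
        mul_le_mul_of_nonneg_left (h1.trans h2) (mul_nonneg hη0.le (B.rho_nonneg l))
      have h6 : η * B.rho l * (Xf n0 + η⁻¹ * ∑ i ∈ Finset.Ico n0 l, B.b i x r) =
          η * B.rho l * Xf n0 + B.rho l * ∑ i ∈ Finset.Ico n0 l, B.b i x r := by
        field_simp
      linarith
    · intro m hm1 hm2 hm3 hm4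
      simp only [cost]
      rw [if_pos ⟨hm1, hm3, hm4⟩]
  · -- reasons
    intro m hm
    by_cases h : n0 ≤ m ∧ m ∉ S ∧ ¬ (¬ B.condA η m x r ∧ 1 ≤ m)
    · right
      have hc : cost m = B.b m x r := by simp only [cost]; rw [if_pos h]
      refine ⟨hc.le, ?_⟩
      rcases Nat.eq_zero_or_pos m with h0 | h0
      · exact Or.inl h0
      right
      have hA : B.condA η m x r := by
        by_contra hcon
        exact h.2.2 ⟨hcon, h0⟩
      have hnS : ¬ (Gd m ∧ ¬ dropL m ∧ ¬ dropR m) := by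
        intro hcon
        refine h.2.1 (Finset.mem_filter.2 ⟨Finset.mem_Icc.2 ⟨?_, hm⟩, hcon⟩)
        omega
      by_cases hB : ∃ c, B.condB m x r c
      · by_cases hC' : B.condC m x r (y m)
        · by_cases hD : B.condD m D0 R r
          · have hGd : Gd m := ⟨hB, hC', hD, hA⟩
            right; right; right
            have h1 : dropL m ∨ dropR m := by
              by_contra hcon
              rw [not_or] at hcon
              exact hnS ⟨hGd, hcon⟩
            rcases h1 with h1 | h1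
            · refine ⟨m, h0, h1.2.2.2.1, hc.le, hc.le.trans h1.2.2.2.2, Or.inl rfl, y m, y (m + 1),
                hy m hB, hy (m + 1) h1.2.1.1, h1.2.2.1⟩
            · obtain ⟨h2, h3, h4, h5, h6⟩ := h1
              have h7 : m - 1 + 1 = m := by omega
              refine ⟨m - 1, by omega, by omega, hc.le.trans h6.le, ?_, Or.inr (by omega), y (m - 1),
                y m, hy _ h2.1, ?_, ?_⟩
              · rw [h7]; exact hc.le
              · rw [h7]; exact hy m hB
              · have h8 : far (m - 1) := h4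
                simp only [far] at h8
                rw [h7] at h8 ⊢
                exact h8
          · right; left
            exact ⟨h0, hD⟩
        · right; right; left
          exact ⟨h0, hA, y m, hy m hB, hC'⟩
      · left
        exact ⟨h0, hB⟩
    · left
      simp only [cost]
      rw [if_neg h]

end Vale.Agent.P137.U.Cen
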