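import Vale.Agent.P137.C.Basic

/-!
# P137, centered operator, block IV.4: boundary radii
-/

open MeasureTheory Set Filter Topology
open scoped ENNReal NNReal

namespace Vale.Agent.P137.U.Cen

open Vale.Agent.P137 Vale.Agent.P137.U

variable {d : ℕ}

theorem pwb_th_nonneg (a b ρ : ℝ) : 0 ≤ th d a b ρ := le_max_left _ _

theorem pwb_th_le_one {a b : ℝ} (ha : 0 < a) (hab : a < b) (hd : 0 < d) (ρ : ℝ) :
    th d a b ρ ≤ 1 := by
  have h1 : (a / b) ^ d < 1 :=
    pow_lt_one₀ (div_nonneg ha.le (ha.trans hab).le) ((div_lt_one (ha.trans hab)).2 hab) hd.ne'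
  have h2 : (a / max a ρ) ^ d ≤ 1 := by
    have h3 : 0 < max a ρ := lt_max_of_lt_left ha
    exact pow_le_one₀ (div_nonneg ha.le h3.le) ((div_le_one h3).2 (le_max_left _ _))
  refine max_le zero_le_one ?_
  rw [div_le_one (by linarith only [h1])]
  linarith only [h2]

theorem pwb_th_eq_zero {a b : ℝ} (ha : 0 < a) (hab : a < b) (hd : 0 < d) {ρ : ℝ} (hρ : b ≤ ρ) :
    th d a b ρ = 0 := by
  have h1 : (a / b) ^ d < 1 :=
    pow_lt_one₀ (div_nonneg ha.le (ha.trans hab).le) ((div_lt_one (ha.trans hab)).2 hab) hd.ne'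
  unfold th
  refine max_eq_left (div_nonpos_of_nonpos_of_nonneg ?_ (by linarith only [h1]))
  have hb := ha.trans hab
  have h2 : (a / max a ρ) ^ d ≤ (a / b) ^ d := by
    have : b ≤ max a ρ := hρ.trans (le_max_right _ _)
    gcongr
  linarith only [h2]

theorem pwb_measurable_th (a b : ℝ) : Measurable (th d a b) := by
  unfold th
  fun_prop

section

variable {B : Blk d} {x : E d} {r : ℝ}

/-- Standing hypothesis on the radius: it is larger than the widths of all the bands. -/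
def PwbRad (B : Blk d) (r : ℝ) : Prop := 0 < r ∧ ∀ m, B.valid m → 0 < r - B.H m

theorem pwb_measurable_Th (m : ℕ) : Measurable (Th B x r m) := by
  unfold Th
  by_cases h : B.valid m
  · simp only [if_pos h]
    have h1 : Measurable fun z : E d => ‖z - x‖ := by fun_prop
    exact (pwb_measurable_th _ _).comp h1
  · simp only [if_neg h]
    refine Measurable.ite ?_ measurable_const measurable_const
    exact (isClosed_le (by fun_prop) continuous_const).measurableSet

theorem pwb_abs_Th_le (hd : 0 < d) (hr : PwbRad B r) (m : ℕ) (z : E d) : |Th B x r m z| ≤ 1 := by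
  unfold Th
  by_cases h : B.valid m
  · rw [if_pos h, abs_of_nonneg (pwb_th_nonneg _ _ _)]
    exact pwb_th_le_one (hr.2 m h) (by linarith only [B.H_pos m]) hd _
  · rw [if_neg h]
    split_ifs <;> simp

theorem pwb_Th_eq_zero (hd : 0 < d) (hr : PwbRad B r) (m : ℕ) {z : E d} (hz : r < ‖z - x‖) :
    Th B x r m z = 0 := by
  unfold Th
  by_cases h : B.valid m
  · rw [if_pos h]
    exact pwb_th_eq_zero (hr.2 m h) (by linarith only [B.H_pos m]) hd hz.le
  · rw [if_neg h, if_neg (not_le.2 hz)]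

/-- Integrability of the truncated fields. -/
theorem pwb_integrable (hd : 0 < d) (hr : PwbRad B r) (m : ℕ) {V : E d → E d}
    (hV : Continuous V) {K : ℝ} (hK : ∀ z, ‖z - x‖ ≤ r → ‖V z‖ ≤ K) {g : E d → E d}
    (hg : Integrable g) :
    Integrable (fun z => Th B x r m z * inner ℝ (V z) (g z)) := by
  have h1 : Integrable (fun z => K * ‖g z‖) := hg.norm.const_mul K
  refine h1.mono' ?_ (Eventually.of_forall fun z => ?_)
  · exact (pwb_measurable_Th m).aestronglyMeasurable.mul
      (hV.aestronglyMeasurable.inner hg.aestronglyMeasurable)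
  · rw [norm_mul]
    rcases le_or_gt ‖z - x‖ r with hz | hz
    · have h2 : ‖Th B x r m z‖ ≤ 1 := pwb_abs_Th_le hd hr m z
      have h3 : ‖(inner ℝ (V z) (g z) : ℝ)‖ ≤ ‖V z‖ * ‖g z‖ := norm_inner_le_norm _ _
      have h4 : ‖V z‖ * ‖g z‖ ≤ K * ‖g z‖ :=
        mul_le_mul_of_nonneg_right (hK z hz) (norm_nonneg _)
      have h5 := norm_nonneg (inner ℝ (V z) (g z) : ℝ)
      nlinarith only [h2, h3, h4, h5]
    · rw [pwb_Th_eq_zero hd hr m hz, norm_zero, zero_mul]
      have h6 : 0 ≤ K := (norm_nonneg _).trans (hK x (by simpa using hr.1.le))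
      positivity

theorem pwb_integral_top {M : ℕ} (hM : ¬ B.valid (M + 1)) (V g : E d → E d) :
    ∫ z, Th B x r (M + 1) z * inner ℝ (V z) (g z) =
      ∫ z in Metric.closedBall x r, inner ℝ (V z) (g z) := by
  rw [← integral_indicator Metric.isClosed_closedBall.measurableSet]
  refine integral_congr_ae (Eventually.of_forall fun z => ?_)
  simp only [Th, if_neg hM]
  by_cases hz : z ∈ Metric.closedBall x r
  · have h1 : ‖z - x‖ ≤ r := by rwa [Metric.mem_closedBall, dist_eq_norm] at hz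
    rw [indicator_of_mem hz, if_pos h1, one_mul]
  · have h1 : ¬ ‖z - x‖ ≤ r := by rwa [Metric.mem_closedBall, dist_eq_norm] at hz
    rw [indicator_of_notMem hz, if_neg h1, zero_mul]

/-- Telescoping. -/
theorem pwb_telescope (hd : 0 < d) (hr : PwbRad B r) {V : E d → E d}
    (hV : Continuous V) {K : ℝ} (hK : ∀ z, ‖z - x‖ ≤ r → ‖V z‖ ≤ K) {g : E d → E d}
    (hg : Integrable g) (M : ℕ) :
    ∫ z, Th B x r (M + 1) z * inner ℝ (V z) (g z) =
      (∫ z, Th B x r 0 z * inner ℝ (V z) (g z)) +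
        ∑ m ∈ Finset.range (M + 1), ∫ z, (Th B x r (m + 1) z - Th B x r m z) *
          inner ℝ (V z) (g z) := by
  have h1 : ∀ m ∈ Finset.range (M + 1),
      ∫ z, (Th B x r (m + 1) z - Th B x r m z) * inner ℝ (V z) (g z) =
        (∫ z, Th B x r (m + 1) z * inner ℝ (V z) (g z)) -
          ∫ z, Th B x r m z * inner ℝ (V z) (g z) := by
    intro m _
    rw [← integral_sub (pwb_integrable hd hr (m + 1) hV hK hg) (pwb_integrable hd hr m hV hK hg)]
    refine integral_congr_ae (Eventually.of_forall fun z => ?_)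
    simp only
    ring
  rw [Finset.sum_congr rfl h1,
    Finset.sum_range_sub (fun m => ∫ z, Th B x r m z * inner ℝ (V z) (g z))]
  ring

end

/-- The radius is larger than the widths, for `s0` large. -/
theorem pwb_rad (hd : 0 < d) : ∃ S0 : ℕ, ∀ s0 ≥ S0, ∀ (B : Blk d) (r : ℝ), B.s0 = s0 →
    B.rad r → PwbRad B r := by
  have hk : 0 < kap d / 2 := by unfold kap; positivity
  obtain ⟨S0, hS0⟩ := exists_pow_lt_of_lt_one hk (by norm_num : (1 / 2 : ℝ) < 1)
  refine ⟨S0, fun s0 hs0 B r hB hr => ?_⟩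
  have hs := B.s_pos
  have h1 : (1 / 2 : ℝ) ^ s0 < kap d / 2 :=
    (pow_le_pow_of_le_one (by norm_num) (by norm_num) hs0).trans_lt hS0
  have h2 : kap d * B.s / 2 ≤ r := hr.1
  refine ⟨by nlinarith only [h2, hk, hs], fun m hm => ?_⟩
  have h3 : B.H m = B.s * B.rho m ^ 16 := B.H_eq hm
  have h4 : B.rho m ≤ (1 / 2) ^ s0 := hB ▸ B.rho_le m
  have h5 : B.rho m ^ 16 ≤ B.rho m := by
    have := pow_le_pow_of_le_one (B.rho_nonneg m) (B.rho_le_one m) (by norm_num : 1 ≤ 16)
    simpa using this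
  have h6 : B.s * B.rho m ^ 16 < B.s * (kap d / 2) :=
    mul_lt_mul_of_pos_left (h5.trans_lt (h4.trans_lt h1)) hs
  rw [h3]
  linarith only [h2, h6]

/-- BLOCK IV.4 -/
theorem pwb (hd : 0 < d) (hBad : SpecBad d) : SpecPWb d := by
  obtain ⟨C, S1, hC, hBad⟩ := hBad
  obtain ⟨S2, hS2⟩ := pwb_rad hd
  refine ⟨max S1 S2, fun s0 hs0 => ?_⟩
  obtain ⟨C0, hC0, hBad⟩ := hBad s0 ((le_max_left _ _).trans hs0)
  have hk : 0 < kap d := by unfold kap; positivity
  set K : ℝ := 1 + (1 + (2 + √d) * (2 / kap d)) with hKdef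
  have hK0 : 0 ≤ K := by positivity
  refine ⟨C0 + C * (K + 1), by positivity, ?_⟩
  intro B e e' hs hOK he' hee M hM hM' x r τ hnear hrad hτ
  have hr : PwbRad B r := hS2 s0 ((le_max_right _ _).trans hs0) B r hs hrad
  have hr0 : 0 < r := hr.1
  have hspos := B.s_pos
  set V : E d → E d := fun z => fld e' τ 0 (r⁻¹ • (z - x)) with hV
  have hVeq : ∀ z, V z = e' + τ • (r⁻¹ • (z - x)) := by
    intro z
    simp only [hV, fld, inner_zero_left, smul_zero, zero_smul, sub_zero, add_zero]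
  have hVc : Continuous V := by
    have : V = fun z => e' + τ • (r⁻¹ • (z - x)) := funext hVeq
    rw [this]
    fun_prop
  have hVn : ∀ z, ‖V z‖ ≤ 1 + r⁻¹ * ‖z - x‖ := by
    intro z
    rw [hVeq]
    refine (norm_add_le _ _).trans ?_
    rw [norm_smul, norm_smul, he', norm_inv, Real.norm_of_nonneg hr0.le, Real.norm_eq_abs]
    have h1 : 0 ≤ r⁻¹ * ‖z - x‖ := by positivity
    nlinarith only [h1, hτ]
  have hVball : ∀ z, ‖z - x‖ ≤ r → ‖V z‖ ≤ 2 := by
    intro z hz
    have h1 := hVn z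
    have h2 : r⁻¹ * ‖z - x‖ ≤ 1 := by
      rw [inv_mul_le_iff₀ hr0, mul_one]; exact hz
    linarith only [h1, h2]
  have hg := hOK.g_int
  have hγ := Blk.integrable_gam hOK
  have hgb : Integrable (fun z => B.g z - gam B.c0 z) := hg.sub hγ
  -- the decomposition
  have h1 : ∫ z in Metric.closedBall x r, inner ℝ (e' + τ • (r⁻¹ • (z - x))) (B.g z) =
      (∫ z, Th B x r (M + 1) z * inner ℝ (V z) (gam B.c0 z)) +
        ∫ z, Th B x r (M + 1) z * inner ℝ (V z) (B.g z - gam B.c0 z) := by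
    rw [← integral_add (pwb_integrable hd hr _ hVc hVball hγ)
      (pwb_integrable hd hr _ hVc hVball hgb)]
    rw [← pwb_integral_top hM' (fun z => e' + τ • (r⁻¹ • (z - x))) B.g]
    refine integral_congr_ae (Eventually.of_forall fun z => ?_)
    simp only [← hVeq]
    rw [← mul_add, ← inner_add_right, add_sub_cancel]
  -- the good part
  have h2 : 0 ≤ ∫ z, Th B x r (M + 1) z * inner ℝ (V z) (gam B.c0 z) := by
    rw [pwb_integral_top hM']
    refine setIntegral_nonneg Metric.isClosed_closedBall.measurableSet fun z hz => ?_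
    rw [Metric.mem_closedBall, dist_eq_norm] at hz
    have h3 := Blk.gam_cone hOK he' hee z
    rw [hVeq, inner_add_left, inner_smul_left]
    simp only [conj_trivial]
    have h4 : |inner ℝ (r⁻¹ • (z - x)) (gam B.c0 z)| ≤ ‖gam B.c0 z‖ := by
      refine (abs_real_inner_le_norm _ _).trans ?_
      have h5 : ‖r⁻¹ • (z - x)‖ ≤ 1 := by
        rw [norm_smul, norm_inv, Real.norm_of_nonneg hr0.le, inv_mul_le_iff₀ hr0, mul_one]
        exact hz
      nlinarith only [h5, norm_nonneg (gam B.c0 z)]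
    have h6 : |τ * inner ℝ (r⁻¹ • (z - x)) (gam B.c0 z)| ≤ 1 / 2 * ‖gam B.c0 z‖ := by
      rw [abs_mul]
      exact mul_le_mul hτ h4 (abs_nonneg _) (by norm_num)
    have h7 := (abs_le.1 h6).1
    linarith only [h3, h7, norm_nonneg (gam B.c0 z)]
  -- the bad part
  obtain ⟨hb1, -, hb3⟩ := hBad B e hs hOK (B.valid_anti (Nat.zero_le M) hM) x r hnear hrad e' 0 τ
    he'.le (by simp) (hτ.trans (by norm_num))
  have h3 := pwb_telescope hd hr hVc hVball hgb M
  have h4 : ∀ m ∈ Finset.range (M + 1),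
      -(∫ z, (Th B x r (m + 1) z - Th B x r m z) * inner ℝ (V z) (B.g z - gam B.c0 z)) ≤
        C * (K + 1) * B.b m x r := by
    intro m hm
    have hmv : B.valid m := B.valid_anti (Nat.lt_succ_iff.1 (Finset.mem_range.1 hm)) hM
    refine (neg_le_abs _).trans ((hb1 m hmv).trans ?_)
    rw [mul_assoc, Blk.b, Finset.mul_sum (B.Sh m x r) _ (K + 1)]
    refine mul_le_mul_of_nonneg_left (Finset.sum_le_sum fun c hc => ?_) hC.le
    refine mul_le_mul_of_nonneg_right ?_ (B.MM_nonneg m c)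
    refine add_le_add ?_ (B.rho_le_one m)
    have h5 : ‖B.pos m c - x‖ ≤ r + (2 + √d) * B.H m := by
      simp only [Blk.Sh, Finset.mem_filter] at hc
      have := (abs_le.1 hc.2).2
      linarith only [this]
    have h6 : B.H m ≤ B.s := B.H_le_s m
    have h7 : r⁻¹ * ‖B.pos m c - x‖ ≤ 1 + (2 + √d) * (2 / kap d) := by
      rw [inv_mul_le_iff₀ hr0]
      have h8 : (2 + √d) * B.H m ≤ (2 + √d) * B.s :=
        mul_le_mul_of_nonneg_left h6 (by positivity)
      have h9 : B.s ≤ 2 / kap d * r := by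
        have := hrad.1
        rw [div_mul_eq_mul_div, le_div_iff₀ hk]
        linarith only [this]
      have h10 : (2 + √d) * B.s ≤ (2 + √d) * (2 / kap d * r) :=
        mul_le_mul_of_nonneg_left h9 (by positivity)
      linarith only [h5, h8, h10]
    have h11 := hVn (B.pos m c)
    have h12 : ‖fld e' τ 0 (r⁻¹ • (B.pos m c - x))‖ ≤ 1 + r⁻¹ * ‖B.pos m c - x‖ := h11
    linarith only [h12, h7]
  have h5 : -(∫ z, Th B x r 0 z * inner ℝ (V z) (B.g z - gam B.c0 z)) ≤ C0 * B.E0 :=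
    (neg_le_abs _).trans hb3
  have h6 := Finset.sum_le_sum h4
  rw [Finset.sum_neg_distrib, ← Finset.mul_sum] at h6
  have h7 : 0 ≤ B.E0 := B.E0_nonneg
  have h8 : 0 ≤ ∑ m ∈ Finset.range (M + 1), B.b m x r :=
    Finset.sum_nonneg fun m _ => B.b_nonneg m x r
  rw [h1, h3]
  have h9 : 0 ≤ C * (K + 1) * B.E0 := by positivity
  have h10 : 0 ≤ C0 * ∑ m ∈ Finset.range (M + 1), B.b m x r := mul_nonneg hC0.le h8
  linarith only [h2, h5, h6, h9, h10]

end Vale.Agent.P137.U.Cen
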