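import Vale.Agent.P137.C.Spec

/-!
# P137, centered operator, block VI.2: from the cell theorem to the per tree estimate.
-/

open MeasureTheory Set Filter Topology
open scoped ENNReal NNReal

namespace Vale.Agent.P137.U.Cen

open Vale.Agent.P137 Vale.Agent.P137.U

variable {d : ℕ}

/-! ### Elementary facts on the truncated centered maximal function -/

theorem vi_bddAbove {f : E d → ℝ} (D : E d → ℝ) (R : ℝ) (hf : Continuous f)
    (hfc : HasCompactSupport f) (x : E d) :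
    BddAbove {t | ∃ r, D x ≤ r ∧ r ≤ R ∧ avg f x r = t} := by
  obtain ⟨C, hC⟩ := exists_le_of_compact hf hfc
  refine ⟨C, ?_⟩
  rintro t ⟨r, -, -, rfl⟩
  exact avg_le_of_le hf fun w _ => hC _

theorem vi_avg_le {f : E d → ℝ} {D : E d → ℝ} {R : ℝ} (hf : Continuous f)
    (hfc : HasCompactSupport f) {x : E d} {r : ℝ} (h1 : D x ≤ r) (h2 : r ≤ R) :
    avg f x r ≤ cu f D R x :=
  le_csSup (vi_bddAbove D R hf hfc x) ⟨r, h1, h2, rfl⟩

theorem vi_attained {f : E d → ℝ} {D : E d → ℝ} {R : ℝ} (hf : Continuous f)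
    (hfc : HasCompactSupport f) {x : E d} (hDR : D x ≤ R) :
    ∃ r, D x ≤ r ∧ r ≤ R ∧ avg f x r = cu f D R x := by
  have hc : Continuous fun r : ℝ => avg f x r :=
    (continuous_avg hf).comp (continuous_const.prodMk continuous_id)
  obtain ⟨r, hr, hmax⟩ := (isCompact_Icc (a := D x) (b := R)).exists_isMaxOn
    ⟨R, hDR, le_rfl⟩ hc.continuousOn
  refine ⟨r, hr.1, hr.2, le_antisymm (vi_avg_le hf hfc hr.1 hr.2) ?_⟩
  refine csSup_le ⟨_, r, hr.1, hr.2, rfl⟩ ?_
  rintro t ⟨r', h1', h2', rfl⟩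
  exact hmax (a := r') ⟨h1', h2'⟩

theorem vi_lipschitz {f : E d → ℝ} {D : E d → ℝ} {R : ℝ} {L κ : ℝ≥0} (hf : LipschitzWith L f)
    (hfc : HasCompactSupport f) (hκ : κ ≤ 1) (hD : LipschitzWith κ D)
    (hDR : ∀ y, D y ≤ R) : LipschitzWith (2 * L) (cu f D R) := by
  have key : ∀ x x' : E d, cu f D R x ≤ cu f D R x' + (2 * L : ℝ≥0) * dist x x' := by
    intro x x'
    obtain ⟨r, h1, h2, h4⟩ := vi_attained hf.continuous hfc (hDR x)
    have hκ0 : (0 : ℝ) ≤ κ := κ.coe_nonneg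
    have hκ1 : (κ : ℝ) ≤ 1 := by exact_mod_cast hκ
    have hd0 : 0 ≤ dist x x' := dist_nonneg
    set r' : ℝ := min (r + κ * dist x x') R with hr'
    have hr1 : r ≤ r' := le_min (by nlinarith only [hd0, hκ0]) h2
    have hr2 : r' ≤ r + κ * dist x x' := min_le_left _ _
    have h5 : D x' ≤ r' := by
      refine le_min ?_ (hDR _)
      have := hD.dist_le_mul x x'
      rw [Real.dist_eq] at this
      have h6 := (abs_le.1 this).1
      linarith only [h1, h6]
    have h7 := vi_avg_le hf.continuous hfc h5 (min_le_right _ _)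
    have h8 := avg_dist_le hf x x' r r'
    have h9 := (abs_le.1 h8).2
    have h11 : |r - r'| ≤ dist x x' := by
      rw [abs_sub_comm, abs_of_nonneg (by linarith only [hr1])]
      nlinarith only [hκ1, hr2, hd0]
    rw [← h4]
    have h12 : (L : ℝ) * (‖x - x'‖ + |r - r'|) ≤ L * (2 * dist x x') := by
      refine mul_le_mul_of_nonneg_left ?_ L.coe_nonneg
      rw [← dist_eq_norm]; linarith only [h11]
    push_cast
    linarith only [h7, h9, h12]
  refine LipschitzWith.of_dist_le_mul fun x x' => ?_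
  rw [Real.dist_eq, abs_le]
  have k1 := key x x'
  have k2 := key x' x
  rw [dist_comm x' x] at k2
  constructor <;> linarith

/-- Joint differentiability of the averages in the centre and the radius. -/
theorem vi_avg_diff {f : E d → ℝ} (hf : ContDiff ℝ 1 f) (hfc : HasCompactSupport f) (x : E d)
    (r : ℝ) : DifferentiableAt ℝ (fun p : E d × ℝ => avg f p.1 p.2) (x, r) := by
  have hfd : Continuous (fderiv ℝ f) := hf.continuous_fderiv one_ne_zero
  have hfdc : HasCompactSupport (fderiv ℝ f) := hfc.fderiv ℝ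
  obtain ⟨C, hC⟩ := hfdc.exists_bound_of_continuous hfd
  have hC0 : 0 ≤ C := (norm_nonneg _).trans (hC 0)
  have hB : volume (Metric.closedBall (0 : E d) 1) < ∞ := measure_closedBall_lt_top
  have : IsFiniteMeasure (volume.restrict (Metric.closedBall (0 : E d) 1)) :=
    ⟨by rwa [Measure.restrict_apply_univ]⟩
  have hfcont := hf.continuous
  have key := hasFDerivAt_integral_of_dominated_of_fderiv_le (𝕜 := ℝ)
    (μ := volume.restrict (Metric.closedBall (0 : E d) 1))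
    (F := fun (p : E d × ℝ) w => f (p.1 + p.2 • w))
    (F' := fun (p : E d × ℝ) w => (fderiv ℝ f (p.1 + p.2 • w)).comp
      (ContinuousLinearMap.fst ℝ (E d) ℝ + (ContinuousLinearMap.snd ℝ (E d) ℝ).smulRight w))
    (x₀ := ((x, r) : E d × ℝ)) (bound := fun _ => C * 2) (s := univ) univ_mem ?_ ?_ ?_ ?_ ?_ ?_
  · have h2 := (key.const_smul (volume.real (Metric.closedBall (0 : E d) 1))⁻¹).differentiableAt
    have h3 : (fun p : E d × ℝ => avg f p.1 p.2) = fun p : E d × ℝ =>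
        (volume.real (Metric.closedBall (0 : E d) 1))⁻¹ •
          ∫ w in Metric.closedBall (0 : E d) 1, f (p.1 + p.2 • w) := by
      funext p; rw [avg_eq, smul_eq_mul]
    rw [h3]
    exact h2
  · refine Eventually.of_forall fun h => ?_
    exact Continuous.aestronglyMeasurable (by fun_prop)
  · obtain ⟨D, hD⟩ := hfc.exists_bound_of_continuous hf.continuous
    refine (integrable_const D).mono' ?_ (Eventually.of_forall fun w => hD _)
    exact Continuous.aestronglyMeasurable (by fun_prop)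
  · refine Continuous.aestronglyMeasurable ?_
    refine Continuous.clm_comp (by fun_prop) ?_
    exact continuous_const.add
      ((ContinuousLinearMap.smulRightL ℝ (E d × ℝ) (E d)
        (ContinuousLinearMap.snd ℝ (E d) ℝ)).continuous)
  · filter_upwards [ae_restrict_mem Metric.isClosed_closedBall.measurableSet] with w hw p _
    rw [mem_closedBall_zero_iff] at hw
    refine (ContinuousLinearMap.opNorm_comp_le _ _).trans ?_
    refine mul_le_mul (hC _) ?_ (norm_nonneg _) hC0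
    refine ContinuousLinearMap.opNorm_le_bound _ (by norm_num) fun q => ?_
    have h1 : (ContinuousLinearMap.fst ℝ (E d) ℝ +
        (ContinuousLinearMap.snd ℝ (E d) ℝ).smulRight w) q = q.1 + q.2 • w := rfl
    rw [h1]
    refine (norm_add_le _ _).trans ?_
    rw [norm_smul]
    have h2 : ‖q.1‖ ≤ ‖q‖ := norm_fst_le q
    have h3 : ‖q.2‖ ≤ ‖q‖ := norm_snd_le q
    have h4 : ‖q.2‖ * ‖w‖ ≤ ‖q‖ * 1 := mul_le_mul h3 hw (norm_nonneg _) (norm_nonneg _)
    linarith
  · exact integrable_const _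
  · refine Eventually.of_forall fun w p _ => ?_
    have h1 : HasFDerivAt f (fderiv ℝ f (p.1 + p.2 • w)) (p.1 + p.2 • w) :=
      (hf.differentiable one_ne_zero _).hasFDerivAt
    have h2 : HasFDerivAt (fun p : E d × ℝ => p.1 + p.2 • w)
        (ContinuousLinearMap.fst ℝ (E d) ℝ +
          (ContinuousLinearMap.snd ℝ (E d) ℝ).smulRight w) p := by
      exact hasFDerivAt_fst.add (hasFDerivAt_snd.smul_const w)
    exact h1.comp p h2

/-- One sided derivative inequality at a maximising radius. -/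
theorem vi_lower {f : E d → ℝ} (hf : ContDiff ℝ 1 f) (hfc : HasCompactSupport f)
    {D : E d → ℝ} {R r τ : ℝ} {x e' : E d} (h0 : avg f x r = cu f D R x)
    (h1 : ∀ᶠ t in 𝓝[>] (0 : ℝ), D (x + t • e') ≤ r + t * τ ∧ r + t * τ ≤ R)
    (hdiff : DifferentiableAt ℝ (cu f D R) x) :
    fderiv ℝ (fun y => avg f y r) x e' + τ * deriv (fun ρ => avg f x ρ) r ≤
      fderiv ℝ (cu f D R) x e' := by
  obtain ⟨A, hA⟩ : ∃ A, HasFDerivAt (fun p : E d × ℝ => avg f p.1 p.2) A (x, r) :=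
    ⟨_, (vi_avg_diff hf hfc x r).hasFDerivAt⟩
  have hx : fderiv ℝ (fun y => avg f y r) x e' = A (e', 0) := by
    have h2 : HasFDerivAt (fun y : E d => ((y, r) : E d × ℝ))
        (ContinuousLinearMap.inl ℝ (E d) ℝ) x :=
      (hasFDerivAt_id x).prodMk (hasFDerivAt_const r x)
    have h3 : HasFDerivAt (fun y : E d => avg f y r)
        (A.comp (ContinuousLinearMap.inl ℝ (E d) ℝ)) x :=
      HasFDerivAt.comp (g := fun p : E d × ℝ => avg f p.1 p.2) x hA h2
    rw [h3.fderiv]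
    rfl
  have hr : deriv (fun ρ => avg f x ρ) r = A (0, 1) := by
    have h2 : HasDerivAt (fun ρ : ℝ => ((x, ρ) : E d × ℝ)) ((0, 1) : E d × ℝ) r :=
      (hasDerivAt_const r x).prodMk (hasDerivAt_id r)
    have h3 : HasDerivAt (fun ρ : ℝ => avg f x ρ) (A (0, 1)) r :=
      HasFDerivAt.comp_hasDerivAt (l := fun p : E d × ℝ => avg f p.1 p.2) r hA h2
    exact h3.deriv
  have hsum : fderiv ℝ (fun y => avg f y r) x e' + τ * deriv (fun ρ => avg f x ρ) r =
      A (e', τ) := by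
    rw [hx, hr, ← smul_eq_mul, ← map_smul, ← map_add]
    congr 1
    simp
  rw [hsum]
  -- derivatives along the curve
  have hcurve : HasDerivAt (fun t : ℝ => ((x + t • e', r + t * τ) : E d × ℝ)) (e', τ) 0 := by
    have h2 : HasDerivAt (fun t : ℝ => x + t • e') e' 0 := by
      simpa using ((hasDerivAt_id (0 : ℝ)).smul_const e').const_add x
    have h3 : HasDerivAt (fun t : ℝ => r + t * τ) τ 0 := by
      simpa using ((hasDerivAt_id (0 : ℝ)).mul_const τ).const_add r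
    exact h2.prodMk h3
  have hA' : HasFDerivAt (fun p : E d × ℝ => avg f p.1 p.2) A
      ((x + (0 : ℝ) • e', r + 0 * τ) : E d × ℝ) := by
    rw [zero_smul, add_zero, zero_mul, add_zero]; exact hA
  have hd1 : HasDerivAt (fun t : ℝ => avg f (x + t • e') (r + t * τ)) (A (e', τ)) 0 :=
    HasFDerivAt.comp_hasDerivAt (l := fun p : E d × ℝ => avg f p.1 p.2) (0 : ℝ) hA' hcurve
  have hd2 : HasDerivAt (fun t : ℝ => cu f D R (x + t • e')) (fderiv ℝ (cu f D R) x e') 0 := by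
    have h6 : HasFDerivAt (cu f D R) (fderiv ℝ (cu f D R) x) (x + (0 : ℝ) • e') := by
      rw [zero_smul, add_zero]; exact hdiff.hasFDerivAt
    have h7 : HasDerivAt (fun t : ℝ => x + t • e') e' 0 := by
      simpa using ((hasDerivAt_id (0 : ℝ)).smul_const e').const_add x
    exact h6.comp_hasDerivAt (0 : ℝ) h7
  have hd3 := hd2.sub hd1
  have h11 := hd3.tendsto_slope_zero
  have h12 := h11.mono_left (nhdsWithin_mono (0 : ℝ) fun t ht => (ne_of_gt ht) :
    𝓝[>] (0 : ℝ) ≤ 𝓝[≠] 0)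
  have h13 : 0 ≤ fderiv ℝ (cu f D R) x e' - A (e', τ) := by
    refine ge_of_tendsto h12 ?_
    filter_upwards [h1, self_mem_nhdsWithin] with t ht ht0
    rw [mem_Ioi] at ht0
    have h14 : avg f (x + t • e') (r + t * τ) ≤ cu f D R (x + t • e') :=
      vi_avg_le hf.continuous hfc ht.1 ht.2
    simp only [Pi.sub_apply, zero_add, zero_smul, add_zero, zero_mul, smul_eq_mul]
    rw [← h0, sub_self, sub_zero]
    exact mul_nonneg (inv_nonneg.2 ht0.le) (by linarith only [h14])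
  linarith only [h13]

/-! ### The oscillation bound -/

open Classical in
theorem vi_osc (hd : 0 < d) : ∃ C c : ℝ, 0 < C ∧ 0 < c ∧ ∀ (f : E d → ℝ),
    ContDiff ℝ 1 f → HasCompactSupport f → ∀ (kT : ℕ) (nT : Lat d) (e : E d)
    (W : Finset (ℕ × Lat d)), IsTree (v0f (gradient f)) kT nT e W →
    ∀ x ∈ NT kT nT, |cT f W kT x - refv hd f kT nT| ≤
      C * (2 ^ kT / (2 ^ kT) ^ d) * (‖vJ (v0f (gradient f)) kT nT‖ +
        eJ (v0f (gradient f)) (m0f (gradient f)) kT nT) +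
      C * ∑ Q ∈ W, if ‖x - pt (co Q.1 Q.2)‖ ≤ c * 2 ^ Q.1 then
        (2 ^ Q.1 / (2 ^ Q.1) ^ d) * eJ (v0f (gradient f)) (m0f (gradient f)) Q.1 Q.2
        else 0 := by
  have hk := kap_pos d
  have hk1 := kap_le hd
  obtain ⟨C0, hC0, htop⟩ := top_small hd
  obtain ⟨C1, hC1, hup⟩ := osc_upper hd
  have hc : (0 : ℝ) < 1 + 2 * √d := by positivity
  refine ⟨C0 + C1, 1 + 2 * √d, by positivity, hc, fun f hf hfc kT nT e W hT x hx => ?_⟩
  have h2kT : (0 : ℝ) < 2 ^ kT := by positivity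
  have hW : W.Nonempty := ⟨_, hT.top_mem⟩
  set A : ℝ := (2 ^ kT / (2 ^ kT) ^ d : ℝ) * (‖vJ (v0f (gradient f)) kT nT‖ +
        eJ (v0f (gradient f)) (m0f (gradient f)) kT nT) with hA'
  have hA : 0 ≤ A := by
    have := eJ_nonneg (v0 := v0f (gradient f)) (m0f_nonneg (gradient f)) kT nT
    (clear * - this; positivity)
  have hterm : ∀ Q : ℕ × Lat d, (0 : ℝ) ≤ (2 ^ Q.1 / (2 ^ Q.1) ^ d) *
      eJ (v0f (gradient f)) (m0f (gradient f)) Q.1 Q.2 := by
    intro Q
    have := eJ_nonneg (v0 := v0f (gradient f)) (m0f_nonneg (gradient f)) Q.1 Q.2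
    (clear * - this; positivity)
  set S : ℝ := ∑ Q ∈ W, if ‖x - pt (co Q.1 Q.2)‖ ≤ (1 + 2 * √d) * 2 ^ Q.1 then
        (2 ^ Q.1 / (2 ^ Q.1) ^ d) * eJ (v0f (gradient f)) (m0f (gradient f)) Q.1 Q.2
        else 0 with hS'
  have hS : 0 ≤ S := by
    apply Finset.sum_nonneg
    intro Q _
    split_ifs
    · exact hterm Q
    · exact le_rfl
  have hx' : ∀ i, |x i - 2 ^ kT * nT i| ≤ 2 * 2 ^ kT := hx
  have hlow : refv hd f kT nT - C0 * A ≤ cT f W kT x := by
    have h1 := htop f hf hfc kT nT x (2 ^ kT) (by nlinarith only [hk1, h2kT]) (by linarith only [h2kT])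
      (fun i => (hx' i).trans (by linarith only [h2kT]))
    have h2 : avg f x (2 ^ kT) ≤ cT f W kT x :=
      vi_avg_le hf.continuous hfc (DW_le W kT x) (by linarith only [h2kT])
    have h3 := (abs_le.1 h1).1
    rw [mul_assoc] at h3
    linarith only [h2, h3]
  have hupp : cT f W kT x ≤ refv hd f kT nT + (C0 + C1) * A + C1 * S := by
    obtain ⟨r, h1, h2, h4⟩ := vi_attained (D := DW W kT) (R := 2 * 2 ^ kT)
      hf.continuous hfc (x := x) ((DW_le W kT x).trans (by linarith only [h2kT]))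
    have hr0 : 0 < r := lt_of_lt_of_le one_pos ((one_le_DW W kT x).trans h1)
    have huT : cT f W kT x = avg f x r := h4.symm
    rw [huT]
    rcases lt_or_ge (kap d * 2 ^ kT) r with h5 | h5
    · have h6 := htop f hf hfc kT nT x r h5.le h2 (fun i => (hx' i).trans (by linarith only [h2kT]))
      have h7 := (abs_le.1 h6).2
      rw [mul_assoc] at h7
      have h8 := mul_nonneg hC1.le hA
      have h9 := mul_nonneg hC1.le hS
      linarith only [h7, h8, h9]
    · have h6 : kap d * 2 ^ kT < 2 ^ kT * r := by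
        have : 1 ≤ r := (one_le_DW W kT x).trans h1
        nlinarith only [hk, hk1, h5, this]
      have h7 : r / kap d ≤ 2 ^ kT := by
        rw [div_le_iff₀ hk]
        linarith only [h5]
      have h8 : r ≤ r / kap d := by
        rw [le_div_iff₀ hk]
        nlinarith only [hk1, hr0]
      have h9 := hup f hf hfc kT nT e W hT kT x r h1 (by linarith only [hr0, h5]) h6
        (fun i => (hx' i).trans (by linarith only [hr0, h7, h8, h2kT]))
      have h10 : (∑ Q ∈ W, if r / kap d ≤ 2 ^ Q.1 ∧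
          ‖x - pt (co Q.1 Q.2)‖ + r / kap d ≤ (1 + 2 * √d) * 2 ^ Q.1 then
        (2 ^ Q.1 / (2 ^ Q.1) ^ d) * eJ (v0f (gradient f)) (m0f (gradient f)) Q.1 Q.2
        else 0) ≤ S := by
        apply Finset.sum_le_sum
        intro Q _
        split_ifs with h11 h12 h12
        · exact le_rfl
        · exfalso
          apply h12
          linarith only [h8, h11, hr0]
        · exact hterm Q
        · exact le_rfl
      have h14 := mul_le_mul_of_nonneg_left h10 hC1.le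
      have h15 := mul_nonneg hC0.le hA
      rw [mul_assoc] at h9
      linarith only [h9, h14, h15]
  have h1 := mul_nonneg hC0.le hA
  have h2 := mul_nonneg hC1.le hA
  have h3 := mul_nonneg hC0.le hS
  have h4 := mul_nonneg hC1.le hS
  rw [abs_le, mul_assoc]
  constructor <;> linarith only [hlow, h2, h3, h4, hupp]

/-- Weighted oscillation bound: integration against the gradient of the cutoff. -/
theorem vi_osc_lint (hd : 0 < d) : ∃ C : ℝ, 0 < C ∧ ∀ (f : E d → ℝ),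
    ContDiff ℝ 1 f → HasCompactSupport f → ∀ (kT : ℕ) (nT : Lat d) (e : E d)
    (W : Finset (ℕ × Lat d)), IsTree (v0f (gradient f)) kT nT e W → ∀ v : E d, ‖v‖ = 1 →
    ∫⁻ x, ENNReal.ofReal ‖lineDeriv ℝ (cutf kT nT) x v * (cT f W kT x - refv hd f kT nT)‖ ≤
      ENNReal.ofReal (C * (‖vJ (v0f (gradient f)) kT nT‖ +
        ∑ Q ∈ W, eJ (v0f (gradient f)) (m0f (gradient f)) Q.1 Q.2)) := by
  classical
  obtain ⟨C, c, hC, hc, key⟩ := vi_osc (d := d) hd
  have hsd : 0 < √(d : ℝ) := Real.sqrt_pos.2 (by exact_mod_cast hd)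
  have huv := uvol_pos (d := d)
  refine ⟨C * (2 * √d) ^ d * uvol d + C * c ^ d * uvol d, by (clear * - hC hd huv hc; positivity), ?_⟩
  intro f hf hfc kT nT e W hT v hv
  obtain ⟨g, hg⟩ : ∃ g : ℕ × Lat d → ℝ, g = fun Q =>
    eJ (v0f (gradient f)) (m0f (gradient f)) Q.1 Q.2 := ⟨_, rfl⟩
  have heJ : ∀ Q, 0 ≤ g Q := fun Q => by
    rw [hg]; exact eJ_nonneg (m0f_nonneg _) _ _
  obtain ⟨V, hV⟩ : ∃ V : ℝ, V = ‖vJ (v0f (gradient f)) kT nT‖ := ⟨_, rfl⟩
  have hV0 : 0 ≤ V := hV ▸ norm_nonneg _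
  have k1 : ∀ x ∈ NT kT nT, |cT f W kT x - refv hd f kT nT| ≤
      C * (2 ^ kT / (2 ^ kT) ^ d) * (V + g (kT, nT)) +
      C * ∑ Q ∈ W, if ‖x - pt (co Q.1 Q.2)‖ ≤ c * 2 ^ Q.1 then
        (2 ^ Q.1 / (2 ^ Q.1) ^ d) * g Q else 0 := by
    intro x hx
    rw [hg, hV]
    exact key f hf hfc kT nT e W hT x hx
  have goalS : ∑ Q ∈ W, eJ (v0f (gradient f)) (m0f (gradient f)) Q.1 Q.2 = ∑ Q ∈ W, g Q := by
    rw [hg]
  rw [goalS, ← hV]
  clear goalS key
  have hS0 : 0 ≤ ∑ Q ∈ W, g Q := Finset.sum_nonneg fun Q _ => heJ Q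
  have hST : g (kT, nT) ≤ ∑ Q ∈ W, g Q :=
    Finset.single_le_sum (f := g) (fun Q _ => heJ Q) hT.top_mem
  obtain ⟨R, hR⟩ : ∃ R : ℝ, R = 2 ^ kT := ⟨_, rfl⟩
  have hR0 : 0 < R := by rw [hR]; (clear * -; positivity)
  obtain ⟨A, hA⟩ : ∃ A : ℝ, A = R⁻¹ * (C * (R / R ^ d) * (V + g (kT, nT))) := ⟨_, rfl⟩
  have hgT := heJ (kT, nT)
  have hA0 : 0 ≤ A := by rw [hA]; (clear * - hC hV0 hR0 hgT; positivity)
  obtain ⟨a, ha⟩ : ∃ a : ℕ × Lat d → ℝ, a = fun Q => R⁻¹ * (C * ((2 ^ Q.1 / (2 ^ Q.1) ^ d) * g Q)) :=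
    ⟨_, rfl⟩
  have ha0 : ∀ Q, 0 ≤ a Q := by
    intro Q
    rw [ha]
    have := heJ Q
    (clear * - hC hR0 this; positivity)
  have hsum0 : ∀ x : E d, 0 ≤ ∑ Q ∈ W, (if ‖x - pt (co Q.1 Q.2)‖ ≤ c * 2 ^ Q.1 then a Q else 0) := by
    intro x
    refine Finset.sum_nonneg fun Q _ => ?_
    split_ifs
    · exact ha0 Q
    · exact le_rfl
  have hpt : ∀ x : E d, ‖lineDeriv ℝ (cutf kT nT) x v * (cT f W kT x - refv hd f kT nT)‖ ≤
      (if ‖x - pt (co kT nT)‖ ≤ √d * (2 * 2 ^ kT) then A else 0) +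
        ∑ Q ∈ W, (if ‖x - pt (co Q.1 Q.2)‖ ≤ c * 2 ^ Q.1 then a Q else 0) := by
    intro x
    by_cases hx : x ∈ NT kT nT
    · rw [norm_mul, Real.norm_eq_abs, Real.norm_eq_abs]
      have h1 := ptr_cutf_lineDeriv kT nT x v
      rw [hv, mul_one, ← hR] at h1
      have h2 := k1 x hx
      rw [if_pos (ptr_NT_norm hx)]
      calc |lineDeriv ℝ (cutf kT nT) x v| * |cT f W kT x - refv hd f kT nT|
          ≤ R⁻¹ * (C * (2 ^ kT / (2 ^ kT) ^ d) * (V + g (kT, nT)) +
      C * ∑ Q ∈ W, if ‖x - pt (co Q.1 Q.2)‖ ≤ c * 2 ^ Q.1 then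
        (2 ^ Q.1 / (2 ^ Q.1) ^ d) * g Q else 0) := by
            refine mul_le_mul h1 h2 (abs_nonneg _) (by (clear * - hR0; positivity))
        _ = _ := by
            rw [mul_add, hA, hR, ha, Finset.mul_sum, Finset.mul_sum]
            congr 1
            refine Finset.sum_congr rfl fun Q _ => ?_
            split_ifs
            · rw [hR]
            · ring
    · rw [ptr_cutf_lineDeriv_zero hx, zero_mul, norm_zero]
      refine add_nonneg ?_ (hsum0 x)
      split_ifs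
      · exact hA0
      · exact le_rfl
  calc ∫⁻ x, ENNReal.ofReal ‖lineDeriv ℝ (cutf kT nT) x v * (cT f W kT x - refv hd f kT nT)‖
      ≤ ∫⁻ x : E d, (ENNReal.ofReal (if ‖x - pt (co kT nT)‖ ≤ √d * (2 * 2 ^ kT) then A else 0) +
        ENNReal.ofReal
          (∑ Q ∈ W, (if ‖x - pt (co Q.1 Q.2)‖ ≤ c * 2 ^ Q.1 then a Q else 0))) := by
        refine lintegral_mono fun x => ?_
        exact (ENNReal.ofReal_le_ofReal (hpt x)).trans ENNReal.ofReal_add_le
    _ = ENNReal.ofReal (A * ((√d * (2 * 2 ^ kT)) ^ d * uvol d)) +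
        ENNReal.ofReal (∑ Q ∈ W, a Q * ((c * 2 ^ Q.1) ^ d * uvol d)) := by
        rw [lintegral_add_left (ptr_measurable_ite _ _ _).ennreal_ofReal,
          ptr_lint_ite _ (by (clear * - hd; positivity)) hA0,
          ptr_lint_sum W (fun Q => pt (co Q.1 Q.2)) (fun Q => c * 2 ^ Q.1) a
            (fun _ _ => by (clear * - hc; positivity)) (fun Q _ => ha0 Q)]
    _ ≤ ENNReal.ofReal (C * (2 * √d) ^ d * uvol d * (V + ∑ Q ∈ W, g Q)) +
        ENNReal.ofReal (C * c ^ d * uvol d * (∑ Q ∈ W, g Q)) := by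
        refine add_le_add (ENNReal.ofReal_le_ofReal ?_) (ENNReal.ofReal_le_ofReal ?_)
        · have h1 : A * ((√d * (2 * 2 ^ kT)) ^ d * uvol d) =
              C * (2 * √d) ^ d * uvol d * (V + g (kT, nT)) := by
            rw [hA, ← hR, mul_pow √(d : ℝ), mul_pow 2 R, mul_pow 2 √(d : ℝ)]
            (clear * - hR0 huv hd hC; field_simp)
          rw [h1]
          (clear * - hd hC huv hST; gcongr)
        · rw [Finset.mul_sum]
          refine Finset.sum_le_sum fun Q hQ => ?_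
          have h1 : a Q * ((c * 2 ^ Q.1) ^ d * uvol d) =
              C * c ^ d * uvol d * g Q * (2 ^ Q.1 / R) := by
            rw [ha, mul_pow c]
            simp only
            (clear * - huv hc hC hR0; field_simp)
          rw [h1]
          have h2 : (2 : ℝ) ^ Q.1 / R ≤ 1 := by
            rw [div_le_one hR0, hR]
            exact pow_le_pow_right₀ (by norm_num) (hT.le_top Q hQ)
          have h3 := heJ Q
          have h4 : 0 ≤ C * c ^ d * uvol d * g Q := by (clear * - hC hc huv h3; positivity)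
          nlinarith only [h2, h4]
    _ = ENNReal.ofReal (C * (2 * √d) ^ d * uvol d * (V + ∑ Q ∈ W, g Q) +
          C * c ^ d * uvol d * (∑ Q ∈ W, g Q)) := by
        rw [ENNReal.ofReal_add (by (clear * - hd hC huv hV0 hS0; positivity)) (by (clear * - hC hc huv hS0; positivity))]
    _ ≤ _ := by
        refine ENNReal.ofReal_le_ofReal ?_
        have : 0 ≤ C * c ^ d * uvol d * V := by (clear * - hC hc huv hV0; positivity)
        linarith only [this]

/-! ### From the cone of directions to the full gradient -/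

theorem vi_cone {e : E d} (he : ‖e‖ = 1) (A : E d →L[ℝ] ℝ) {b : ℝ} (hb : 0 ≤ b)
    (h : ∀ e' : E d, ‖e'‖ = 1 → ‖e' - e‖ ≤ 1 / 50 → -b ≤ A e') :
    1 / 100 * ‖A‖ ≤ A e + 2 * b := by
  have key : ∀ v : E d, ‖v‖ = 1 → 1 / 100 * A v ≤ A e + 2 * b := by
    intro v hv
    obtain ⟨w, hw⟩ : ∃ w : E d, w = e - (1 / 100 : ℝ) • v := ⟨_, rfl⟩
    have hwe : ‖w - e‖ = 1 / 100 := by
      rw [hw, sub_sub_cancel_left, norm_neg, norm_smul, hv, Real.norm_of_nonneg (by norm_num),
        mul_one]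
    have hw1 : |‖w‖ - 1| ≤ 1 / 100 := by
      have := abs_norm_sub_norm_le w e
      rwa [he, hwe] at this
    have hw2 := abs_le.1 hw1
    have hw0 : 0 < ‖w‖ := by linarith only [hw2.1]
    have h1 := h (‖w‖⁻¹ • w) (by
      rw [norm_smul, norm_inv, norm_norm, inv_mul_cancel₀ hw0.ne']) (by
      have h2 : ‖w‖⁻¹ • w - e = (‖w‖⁻¹ • w - w) + (w - e) := by abel
      have h3 : ‖‖w‖⁻¹ • w - w‖ = |‖w‖ - 1| := by
        have h4 : ‖w‖⁻¹ • w - w = (‖w‖⁻¹ - 1) • w := by rw [sub_smul, one_smul]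
        rw [h4, norm_smul, Real.norm_eq_abs, ← abs_of_pos hw0, ← abs_mul, abs_of_pos hw0,
          sub_mul, inv_mul_cancel₀ hw0.ne', one_mul, abs_sub_comm]
      rw [h2]
      refine (norm_add_le _ _).trans ?_
      rw [h3, hwe]
      linarith only [hw1])
    rw [map_smul, smul_eq_mul] at h1
    have h2 : -(‖w‖ * b) ≤ A w := by
      have h3 := mul_le_mul_of_nonneg_left h1 hw0.le
      rw [← mul_assoc, mul_inv_cancel₀ hw0.ne', one_mul] at h3
      linarith only [h3]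
    have h4 : A w = A e - 1 / 100 * A v := by
      rw [hw, map_sub, map_smul, smul_eq_mul]
    have h5 : ‖w‖ * b ≤ 2 * b := mul_le_mul_of_nonneg_right (by linarith only [hw2.2]) hb
    linarith only [h2, h4, h5]
  have hpos : 0 ≤ A e + 2 * b := by
    have := h e he (by rw [sub_self, norm_zero]; norm_num)
    linarith only [this, hb]
  have h2 : ‖A‖ ≤ 100 * (A e + 2 * b) := by
    refine ContinuousLinearMap.opNorm_le_bound _ (by positivity) fun v => ?_
    rcases eq_or_ne v 0 with hv | hv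
    · rw [hv, map_zero, norm_zero, norm_zero, mul_zero]
    · have hv0 : 0 < ‖v‖ := norm_pos_iff.2 hv
      have h3 : ∀ s : ℝ, |s| = 1 → s * A v ≤ 100 * (A e + 2 * b) * ‖v‖ := by
        intro s hs
        have h4 := key ((s * ‖v‖⁻¹) • v) (by
          rw [norm_smul, norm_mul, norm_inv, norm_norm, Real.norm_eq_abs, hs, one_mul,
            inv_mul_cancel₀ hv0.ne'])
        rw [map_smul, smul_eq_mul] at h4
        have h5 := mul_le_mul_of_nonneg_right h4 (by positivity : 0 ≤ 100 * ‖v‖)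
        have h6 : 1 / 100 * (s * ‖v‖⁻¹ * A v) * (100 * ‖v‖) = s * A v * (‖v‖⁻¹ * ‖v‖) := by ring
        rw [h6, inv_mul_cancel₀ hv0.ne', mul_one] at h5
        linarith only [h5]
      rw [Real.norm_eq_abs, abs_le]
      constructor
      · have := h3 (-1) (by norm_num)
        linarith only [this]
      · have := h3 1 (by norm_num)
        linarith only [this]
  linarith only [h2]

/-- BLOCK VI.2. -/
theorem perTree (hd : 0 < d) (hcell : SpecCell d) (hmono : SpecMono d) : SpecPerTree d := by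
  obtain ⟨C₁, hC₁, key₁⟩ := hcell
  obtain ⟨C₂, hC₂, key₂⟩ := vi_osc_lint (d := d) hd
  have hk0 := kap_pos d
  have hk1 := kap_le hd
  refine ⟨(200 * (C₂ + (1 + 1 / 200) * (400 * C₁))).toNNReal, ?_⟩
  intro f hf hfc kT nT e W hT
  have hW : W.Nonempty := ⟨_, hT.top_mem⟩
  have h2kT : (0 : ℝ) < 2 ^ kT := by positivity
  have he := hT.norm_e
  have hlip : LipschitzWith (1 / 4) (DW W kT : E d → ℝ) := by
    refine (DW_lipschitz hW kT).weaken ?_
    rw [Real.toNNReal_le_iff_le_coe]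
    push_cast
    linarith only [hk1]
  have hlip1 : (kap d).toNNReal ≤ 1 := by
    rw [Real.toNNReal_le_iff_le_coe]
    push_cast
    linarith only [hk1]
  have hDR : ∀ y : E d, DW W kT y ≤ 2 * 2 ^ kT :=
    fun y => (DW_le W kT y).trans (by linarith only [h2kT])
  obtain ⟨L, hL⟩ := hf.lipschitzWith_of_hasCompactSupport hfc one_ne_zero
  have hu : LipschitzWith (2 * L) (cT f W kT) :=
    vi_lipschitz hL hfc hlip1 (DW_lipschitz hW kT) hDR
  -- the error functional
  obtain ⟨g, hg⟩ : ∃ g : ℕ × Lat d → ℝ, g = fun Q =>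
    eJl (99 / 100) (v0f (gradient f)) (m0f (gradient f)) Q.1 Q.2 := ⟨_, rfl⟩
  have hgJ : ∀ Q, eJ (v0f (gradient f)) (m0f (gradient f)) Q.1 Q.2 ≤ g Q := fun Q => by
    rw [hg]; exact hmono _ _ (m0f_nonneg _) _ _
  have hg0 : ∀ Q, 0 ≤ g Q := fun Q => (eJ_nonneg (m0f_nonneg _) _ _).trans (hgJ Q)
  obtain ⟨V, hV⟩ : ∃ V : ℝ, V = ‖vJ (v0f (gradient f)) kT nT‖ := ⟨_, rfl⟩
  have hV0 : 0 ≤ V := hV ▸ norm_nonneg _
  obtain ⟨S, hS⟩ : ∃ S : ℝ, S = ∑ Q ∈ W, g Q := ⟨_, rfl⟩
  have hS0 : 0 ≤ S := hS ▸ Finset.sum_nonneg fun Q _ => hg0 Q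
  -- the cell theorem
  have hF : ∀ Q : ℕ × Lat d, ∃ F : E d → ℝ≥0∞, Measurable F ∧
      ∫⁻ x, F x ≤ ENNReal.ofReal (C₁ * g Q) ∧ (Q ∈ W → ∀ (x : E d) (r : ℝ),
      (∀ i, |x i - 2 ^ Q.1 * Q.2 i| ≤ 2 * 2 ^ Q.1) →
      kap d * 2 ^ Q.1 / 2 ≤ r → r ≤ 2 * 2 ^ Q.1 → MaxAt f x (DW W kT x) (2 * 2 ^ kT) r →
      ∀ e' : E d, ‖e'‖ = 1 → ‖e' - e‖ ≤ 1 / 50 →
        ((DW W kT x < r ∧ r < 2 * 2 ^ kT) →
          ENNReal.ofReal (-(fderiv ℝ (fun y => avg f y r) x e')) ≤ F x) ∧
        ((r = DW W kT x ∨ r = 2 * 2 ^ kT) → ∀ τ : ℝ, |τ| ≤ 1 / 2 →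
          ENNReal.ofReal (-(fderiv ℝ (fun y => avg f y r) x e' +
            τ * deriv (fun ρ => avg f x ρ) r)) ≤ F x)) := by
    intro Q
    by_cases hQ : Q ∈ W
    · obtain ⟨F, hF1, hF2, hF3⟩ := key₁ f hf hfc Q.1 Q.2 e he (hT.cone Q hQ) (DW W kT)
        (2 * 2 ^ kT) hlip
      exact ⟨F, hF1, by rw [hg]; exact hF2, fun _ => hF3⟩
    · exact ⟨fun _ => 0, measurable_const, by simp, fun h => absurd h hQ⟩
  choose F hF1 hF2 hF3 using hF
  obtain ⟨G, hG⟩ : ∃ G : E d → ℝ≥0∞, G = fun x => ∑ Q ∈ W, F Q x := ⟨_, rfl⟩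
  have hGm : Measurable G := by
    rw [hG]; exact Finset.measurable_sum _ fun Q _ => hF1 Q
  have hGi : ∫⁻ x, G x ≤ ENNReal.ofReal (C₁ * S) := by
    rw [hG, lintegral_finsetSum _ fun Q _ => hF1 Q, hS, Finset.mul_sum,
      ENNReal.ofReal_sum_of_nonneg fun Q _ => mul_nonneg hC₁.le (hg0 Q)]
    exact Finset.sum_le_sum fun Q _ => hF2 Q
  have hpt : ∀ x ∈ NT kT nT, DifferentiableAt ℝ (cT f W kT) x →
      ∀ e' : E d, ‖e'‖ = 1 → ‖e' - e‖ ≤ 1 / 50 →
        ENNReal.ofReal (-(fderiv ℝ (cT f W kT) x e')) ≤ G x := by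
    intro x hx hdx e' he' hee'
    obtain ⟨r, h1, h2, h3⟩ := vi_attained (D := DW W kT) (R := 2 * 2 ^ kT)
      hf.continuous hfc (hDR x)
    have hmax : MaxAt f x (DW W kT x) (2 * 2 ^ kT) r :=
      ⟨h1, h2, fun r' h1' h2' => by rw [h3]; exact vi_avg_le hf.continuous hfc h1' h2'⟩
    have hr0 : 0 < r := lt_of_lt_of_le one_pos ((one_le_DW W kT x).trans h1)
    obtain ⟨Q, hQ, hQn, hQ1, hQ2⟩ : ∃ Q ∈ W, (∀ i, |x i - 2 ^ Q.1 * Q.2 i| ≤ 2 * 2 ^ Q.1) ∧
        kap d * 2 ^ Q.1 / 2 ≤ r ∧ r ≤ 2 * 2 ^ Q.1 := by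
      rcases le_or_gt r (kap d * 2 ^ kT) with h5 | h5
      · obtain ⟨Q, hQ, hQ1, hQ2, hQ3⟩ := hT.exists_cell hd h1 h5
        have h2Q : (0 : ℝ) < 2 ^ Q.1 := by positivity
        refine ⟨Q, hQ, hQ3, ?_, ?_⟩
        · have h6 : kap d * (2 * (r / kap d)) = 2 * r := by
            (clear * - hk0; field_simp)
          have h7 := mul_le_mul_of_nonneg_left hQ2.le hk0.le
          linarith only [h6, h7]
        · rw [div_le_iff₀ hk0] at hQ1
          nlinarith only [hQ1, hk1, h2Q]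
      · exact ⟨(kT, nT), hT.top_mem, hx, by simp only; nlinarith only [h5, hk0, h2kT], h2⟩
    have hQG : F Q x ≤ G x := by
      rw [hG]
      exact Finset.single_le_sum (f := fun Q => F Q x) (fun _ _ => zero_le) hQ
    refine le_trans ?_ hQG
    obtain ⟨c1, c2⟩ := hF3 Q hQ x r hQn hQ1 hQ2 hmax e' he' hee'
    rcases h1.lt_or_eq with h5 | h5
    · -- `D x < r`: the radius is kept
      have hev : ∀ᶠ t in 𝓝[>] (0 : ℝ), DW W kT (x + t • e') ≤ r + t * 0 ∧
          r + t * 0 ≤ 2 * 2 ^ kT := by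
        have hcont : ContinuousAt (fun t : ℝ => DW W kT (x + t • e')) 0 := by
          have := (DW_lipschitz hW kT).continuous
          have h9 : Continuous fun t : ℝ => DW W kT (x + t • e') :=
            this.comp (by fun_prop)
          exact h9.continuousAt
        have h6 := hcont.eventually_lt (continuousAt_const (y := r)) (by
          simpa only [zero_smul, add_zero] using h5)
        filter_upwards [h6.filter_mono nhdsWithin_le_nhds] with t ht
        rw [mul_zero, add_zero]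
        exact ⟨ht.le, h2⟩
      have h7 := vi_lower hf hfc (D := DW W kT) (R := 2 * 2 ^ kT) (e' := e') h3 hev hdx
      rw [zero_mul, add_zero] at h7
      have h8 : ENNReal.ofReal (-(fderiv ℝ (cT f W kT) x e')) ≤
          ENNReal.ofReal (-(fderiv ℝ (fun y => avg f y r) x e')) :=
        ENNReal.ofReal_le_ofReal (neg_le_neg h7)
      refine h8.trans ?_
      rcases h2.lt_or_eq with h9 | h9
      · exact c1 ⟨h5, h9⟩
      · have h10 := c2 (Or.inr h9) 0 (by norm_num)
        rw [zero_mul, add_zero] at h10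
        exact h10
    · -- `D x = r`
      have hev : ∀ᶠ t in 𝓝[>] (0 : ℝ), DW W kT (x + t • e') ≤ r + t * kap d ∧
          r + t * kap d ≤ 2 * 2 ^ kT := by
        have hr2 : r < 2 * 2 ^ kT := by
          have := DW_le W kT x
          linarith only [this, h5, h2kT]
        have hcont : ContinuousAt (fun t : ℝ => r + t * kap d) 0 := by fun_prop
        have h6 := hcont.eventually_lt (continuousAt_const (y := 2 * 2 ^ kT)) (by
          simpa only [zero_mul, add_zero] using hr2)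
        filter_upwards [h6.filter_mono nhdsWithin_le_nhds, self_mem_nhdsWithin] with t ht ht0
        rw [mem_Ioi] at ht0
        refine ⟨?_, ht.le⟩
        have h8 := DW_le_add hW kT x (x + t • e')
        rw [add_sub_cancel_left, norm_smul, he', mul_one, Real.norm_of_nonneg ht0.le] at h8
        linarith only [h8, h5]
      have h7 := vi_lower hf hfc (D := DW W kT) (R := 2 * 2 ^ kT) (e' := e') h3 hev hdx
      have h8 : ENNReal.ofReal (-(fderiv ℝ (cT f W kT) x e')) ≤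
          ENNReal.ofReal (-(fderiv ℝ (fun y => avg f y r) x e' +
            kap d * deriv (fun ρ => avg f x ρ) r)) :=
        ENNReal.ofReal_le_ofReal (neg_le_neg h7)
      refine h8.trans (c2 (Or.inl h5.symm) (kap d) ?_)
      rw [abs_of_pos hk0]
      linarith only [hk1]
  -- the exceptional set
  obtain ⟨U, hU⟩ : ∃ U : Set (E d), U = {x | ‖fderiv ℝ (cT f W kT) x‖ₑ ≤ 400 * G x} := ⟨_, rfl⟩
  have hUm : MeasurableSet U := by
    rw [hU]
    exact measurableSet_le (measurable_fderiv ℝ _).enorm (hGm.const_mul _)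
  have k1 : ∫⁻ x in U, ‖fderiv ℝ (cT f W kT) x‖ₑ ≤ ENNReal.ofReal (400 * C₁ * S) := by
    calc ∫⁻ x in U, ‖fderiv ℝ (cT f W kT) x‖ₑ ≤ ∫⁻ x in U, 400 * G x := by
          refine setLIntegral_mono' hUm fun x hx => ?_
          rw [hU] at hx
          exact hx
      _ ≤ ∫⁻ x, 400 * G x := setLIntegral_le_lintegral _ _
      _ = 400 * ∫⁻ x, G x := lintegral_const_mul _ hGm
      _ ≤ 400 * ENNReal.ofReal (C₁ * S) := by gcongr
      _ = ENNReal.ofReal (400 * C₁ * S) := by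
          rw [mul_assoc 400 C₁ S, ENNReal.ofReal_mul (by norm_num : (0 : ℝ) ≤ 400)]
          norm_num
  have k2 : ∫⁻ x, ENNReal.ofReal ‖lineDeriv ℝ (cutf kT nT) x (-e) *
      (cT f W kT x - refv hd f kT nT)‖ ≤ ENNReal.ofReal (C₂ * (V + S)) := by
    refine (key₂ f hf hfc kT nT e W hT (-e) (by rw [norm_neg]; exact he)).trans ?_
    refine ENNReal.ofReal_le_ofReal ?_
    rw [← hV, hS]
    have : ∑ Q ∈ W, eJ (v0f (gradient f)) (m0f (gradient f)) Q.1 Q.2 ≤ ∑ Q ∈ W, g Q :=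
      Finset.sum_le_sum fun Q _ => hgJ Q
    gcongr
  have hcover : ∀ x ∈ NT kT nT, DifferentiableAt ℝ (cT f W kT) x → x ∉ U →
      1 / 200 * ‖fderiv ℝ (cT f W kT) x‖ ≤ fderiv ℝ (cT f W kT) x e := by
    intro x hx hdx hxU
    rw [hU, mem_ofPred_eq, not_le] at hxU
    have hGtop : G x ≠ ∞ := by
      intro h
      rw [h, ENNReal.mul_top (by norm_num)] at hxU
      exact not_top_lt hxU
    obtain ⟨b, hb⟩ : ∃ b : ℝ, b = (G x).toReal := ⟨_, rfl⟩
    have hb0 : 0 ≤ b := hb ▸ ENNReal.toReal_nonneg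
    have hGb : G x = ENNReal.ofReal b := by rw [hb, ENNReal.ofReal_toReal hGtop]
    have hlt : 400 * b < ‖fderiv ℝ (cT f W kT) x‖ := by
      rw [hGb, ← ofReal_norm] at hxU
      have h1 : (400 : ℝ≥0∞) * ENNReal.ofReal b = ENNReal.ofReal (400 * b) := by
        rw [ENNReal.ofReal_mul (by norm_num : (0 : ℝ) ≤ 400)]
        norm_num
      rw [h1] at hxU
      exact (ENNReal.ofReal_lt_ofReal_iff_of_nonneg (by positivity)).1 hxU
    have h1 := vi_cone he (fderiv ℝ (cT f W kT) x) hb0 (fun e' he' hee' => by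
      have h2 := hpt x hx hdx e' he' hee'
      rw [hGb] at h2
      have h3 := (ENNReal.ofReal_le_ofReal_iff hb0).1 h2
      linarith only [h3])
    linarith only [h1, hlt]
  have hfinal := ptr_aligned (cT f W kT) (2 * L) ((2 : ℝ≥0) ^ kT)⁻¹ hu (cutf kT nT)
    (ptr_cutf_lip kT nT) (ptr_cutf_support kT nT) (ptr_cutf_nonneg kT nT)
    U (NT kT nT) (cube kT (co kT nT)) hUm (measurableSet_cube _ _) e he
    (1 / 200) (refv hd f kT nT) (400 * C₁ * S) (C₂ * (V + S)) (by norm_num) (by positivity)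
    (by positivity) (fun x hx => ptr_cutf_eq_one hx) (ptr_cutf_le_one kT nT)
    (fun x hx => ptr_cutf_eq_zero hx) hcover k1 k2
  refine hfinal.trans ?_
  have hrhs : (((200 * (C₂ + (1 + 1 / 200) * (400 * C₁))).toNNReal : ℝ≥0) : ℝ≥0∞) *
      (ENNReal.ofReal ‖vJ (v0f (gradient f)) kT nT‖ +
        ∑ Q ∈ W, ENNReal.ofReal (eJl (99 / 100) (v0f (gradient f)) (m0f (gradient f)) Q.1 Q.2)) =
      ENNReal.ofReal (200 * (C₂ + (1 + 1 / 200) * (400 * C₁)) * (V + S)) := by
    have h1 : ∑ Q ∈ W, ENNReal.ofReal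
        (eJl (99 / 100) (v0f (gradient f)) (m0f (gradient f)) Q.1 Q.2) =
        ENNReal.ofReal S := by
      rw [hS, ENNReal.ofReal_sum_of_nonneg fun Q _ => hg0 Q, hg]
    rw [h1, ← hV, ENNReal.ofReal_mul (by positivity), ENNReal.ofReal_add hV0 hS0]
    rfl
  rw [hrhs]
  refine ENNReal.ofReal_le_ofReal ?_
  have h1 : 0 ≤ C₁ * V := by positivity
  have h2 : ((1 : ℝ) / 200)⁻¹ = 200 := by norm_num
  rw [h2]
  nlinarith only [h1]

end Vale.Agent.P137.U.Cen
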