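import Vale.Agent.P137.C.Ker
import Vale.Agent.P137.C.Ident

/-!
# P137, centered operator, block III.3: bounds for the bad part (`SpecBad`)
-/

open MeasureTheory Set Filter Topology
open scoped ENNReal NNReal

namespace Vale.Agent.P137.U.Cen

open Vale.Agent.P137 Vale.Agent.P137.U

variable {d : ℕ}

/-- Oscillation of the product of a cutoff and a slowly varying field. -/
theorem sbad_osc {ω : ℕ → ℝ} (hω0 : ∀ i, 0 ≤ ω i) {k : ℕ} {a : Lat d}
    (hωk : ∀ i ≤ k, (2 : ℝ) ^ i / 2 ^ k ≤ ω i)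
    {χ : E d → ℝ} {V : E d → E d} {C1 C2 s : ℝ} (hC1 : 1 ≤ C1) (hC2 : 0 ≤ C2) (hs : 0 < s)
    (hχ1 : ∀ z, |χ z| ≤ 1)
    (hχL : ∀ i ≤ k, ∀ z z', ‖z - z'‖ ≤ √d * 2 ^ i → |χ z - χ z'| ≤ C1 * ω i)
    (hV : ∀ z z', ‖V z - V z'‖ ≤ C2 / s * ‖z - z'‖) :
    (∀ i ≤ k, ∀ c', cube i c' ⊆ cube k a → ∀ z ∈ cube i c', ∀ z' ∈ cube i c',
      ‖χ z • V z - χ z' • V z'‖ ≤ (C1 + C2 * √d * (C1 + 1)) * (‖V (pt a)‖ + 2 ^ k / s) * ω i) ∧
    ‖χ (pt a) • V (pt a)‖ ≤
      2 * ((C1 + C2 * √d * (C1 + 1)) * (‖V (pt a)‖ + 2 ^ k / s)) * ω k := by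
  have hsd : 0 ≤ √(d : ℝ) := Real.sqrt_nonneg _
  constructor
  · intro i hi c' hc' z hz z' hz'
    have hzz : ‖z - z'‖ ≤ √d * 2 ^ i := norm_sub_le_of_mem_cube hz hz'
    have e1 : χ z • V z - χ z' • V z' = (χ z - χ z') • V z + χ z' • (V z - V z') := by
      rw [sub_smul, smul_sub]
      abel
    have h1 := hχL i hi z z' hzz
    have h2 := hV z (pt a)
    have h3 := norm_sub_le_of_mem_cube (hc' hz) (pt_mem_cube k a)
    have h4 : ‖V z‖ ≤ ‖V (pt a)‖ + ‖V z - V (pt a)‖ := by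
      calc ‖V z‖ = ‖V (pt a) + (V z - V (pt a))‖ := by congr 1; abel
        _ ≤ _ := norm_add_le _ _
    have h5 : C2 / s * ‖z - pt a‖ ≤ C2 / s * (√d * 2 ^ k) :=
      mul_le_mul_of_nonneg_left h3 (by positivity)
    have h6 := hV z z'
    have h7 : C2 / s * ‖z - z'‖ ≤ C2 / s * (√d * 2 ^ i) :=
      mul_le_mul_of_nonneg_left hzz (by positivity)
    have h8 : (2 : ℝ) ^ i ≤ 2 ^ k * ω i := by
      have := hωk i hi
      rwa [div_le_iff₀ (by positivity), mul_comm] at this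
    have h9 : C2 / s * (√d * 2 ^ i) ≤ C2 / s * (√d * (2 ^ k * ω i)) := by
      refine mul_le_mul_of_nonneg_left (mul_le_mul_of_nonneg_left h8 hsd) (by positivity)
    have hωi := hω0 i
    have h10 : ‖(χ z - χ z') • V z‖ ≤
        C1 * ω i * (‖V (pt a)‖ + C2 / s * (√d * 2 ^ k)) := by
      rw [norm_smul, Real.norm_eq_abs]
      refine mul_le_mul h1 (by linarith only [h2, h4, h5]) (norm_nonneg _) (by positivity)
    have h11 : ‖χ z' • (V z - V z')‖ ≤ C2 / s * (√d * (2 ^ k * ω i)) := by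
      rw [norm_smul, Real.norm_eq_abs]
      have h12 : |χ z'| * ‖V z - V z'‖ ≤ 1 * ‖V z - V z'‖ :=
        mul_le_mul_of_nonneg_right (hχ1 z') (norm_nonneg _)
      linarith only [h12, h6, h7, h9]
    have h13 : ‖χ z • V z - χ z' • V z'‖ ≤ C1 * ω i * (‖V (pt a)‖ +
        C2 / s * (√d * 2 ^ k)) + C2 / s * (√d * (2 ^ k * ω i)) := by
      rw [e1]
      exact (norm_add_le _ _).trans (add_le_add h10 h11)
    refine h13.trans ?_
    have h14 : 0 ≤ ω i * ‖V (pt a)‖ * (C2 * √d * (C1 + 1)) := by positivity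
    have h15 : 0 ≤ ω i * (2 ^ k / s) * C1 := by positivity
    have e2 : C1 * ω i * (‖V (pt a)‖ + C2 / s * (√d * 2 ^ k)) +
        C2 / s * (√d * (2 ^ k * ω i)) = C1 * ω i * ‖V (pt a)‖ +
        ω i * (2 ^ k / s) * (C2 * √d * (C1 + 1)) := by ring
    rw [e2]
    have e3 : (C1 + C2 * √d * (C1 + 1)) * (‖V (pt a)‖ + 2 ^ k / s) * ω i =
        C1 * ω i * ‖V (pt a)‖ + ω i * (2 ^ k / s) * (C2 * √d * (C1 + 1)) +
        (ω i * ‖V (pt a)‖ * (C2 * √d * (C1 + 1)) + ω i * (2 ^ k / s) * C1) := by ring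
    rw [e3]
    linarith only [h14, h15]
  · have h1 : 1 ≤ ω k := by
      have := hωk k le_rfl
      rwa [div_self (by positivity)] at this
    have h2 : ‖χ (pt a) • V (pt a)‖ ≤ ‖V (pt a)‖ := by
      rw [norm_smul, Real.norm_eq_abs]
      have := mul_le_mul_of_nonneg_right (hχ1 (pt a)) (norm_nonneg (V (pt a)))
      linarith only [this]
    have h0 : 0 ≤ (C1 + C2 * √d * (C1 + 1)) * (‖V (pt a)‖ + 2 ^ k / s) := by positivity
    have h3 : ‖V (pt a)‖ ≤ (C1 + C2 * √d * (C1 + 1)) * (‖V (pt a)‖ + 2 ^ k / s) := by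
      have h4 : 0 ≤ C2 * √d * (C1 + 1) * (‖V (pt a)‖ + 2 ^ k / s) := by positivity
      have h5 : ‖V (pt a)‖ ≤ C1 * (‖V (pt a)‖ + 2 ^ k / s) := by
        have h6 : 0 ≤ 2 ^ k / s := by positivity
        have h7 := norm_nonneg (V (pt a))
        have h8 := mul_le_mul_of_nonneg_right hC1 (add_nonneg h7 h6)
        linarith only [h8, h6]
      linarith only [h4, h5]
    have h6 := mul_le_mul_of_nonneg_left h1 h0
    have h7 := mul_nonneg h0 (hω0 k)
    linarith only [h2, h3, h6, h7]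

/-- A cell meeting the shell is a cell of the family `Sh`. -/
theorem sbad_shell_cell {k : ℕ} {c : Lat d} {x z : E d} {r a : ℝ} (hz : z ∈ cube k (co k c))
    (h : |‖z - x‖ - r| ≤ a * 2 ^ k) : |‖pt (co k c) - x‖ - r| ≤ (a + √d) * 2 ^ k := by
  have h1 := norm_sub_le_of_mem_cube hz (pt_mem_cube k (co k c))
  have h2 : |‖pt (co k c) - x‖ - ‖z - x‖| ≤ ‖z - pt (co k c)‖ := by
    have := abs_norm_sub_norm_le (pt (co k c) - x) (z - x)
    rwa [sub_sub_sub_cancel_right, norm_sub_rev (pt (co k c)) z] at this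
  rw [abs_le] at h h2 ⊢
  constructor <;> linarith only [h.1, h.2, h2.1, h2.2, h1]

theorem sbad_fld_sub (e' : E d) (τ : ℝ) (N z z' : E d) :
    fld e' τ N z - fld e' τ N z' =
      τ • (z - z') + ((inner ℝ e' (z - z') : ℝ) • N - (inner ℝ N (z - z') : ℝ) • e') := by
  unfold fld
  rw [inner_sub_right, inner_sub_right, sub_smul, sub_smul, smul_sub]
  abel

theorem sbad_fld_lip {e' N : E d} {τ : ℝ} (he : ‖e'‖ ≤ 1) (hN : ‖N‖ ≤ 1) (hτ : |τ| ≤ 1)
    (z z' : E d) : ‖fld e' τ N z - fld e' τ N z'‖ ≤ 3 * ‖z - z'‖ := by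
  rw [sbad_fld_sub]
  have h0 := norm_nonneg (z - z')
  have h1 : ‖τ • (z - z')‖ ≤ 1 * ‖z - z'‖ := by
    rw [norm_smul, Real.norm_eq_abs]
    exact mul_le_mul_of_nonneg_right hτ h0
  have h2 : ‖(inner ℝ e' (z - z') : ℝ) • N‖ ≤ 1 * ‖z - z'‖ := by
    rw [norm_smul]
    have h3 := norm_inner_le_norm (𝕜 := ℝ) e' (z - z')
    have h4 : ‖e'‖ * ‖z - z'‖ ≤ 1 * ‖z - z'‖ := mul_le_mul_of_nonneg_right he h0
    calc ‖(inner ℝ e' (z - z') : ℝ)‖ * ‖N‖ ≤ (1 * ‖z - z'‖) * 1 :=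
          mul_le_mul (h3.trans h4) hN (norm_nonneg _) (by positivity)
      _ = _ := by ring
  have h3 : ‖(inner ℝ N (z - z') : ℝ) • e'‖ ≤ 1 * ‖z - z'‖ := by
    rw [norm_smul]
    have h3 := norm_inner_le_norm (𝕜 := ℝ) N (z - z')
    have h4 : ‖N‖ * ‖z - z'‖ ≤ 1 * ‖z - z'‖ := mul_le_mul_of_nonneg_right hN h0
    calc ‖(inner ℝ N (z - z') : ℝ)‖ * ‖e'‖ ≤ (1 * ‖z - z'‖) * 1 :=
          mul_le_mul (h3.trans h4) he (norm_nonneg _) (by positivity)
      _ = _ := by ring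
  have h4 := norm_add_le (τ • (z - z'))
    ((inner ℝ e' (z - z') : ℝ) • N - (inner ℝ N (z - z') : ℝ) • e')
  have h5 := norm_sub_le ((inner ℝ e' (z - z') : ℝ) • N) ((inner ℝ N (z - z') : ℝ) • e')
  linarith only [h1, h2, h3, h4, h5]

theorem sbad_fld_le {e' N : E d} {τ : ℝ} (he : ‖e'‖ ≤ 1) (hN : ‖N‖ ≤ 1) (hτ : |τ| ≤ 1)
    (z : E d) : ‖fld e' τ N z‖ ≤ 1 + 3 * ‖z‖ := by
  have h1 := sbad_fld_lip he hN hτ z 0
  have h2 : fld e' τ N 0 = e' := by
    unfold fld
    simp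
  rw [h2, sub_zero] at h1
  have h3 : ‖fld e' τ N z‖ ≤ ‖e'‖ + ‖fld e' τ N z - e'‖ := by
    calc ‖fld e' τ N z‖ = ‖e' + (fld e' τ N z - e')‖ := by congr 1; abel
      _ ≤ _ := norm_add_le _ _
  linarith only [h1, h3, he]

namespace Blk

variable {B : Blk d} {e x : E d} {r : ℝ}

theorem s_le_rad (hr : B.rad r) : kap d * B.s / 2 ≤ r := hr.1

theorem rad_pos (hr : B.rad r) : 0 < r := by
  have h1 := hr.1
  have h2 := kap_pos d
  have h3 := B.s_pos
  have : 0 < kap d * B.s / 2 := by positivity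
  linarith

/-- Points at distance at most `3 s` of the centre lie in the block. -/
theorem mem_block (hx : B.near x) {z : E d} (hz : ‖z - x‖ ≤ 3 * B.s) :
    z ∈ cube (B.j + 6) (bc B.j B.n) := by
  intro i
  have h1 : |(z - x) i| ≤ 3 * B.s := (abs_apply_le_norm _ _).trans hz
  have h2 := hx i
  simp only [PiLp.sub_apply] at h1
  have h3 : B.s = 2 ^ B.j := rfl
  rw [h3] at h1
  have hp : (0 : ℝ) < 2 ^ B.j := by positivity
  have h4 : ((bc B.j B.n i : ℤ) : ℝ) = 2 ^ B.j * B.n i - 32 * 2 ^ B.j := by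
    simp only [bc]
    push_cast
    rw [pow_add]
    norm_num
    ring
  rw [h4, pow_add]
  rw [abs_le] at h1 h2
  constructor
  · linarith only [h1.1, h2.1, hp]
  · norm_num
    linarith only [h1.2, h2.2, hp]

/-- The block as a union of cells of level `lv m`. -/
theorem block_eq (B : Blk d) (m : ℕ) :
    cube (B.j + 6) (bc B.j B.n) = (cube (B.lv m + (B.j + 6 - B.lv m))
      (co (B.lv m) (fun i => 2 ^ (B.j - B.lv m) * (B.n i - 32))) : Set (E d)) := by
  have h1 : B.lv m + (B.j + 6 - B.lv m) = B.j + 6 := by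
    have := B.lv_le m
    omega
  have h2 : co (B.lv m) (fun i => 2 ^ (B.j - B.lv m) * (B.n i - 32)) = bc B.j B.n := by
    funext i
    have h3 : (2 : ℤ) ^ B.j = 2 ^ B.lv m * 2 ^ (B.j - B.lv m) := by
      rw [← pow_add]
      congr 1
      have := B.lv_le m
      omega
    simp only [bc, co]
    rw [pow_add, h3]
    ring
  rw [h1, h2]

theorem v0f_bad (h : B.OK e) : v0f (fun z => B.g z - gam B.c0 z) = B.w :=
  funext fun a => v0f_sub_gam h.g_int B.c0 a

theorem integrable_bad (h : B.OK e) : Integrable fun z => B.g z - gam B.c0 z :=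
  h.g_int.sub (integrable_gam h)

theorem mm_bad_le (h : B.OK e) {ω : ℕ → ℝ} (hω : ∀ i, 0 ≤ ω i) (k : ℕ) (a : Lat d) :
    mm ω (v0f fun z => B.g z - gam B.c0 z) (fun c => ‖v0f B.g c - B.c0 c‖ + 2 * m0f B.g c) k a ≤
      2 * mm ω B.w B.m2 k a := by
  rw [v0f_bad h]
  exact ker_mm_two (w := B.w) (m := B.m2) hω B.m2_nonneg k a

end Blk

/-- **Bad part estimate, general cutoff near the sphere.** -/
theorem sbad_core {B : Blk d} {e x : E d} {r : ℝ} (hOK : B.OK e) (hr : B.rad r)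
    {m : ℕ} (hm : B.valid m) {χ : E d → ℝ} (hχm : Measurable χ) {C1 : ℝ} (hC1 : 1 ≤ C1)
    (hχ1 : ∀ z, |χ z| ≤ 1)
    (hχL : ∀ i ≤ B.lv m, ∀ z z', ‖z - z'‖ ≤ √d * 2 ^ i →
      |χ z - χ z'| ≤ C1 * wt (B.lv (m + 1)) i)
    (hblk : ∀ z, χ z ≠ 0 → z ∈ cube (B.j + 6) (bc B.j B.n))
    (hring : ∀ z, χ z ≠ 0 → |‖z - x‖ - r| ≤ 2 * B.H m)
    {e' N : E d} {τ : ℝ} (he : ‖e'‖ ≤ 1) (hN : ‖N‖ ≤ 1) (hτ : |τ| ≤ 1) :
    |∫ z, χ z * inner ℝ (fld e' τ N (r⁻¹ • (z - x))) (B.g z - gam B.c0 z)| ≤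
      4 * (C1 + 6 / kap d * √d * (C1 + 1)) * ∑ c ∈ B.Sh m x r,
          (‖fld e' τ N (r⁻¹ • (B.pos m c - x))‖ + B.rho m) * B.MM m c := by
  classical
  have hk := kap_pos d
  have hs := B.s_pos
  have hr0 : 0 < r := Blk.rad_pos hr
  have hsd : 0 ≤ √(d : ℝ) := Real.sqrt_nonneg _
  set V : E d → E d := fun z => fld e' τ N (r⁻¹ • (z - x)) with hVdef
  have hV : ∀ z z', ‖V z - V z'‖ ≤ 6 / kap d / B.s * ‖z - z'‖ := by
    intro z z'
    have h1 := sbad_fld_lip he hN hτ (r⁻¹ • (z - x)) (r⁻¹ • (z' - x))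
    rw [← smul_sub, sub_sub_sub_cancel_right, norm_smul, norm_inv, Real.norm_eq_abs,
      abs_of_pos hr0] at h1
    refine h1.trans ?_
    rw [← mul_assoc]
    refine mul_le_mul_of_nonneg_right ?_ (norm_nonneg _)
    rw [← div_eq_mul_inv, div_div, div_le_div_iff₀ hr0 (by positivity)]
    have h2 := hr.1
    linarith only [h2]
  have hVL : LipschitzWith (6 / kap d / B.s).toNNReal V := by
    refine LipschitzWith.of_dist_le_mul fun z z' => ?_
    rw [dist_eq_norm, dist_eq_norm, Real.coe_toNNReal _ (by positivity)]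
    exact hV z z'
  have hVc : Continuous V := hVL.continuous
  have hlv : B.lv (m + 1) ≤ B.lv m := B.lv_anti (Nat.le_succ m)
  have hωk : ∀ i ≤ B.lv m, (2 : ℝ) ^ i / 2 ^ B.lv m ≤ wt (B.lv (m + 1)) i :=
    fun i hi => le_wt hi hlv
  have hC2 : 0 ≤ 6 / kap d := by positivity
  have key0 : ∀ c : Lat d, _ := fun c => sbad_osc (wt_nonneg (B.lv (m + 1)))
    (a := co (B.lv m) c) hωk hC1 hC2 hs hχ1 hχL hV
  have hblk' : ∀ z, z ∉ cube (B.lv m + (B.j + 6 - B.lv m))
      (co (B.lv m) (fun i => 2 ^ (B.j - B.lv m) * (B.n i - 32))) → χ z = 0 := by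
    intro z hz
    rw [← B.block_eq m] at hz
    exact by_contra fun h => hz (hblk z h)
  -- boundedness of the kernel
  have hKb : ∀ z, ‖χ z • V z‖ ≤ 1 + 3 * (r⁻¹ * (r + 2 * B.H m)) := by
    intro z
    by_cases hz : χ z = 0
    · have := B.H_pos m
      rw [hz, zero_smul, norm_zero]
      positivity
    · have h1 := hring z hz
      have h2 : ‖z - x‖ ≤ r + 2 * B.H m := by
        rw [abs_le] at h1
        linarith only [h1.2]
      have h3 := sbad_fld_le he hN hτ (r⁻¹ • (z - x))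
      rw [norm_smul, norm_inv, Real.norm_eq_abs r, abs_of_pos hr0] at h3
      have h4 : r⁻¹ * ‖z - x‖ ≤ r⁻¹ * (r + 2 * B.H m) :=
        mul_le_mul_of_nonneg_left h2 (by positivity)
      rw [norm_smul, Real.norm_eq_abs]
      have h5 := mul_le_mul_of_nonneg_right (hχ1 z) (norm_nonneg (V z))
      have h6 : ‖V z‖ ≤ 1 + 3 * (r⁻¹ * ‖z - x‖) := h3
      linarith only [h5, h6, h4]
  have hSh : B.Sh m x r ⊆ blkJ (B.j + 6 - B.lv m) (fun i => 2 ^ (B.j - B.lv m) * (B.n i - 32)) :=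
    Finset.filter_subset _ _
  have hB0 : ∀ c : Lat d, 0 ≤ (C1 + 6 / kap d * √d * (C1 + 1)) *
      (‖V (pt (co (B.lv m) c))‖ + 2 ^ B.lv m / B.s) := fun c => by positivity
  have key := ker_cover (K := fun z => χ z • V z) (ω := wt (B.lv (m + 1)))
    (m0 := fun c => ‖v0f B.g c - B.c0 c‖ + 2 * m0f B.g c) (Blk.integrable_bad hOK)
    (wt_nonneg _) (wt_succ _) (hχm.aestronglyMeasurable.smul hVc.aestronglyMeasurable) hKb
    (fun c _ => m0f_sub_gam_le hOK.g_int B.c0 c) hSh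
    (fun z hz => by rw [hblk' z hz, zero_smul]) ?_
    (fun c => (C1 + 6 / kap d * √d * (C1 + 1)) *
      (‖V (pt (co (B.lv m) c))‖ + 2 ^ B.lv m / B.s)) (fun c _ => hB0 c)
    (fun c _ => (key0 c).1) (fun c _ => (key0 c).2)
  · have e1 : ∫ z, inner ℝ (χ z • V z) (B.g z - gam B.c0 z) =
        ∫ z, χ z * inner ℝ (fld e' τ N (r⁻¹ • (z - x))) (B.g z - gam B.c0 z) := by
      refine integral_congr_ae (Eventually.of_forall fun z => ?_)
      simp only [hVdef]
      rw [real_inner_smul_left]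
    rw [e1] at key
    refine key.trans ?_
    rw [Finset.mul_sum]
    refine Finset.sum_le_sum fun c _ => ?_
    have h1 := Blk.mm_bad_le hOK (wt_nonneg (B.lv (m + 1))) (B.lv m) (co (B.lv m) c)
    have h2 : 2 ^ B.lv m / B.s ≤ B.rho m := by
      have h3 := B.H_eq hm
      have h4 : (2 : ℝ) ^ B.lv m = B.H m := rfl
      rw [h4, h3, mul_div_assoc, mul_comm, div_mul_cancel₀ _ hs.ne']
      have h5 := B.rho_nonneg m
      have h6 := B.rho_le_one m
      calc B.rho m ^ 16 ≤ B.rho m ^ 1 := pow_le_pow_of_le_one h5 h6 (by norm_num)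
        _ = B.rho m := pow_one _
    have h3 : 2 * ((C1 + 6 / kap d * √d * (C1 + 1)) *
        (‖V (pt (co (B.lv m) c))‖ + 2 ^ B.lv m / B.s)) *
        mm (wt (B.lv (m + 1))) (v0f fun z => B.g z - gam B.c0 z)
          (fun c => ‖v0f B.g c - B.c0 c‖ + 2 * m0f B.g c) (B.lv m) (co (B.lv m) c) ≤
        2 * ((C1 + 6 / kap d * √d * (C1 + 1)) *
        (‖V (pt (co (B.lv m) c))‖ + B.rho m)) * (2 * B.MM m c) := by
      have h4 : 0 ≤ C1 + 6 / kap d * √d * (C1 + 1) := by positivity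
      have h5 : (C1 + 6 / kap d * √d * (C1 + 1)) *
        (‖V (pt (co (B.lv m) c))‖ + 2 ^ B.lv m / B.s) ≤ (C1 + 6 / kap d * √d * (C1 + 1)) *
        (‖V (pt (co (B.lv m) c))‖ + B.rho m) :=
        mul_le_mul_of_nonneg_left (by linarith only [h2]) h4
      have h6 : 0 ≤ mm (wt (B.lv (m + 1))) (v0f fun z => B.g z - gam B.c0 z)
          (fun c => ‖v0f B.g c - B.c0 c‖ + 2 * m0f B.g c) (B.lv m) (co (B.lv m) c) :=
        mm_nonneg (wt_nonneg _) (fun a => add_nonneg (norm_nonneg _)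
          (mul_nonneg (by norm_num) (m0f_nonneg _ _))) _ _
      have h7 := hB0 c
      exact mul_le_mul (by linarith only [h5]) h1 h6 (by linarith only [h5, h7])
    refine h3.trans (le_of_eq ?_)
    have h8 : V (pt (co (B.lv m) c)) = fld e' τ N (r⁻¹ • (B.pos m c - x)) := rfl
    rw [h8]
    ring
  · intro c hc hcS z hz
    have hz0 : χ z = 0 := by
      by_contra h
      refine hcS ?_
      unfold Blk.Sh
      rw [Finset.mem_filter]
      exact ⟨hc, sbad_shell_cell hz (hring z h)⟩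
    rw [hz0, zero_smul]


/-! ### The cutoffs -/

/-- Common bounds for the profile `th d a b` when `b ≤ 2 a`. -/
theorem sbad_th (hd : 0 < d) {a b : ℝ} (ha : 0 < a) (hab : a < b) (h2 : b ≤ 2 * a) :
    (∀ ρ, 0 ≤ th d a b ρ ∧ th d a b ρ ≤ 1) ∧
    (∀ ρ ρ', |th d a b ρ - th d a b ρ'| ≤ 2 ^ (d + 1) / (b - a) * |ρ - ρ'|) ∧
    (∀ ρ, ρ ≤ a → th d a b ρ = 1) ∧ (∀ ρ, b ≤ ρ → th d a b ρ = 0) ∧
    Continuous (th d a b) := by
  refine ⟨fun ρ => ?_, fun ρ ρ' => ?_, fun ρ hρ => ?_, fun ρ hρ => ?_, ?_⟩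
  · rw [Id.th_eq hd ha hab]
    exact ⟨Id.thr_nonneg hd ha hab ρ, Id.thr_le_one hd ha hab ρ⟩
  · rw [Id.th_eq hd ha hab, Id.th_eq hd ha hab]
    refine (Id.abs_thr_sub_le hd ha hab ρ ρ').trans ?_
    refine mul_le_mul_of_nonneg_right ?_ (abs_nonneg _)
    refine div_le_div_of_nonneg_right ?_ (sub_pos.2 hab).le
    refine pow_le_pow_left₀ (div_nonneg (ha.trans hab).le ha.le) ?_ _
    rw [div_le_iff₀ ha]
    exact h2
  · rw [Id.th_eq hd ha hab]
    exact Id.thr_of_le hd ha hab hρ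
  · rw [Id.th_eq hd ha hab]
    exact Id.thr_of_ge ha hab hρ
  · have h3 : th d a b = Id.thr d a b := funext fun ρ => Id.th_eq hd ha hab ρ
    rw [h3]
    exact Id.continuous_thr ha

theorem sbad_measurable_Th (B : Blk d) (x : E d) (r : ℝ) (m : ℕ) : Measurable (Th B x r m) := by
  unfold Th
  split_ifs with h
  · unfold th
    fun_prop
  · refine Measurable.ite ?_ measurable_const measurable_const
    exact measurableSet_le (by fun_prop) measurable_const

/-- The band widths are small compared to the radius. -/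
theorem sbad_exists_S0 (d : ℕ) : ∃ S0 : ℕ, ∀ (B : Blk d), S0 ≤ B.s0 → ∀ (r : ℝ), B.rad r →
    ∀ m, B.valid m → 2 * B.H m ≤ r := by
  have hk := kap_pos d
  obtain ⟨S0, hS0⟩ := exists_pow_lt_of_lt_one (by positivity : 0 < kap d / 4)
    (by norm_num : (1 / 2 : ℝ) < 1)
  refine ⟨S0, fun B hB r hr m hm => ?_⟩
  have h1 : B.rho m ≤ kap d / 4 := by
    refine (B.rho_le m).trans (le_trans ?_ hS0.le)
    exact pow_le_pow_of_le_one (by norm_num) (by norm_num) hB
  have h2 : B.rho m ^ 16 ≤ B.rho m := by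
    calc B.rho m ^ 16 ≤ B.rho m ^ 1 :=
          pow_le_pow_of_le_one (B.rho_nonneg m) (B.rho_le_one m) (by norm_num)
      _ = B.rho m := pow_one _
  have h3 : B.H m ≤ B.s * (kap d / 4) := by
    rw [B.H_eq hm]
    exact mul_le_mul_of_nonneg_left (h2.trans h1) B.s_pos.le
  have h4 := hr.1
  linarith only [h3, h4]

/-- All the properties of `Θ_m` that are used. -/
theorem sbad_Th (hd : 0 < d) {B : Blk d} {r : ℝ} {m : ℕ} (hm : B.valid m)
    (hH : 2 * B.H m ≤ r) (x : E d) :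
    (∀ z, 0 ≤ Th B x r m z ∧ Th B x r m z ≤ 1) ∧
    (∀ z z', |Th B x r m z - Th B x r m z'| ≤ 2 ^ (d + 1) / B.H m * ‖z - z'‖) ∧
    (∀ z, ‖z - x‖ ≤ r - B.H m → Th B x r m z = 1) ∧ (∀ z, r ≤ ‖z - x‖ → Th B x r m z = 0) := by
  have h0 := B.H_pos m
  have ha : 0 < r - B.H m := by linarith
  have hab : r - B.H m < r := by linarith
  obtain ⟨h1, h2, h3, h4, -⟩ := sbad_th hd ha hab (by linarith)
  have e : ∀ z, Th B x r m z = th d (r - B.H m) r ‖z - x‖ := fun z => by
    unfold Th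
    rw [if_pos hm]
  refine ⟨fun z => ?_, fun z z' => ?_, fun z hz => ?_, fun z hz => ?_⟩
  · rw [e]; exact h1 _
  · rw [e, e]
    refine (h2 _ _).trans ?_
    rw [sub_sub_cancel]
    refine mul_le_mul_of_nonneg_left ?_ (by positivity)
    have := abs_norm_sub_norm_le (z - x) (z' - x)
    rwa [sub_sub_sub_cancel_right] at this
  · rw [e]; exact h3 _ hz
  · rw [e]; exact h4 _ hz

/-- `Θ_m` for a band that does not exist. -/
theorem sbad_Th' {B : Blk d} {r : ℝ} {m : ℕ} (hm : ¬ B.valid m) (x z : E d) :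
    Th B x r m z = if ‖z - x‖ ≤ r then 1 else 0 := by
  unfold Th
  rw [if_neg hm]

/-- From a Lipschitz bound at the scale `2^t` to the oscillation hypothesis with the weights
`wt t`. -/
theorem sbad_osc_of_lip {χ : E d → ℝ} {t : ℕ} {L C1 : ℝ} (hL : 0 ≤ L) (hC1 : 2 ≤ C1)
    (hLC : L * √d ≤ C1) (hχ1 : ∀ z, |χ z| ≤ 1)
    (hχL : ∀ z z', |χ z - χ z'| ≤ L / 2 ^ t * ‖z - z'‖) (i : ℕ) (z z' : E d)
    (hzz : ‖z - z'‖ ≤ √d * 2 ^ i) : |χ z - χ z'| ≤ C1 * wt t i := by
  rcases Nat.lt_or_ge i t with h | h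
  · rw [wt_of_ge h.le]
    refine (hχL z z').trans ?_
    have h1 : L / 2 ^ t * ‖z - z'‖ ≤ L / 2 ^ t * (√d * 2 ^ i) :=
      mul_le_mul_of_nonneg_left hzz (by positivity)
    refine h1.trans ?_
    have h2 : L / 2 ^ t * (√d * 2 ^ i) = L * √d * (2 ^ i / 2 ^ t) := by ring
    rw [h2]
    exact mul_le_mul_of_nonneg_right hLC (by positivity)
  · rw [wt_of_le h, mul_one]
    have h1 := hχ1 z
    have h2 := hχ1 z'
    rw [abs_le] at h1 h2 ⊢
    constructor <;> linarith only [h1.1, h1.2, h2.1, h2.2, hC1]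

/-- The cutoff `Θ_{m+1} - Θ_m`. -/
theorem sbad_diff (hd : 0 < d) {B : Blk d} {r : ℝ} {m : ℕ} (hm : B.valid m)
    (hH : ∀ i, B.valid i → 2 * B.H i ≤ r) (x : E d) :
    (∀ z, |Th B x r (m + 1) z - Th B x r m z| ≤ 1) ∧
    (∀ i z z', ‖z - z'‖ ≤ √d * 2 ^ i →
      |(Th B x r (m + 1) z - Th B x r m z) - (Th B x r (m + 1) z' - Th B x r m z')| ≤
        (2 + 2 ^ (d + 2) * √d) * wt (B.lv (m + 1)) i) ∧
    (∀ z, Th B x r (m + 1) z - Th B x r m z ≠ 0 → |‖z - x‖ - r| ≤ B.H m) := by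
  have h0 := B.H_pos m
  have hsd : 0 ≤ √(d : ℝ) := Real.sqrt_nonneg _
  obtain ⟨t1, t2, t3, t4⟩ := sbad_Th hd hm (hH m hm) x
  by_cases hv : B.valid (m + 1)
  · obtain ⟨u1, u2, u3, u4⟩ := sbad_Th hd hv (hH (m + 1) hv) x
    have hb : ∀ z, |Th B x r (m + 1) z - Th B x r m z| ≤ 1 := by
      intro z
      have h1 := t1 z
      have h2 := u1 z
      rw [abs_le]
      constructor <;> linarith [h1.1, h1.2, h2.1, h2.2]
    refine ⟨hb, ?_, ?_⟩
    · intro i z z' hzz
      refine sbad_osc_of_lip (χ := fun z => Th B x r (m + 1) z - Th B x r m z)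
        (L := 2 ^ (d + 2)) (by positivity) (by linarith [mul_nonneg (by positivity : (0 : ℝ) ≤ 2 ^ (d + 2)) hsd])
        (by linarith) hb ?_ i z z' hzz
      intro z z'
      have h1 := t2 z z'
      have h2 := u2 z z'
      have h3 : (2 : ℝ) ^ (d + 1) / B.H m ≤ 2 ^ (d + 1) / B.H (m + 1) :=
        div_le_div_of_nonneg_left (by positivity) (B.H_pos _) (B.H_anti (Nat.le_succ m))
      have h4 := mul_le_mul_of_nonneg_right h3 (norm_nonneg (z - z'))
      have h5 : (2 : ℝ) ^ (d + 2) / 2 ^ B.lv (m + 1) * ‖z - z'‖ =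
          2 ^ (d + 1) / B.H (m + 1) * ‖z - z'‖ + 2 ^ (d + 1) / B.H (m + 1) * ‖z - z'‖ := by
        have : B.H (m + 1) = 2 ^ B.lv (m + 1) := rfl
        rw [this]
        ring
      rw [h5]
      rw [abs_le] at h1 h2 ⊢
      constructor <;> linarith only [h1.1, h1.2, h2.1, h2.2, h4]
    · intro z hz
      rw [abs_le]
      constructor
      · by_contra hcon
        push Not at hcon
        apply hz
        rw [t3 z (by linarith), u3 z (by linarith [B.H_anti (Nat.le_succ m)]), sub_self]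
      · by_contra hcon
        push Not at hcon
        apply hz
        rw [t4 z (by linarith), u4 z (by linarith), sub_self]
  · have e := fun z => sbad_Th' hv x z (r := r)
    have hb : ∀ z, |Th B x r (m + 1) z - Th B x r m z| ≤ 1 := by
      intro z
      have h1 := t1 z
      rw [e z, abs_le]
      split_ifs <;> constructor <;> linarith [h1.1, h1.2]
    have hlv : B.lv (m + 1) = 0 := by
      unfold Blk.valid at hv
      unfold Blk.lv
      omega
    refine ⟨hb, ?_, ?_⟩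
    · intro i z z' _
      rw [hlv, wt_of_le (Nat.zero_le i), mul_one]
      have h1 := hb z
      have h2 := hb z'
      have h3 : 0 ≤ (2 : ℝ) ^ (d + 2) * √d := by positivity
      rw [abs_le] at h1 h2 ⊢
      constructor <;> linarith only [h1.1, h1.2, h2.1, h2.2, h3]
    · intro z hz
      rw [e z] at hz
      rw [abs_le]
      constructor
      · by_contra hcon
        push Not at hcon
        apply hz
        rw [t3 z (by linarith), if_pos (by linarith), sub_self]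
      · by_contra hcon
        push Not at hcon
        apply hz
        rw [t4 z (by linarith), if_neg (by linarith), sub_self]

/-- The hat function `ξ_m`. -/
theorem sbad_xi (hd : 0 < d) {B : Blk d} {r : ℝ} {m : ℕ} (_hm : B.valid m)
    (hH : 2 * B.H m ≤ r) (x : E d) :
    Measurable (xi B x r m) ∧
    (∀ z, |xi B x r m z| ≤ 1) ∧
    (∀ z z', |xi B x r m z - xi B x r m z'| ≤ 2 ^ (d + 2) / 2 ^ B.lv m * ‖z - z'‖) ∧
    (∀ z, xi B x r m z ≠ 0 → |‖z - x‖ - r| ≤ B.H m) := by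
  have h0 := B.H_pos m
  have ha : 0 < r - B.H m := by linarith
  have hab : r - B.H m < r := by linarith
  have hr : 0 < r := by linarith
  obtain ⟨h1, h2, h3, h4, -⟩ := sbad_th hd ha hab (by linarith)
  obtain ⟨k1, k2, k3, k4, -⟩ := sbad_th hd hr (by linarith : r < r + B.H m) (by linarith)
  refine ⟨?_, fun z => ?_, fun z z' => ?_, fun z hz => ?_⟩
  · unfold xi th
    fun_prop
  · unfold xi
    have e1 := h1 ‖z - x‖
    have e2 := k1 ‖z - x‖
    rw [abs_le]
    constructor <;> linarith [e1.1, e1.2, e2.1, e2.2]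
  · unfold xi
    have e1 := h2 ‖z - x‖ ‖z' - x‖
    have e2 := k2 ‖z - x‖ ‖z' - x‖
    rw [sub_sub_cancel] at e1
    rw [add_sub_cancel_left] at e2
    have e3 : |‖z - x‖ - ‖z' - x‖| ≤ ‖z - z'‖ := by
      have := abs_norm_sub_norm_le (z - x) (z' - x)
      rwa [sub_sub_sub_cancel_right] at this
    have e4 : (2 : ℝ) ^ (d + 1) / B.H m * |‖z - x‖ - ‖z' - x‖| ≤
        2 ^ (d + 1) / B.H m * ‖z - z'‖ := mul_le_mul_of_nonneg_left e3 (by positivity)
    have e5 : (2 : ℝ) ^ (d + 2) / 2 ^ B.lv m * ‖z - z'‖ =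
        2 ^ (d + 1) / B.H m * ‖z - z'‖ + 2 ^ (d + 1) / B.H m * ‖z - z'‖ := by
      have : B.H m = 2 ^ B.lv m := rfl
      rw [this]
      ring
    rw [e5]
    rw [abs_le] at e1 e2 ⊢
    constructor <;> linarith only [e1.1, e1.2, e2.1, e2.2, e4]
  · unfold xi at hz
    rw [abs_le]
    constructor
    · by_contra hcon
      push Not at hcon
      apply hz
      rw [h3 _ (by linarith), k3 _ (by linarith), sub_self]
    · by_contra hcon
      push Not at hcon
      apply hz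
      rw [h4 _ (by linarith), k4 _ (by linarith), sub_self]

/-- **BLOCK III.3**: bad part bounds. -/
theorem specBad (hd : 0 < d) : SpecBad d := by
  classical
  have hk := kap_pos d
  have hsd : 0 ≤ √(d : ℝ) := Real.sqrt_nonneg _
  obtain ⟨S0, hS0⟩ := sbad_exists_S0 d
  obtain ⟨C1, hC1⟩ : ∃ C1 : ℝ, C1 = 2 + 2 ^ (d + 2) * √d := ⟨_, rfl⟩
  have hC12 : 2 ≤ C1 := by
    have : 0 ≤ (2 : ℝ) ^ (d + 2) * √d := by positivity
    linarith
  obtain ⟨C2, hC2⟩ : ∃ C2 : ℝ, C2 = 4 * (C1 + 6 / kap d * √d * (C1 + 1)) := ⟨_, rfl⟩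
  have hC20 : 0 < C2 := by
    rw [hC2]
    positivity
  refine ⟨C2 * (5 + √d), S0, by positivity, ?_⟩
  intro s0 hs0
  obtain ⟨C3, hC3⟩ : ∃ C3 : ℝ, C3 = 2 + 2 ^ (d + 1) * √d * 2 ^ (16 * s0) := ⟨_, rfl⟩
  have hC32 : 2 ≤ C3 := by
    have : 0 ≤ (2 : ℝ) ^ (d + 1) * √d * 2 ^ (16 * s0) := by positivity
    linarith
  refine ⟨4 * ((C3 + 6 / kap d * √d * (C3 + 1)) * ((1 + 3 * (68 * √d / kap d)) + 64)),
    by positivity, ?_⟩
  intro B e hBs hOK hv0 x r hx hr e' N τ he hN hτ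
  have hs0B : S0 ≤ B.s0 := by rw [hBs]; exact hs0
  have hH : ∀ i, B.valid i → 2 * B.H i ≤ r := fun i hi => hS0 B hs0B r hr i hi
  have hs := B.s_pos
  have hr0 : 0 < r := Blk.rad_pos hr
  have hblk : ∀ {m : ℕ} {z : E d}, B.valid m → |‖z - x‖ - r| ≤ B.H m →
      z ∈ cube (B.j + 6) (bc B.j B.n) := by
    intro m z hm h
    refine Blk.mem_block hx ?_
    have h1 := B.H_le_s m
    have h2 := hr.2
    rw [abs_le] at h
    linarith only [h.2, h1, h2]
  refine ⟨fun m hm => ?_, fun m hm => ?_, ?_⟩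
  · obtain ⟨c1, c2, c3⟩ := sbad_diff hd hm hH x
    have key := sbad_core hOK hr hm (x := x)
      (χ := fun z => Th B x r (m + 1) z - Th B x r m z)
      ((sbad_measurable_Th B x r (m + 1)).sub (sbad_measurable_Th B x r m)) (C1 := C1)
      (by linarith) c1 (fun i _ z z' hzz => by rw [hC1]; exact c2 i z z' hzz)
      (fun z hz => hblk hm (c3 z hz))
      (fun z hz => (c3 z hz).trans (by linarith [B.H_pos m])) he hN hτ
    refine key.trans ?_
    rw [← hC2]
    refine mul_le_mul_of_nonneg_right (by nlinarith only [hC20, hsd]) ?_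
    exact Finset.sum_nonneg fun c _ => mul_nonneg
      (add_nonneg (norm_nonneg _) (B.rho_nonneg m)) (B.MM_nonneg m c)
  · obtain ⟨c0, c1, c2, c3⟩ := sbad_xi hd hm (hH m hm) x
    have hC1' : 2 ^ (d + 2) * √d ≤ C1 := by rw [hC1]; linarith
    have key := sbad_core hOK hr hm (x := x)
      (χ := xi B x r m) c0 (C1 := C1) (by linarith) c1
      (fun i _ z z' hzz => (sbad_osc_of_lip (by positivity) hC12 hC1' c1 c2 i z z' hzz).trans
        (mul_le_mul_of_nonneg_left (wt_anti (B.lv_anti (Nat.le_succ m)) i) (by linarith)))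
      (fun z hz => hblk hm (c3 z hz))
      (fun z hz => (c3 z hz).trans (by linarith [B.H_pos m]))
      (e' := 0) (N := 0) (τ := 1) (by simp) (by simp) (by simp)
    have e1 : ∀ z : E d, fld 0 1 0 z = z := by
      intro z
      unfold fld
      simp
    simp only [e1] at key
    refine key.trans ?_
    rw [← hC2]
    have h1 : ∑ c ∈ B.Sh m x r, (‖r⁻¹ • (B.pos m c - x)‖ + B.rho m) * B.MM m c ≤
        ∑ c ∈ B.Sh m x r, (5 + √d) * B.MM m c := by
      refine Finset.sum_le_sum fun c hc => ?_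
      refine mul_le_mul_of_nonneg_right ?_ (B.MM_nonneg m c)
      unfold Blk.Sh at hc
      rw [Finset.mem_filter] at hc
      have h2 := hc.2
      have h3 := hH m hm
      have h4 : ‖B.pos m c - x‖ ≤ r + (2 + √d) * B.H m := by
        rw [abs_le] at h2
        linarith only [h2.2]
      have h5 : (2 + √d) * B.H m ≤ (2 + √d) * r :=
        mul_le_mul_of_nonneg_left (by linarith [B.H_pos m]) (by positivity)
      have h6 : ‖r⁻¹ • (B.pos m c - x)‖ ≤ 3 + √d := by
        rw [norm_smul, norm_inv, Real.norm_eq_abs, abs_of_pos hr0, inv_mul_le_iff₀ hr0]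
        linarith only [h4, h5]
      have h7 := B.rho_le_one m
      linarith only [h6, h7]
    rw [← Finset.mul_sum] at h1
    have h2 := mul_le_mul_of_nonneg_left h1 hC20.le
    refine h2.trans (le_of_eq ?_)
    unfold Blk.b
    ring
  · have hH0 := hH 0 hv0
    obtain ⟨t1, t2, t3, t4⟩ := sbad_Th hd hv0 hH0 x
    have hχ1 : ∀ z, |Th B x r 0 z| ≤ 1 := fun z => by
      rw [abs_of_nonneg (t1 z).1]
      exact (t1 z).2
    have hsupp : ∀ z, Th B x r 0 z ≠ 0 → z ∈ cube (B.j + 6) (bc B.j B.n) := by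
      intro z hz
      refine Blk.mem_block hx ?_
      have h1 : ‖z - x‖ ≤ r := by
        by_contra hcon
        push Not at hcon
        exact hz (t4 z hcon.le)
      have h2 := hr.2
      linarith only [h1, h2, hs]
    set V : E d → E d := fun z => fld e' τ N (r⁻¹ • (z - x)) with hVdef
    have hV : ∀ z z', ‖V z - V z'‖ ≤ 6 / kap d / B.s * ‖z - z'‖ := by
      intro z z'
      have h1 := sbad_fld_lip he hN hτ (r⁻¹ • (z - x)) (r⁻¹ • (z' - x))
      rw [← smul_sub, sub_sub_sub_cancel_right, norm_smul, norm_inv, Real.norm_eq_abs,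
        abs_of_pos hr0] at h1
      refine h1.trans ?_
      rw [← mul_assoc]
      refine mul_le_mul_of_nonneg_right ?_ (norm_nonneg _)
      rw [← div_eq_mul_inv, div_div, div_le_div_iff₀ hr0 (by positivity)]
      have h2 := hr.1
      linarith only [h2]
    have hVL : LipschitzWith (6 / kap d / B.s).toNNReal V := by
      refine LipschitzWith.of_dist_le_mul fun z z' => ?_
      rw [dist_eq_norm, dist_eq_norm, Real.coe_toNNReal _ (by positivity)]
      exact hV z z'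
    have hVc : Continuous V := hVL.continuous
    have hlipT : ∀ z z', |Th B x r 0 z - Th B x r 0 z'| ≤
        2 ^ (d + 1) * 2 ^ (16 * s0) / 2 ^ B.j * ‖z - z'‖ := by
      intro z z'
      refine (t2 z z').trans (le_of_eq ?_)
      congr 1
      have h1 : (2 : ℝ) ^ B.j = B.H 0 * 2 ^ (16 * s0) := by
        unfold Blk.H Blk.lv
        unfold Blk.valid at hv0
        rw [hBs] at hv0
        rw [← pow_add]
        congr 1
        rw [hBs]
        omega
      rw [h1, mul_div_mul_right _ _ (by positivity)]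
    have key0 := sbad_osc (wt_nonneg B.j) (k := B.j + 6) (a := bc B.j B.n)
      (fun i hi => le_wt hi (Nat.le_add_right _ _)) (χ := Th B x r 0) (V := V) (C1 := C3)
      (C2 := 6 / kap d) (s := B.s) (by linarith) (by positivity) hs hχ1
      (fun i _ z z' hzz => sbad_osc_of_lip (by positivity) hC32
        (by rw [hC3]; linarith) hχ1 hlipT i z z' hzz) hV
    have hB0 : 0 ≤ (C3 + 6 / kap d * √d * (C3 + 1)) *
        (‖V (pt (bc B.j B.n))‖ + 2 ^ (B.j + 6) / B.s) := by positivity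
    have key := ker_multi (gb := fun z => B.g z - gam B.c0 z) (K := fun z => Th B x r 0 z • V z)
      (m := fun c => ‖v0f B.g c - B.c0 c‖ + 2 * m0f B.g c) hB0
      (wt_nonneg B.j) (wt_succ B.j)
      ((sbad_measurable_Th B x r 0).aestronglyMeasurable.smul hVc.aestronglyMeasurable)
      (Blk.integrable_bad hOK).integrableOn
      (fun c _ => m0f_sub_gam_le hOK.g_int B.c0 c) key0.1 key0.2
    have e1 : ∫ z in cube (B.j + 6) (bc B.j B.n), inner ℝ (Th B x r 0 z • V z)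
        (B.g z - gam B.c0 z) = ∫ z, Th B x r 0 z *
        inner ℝ (fld e' τ N (r⁻¹ • (z - x))) (B.g z - gam B.c0 z) := by
      rw [setIntegral_eq_integral_of_forall_compl_eq_zero]
      · refine integral_congr_ae (Eventually.of_forall fun z => ?_)
        simp only [hVdef]
        rw [real_inner_smul_left]
      · intro z hz
        have h1 : Th B x r 0 z = 0 := by_contra fun h => hz (hsupp z h)
        rw [h1, zero_smul, inner_zero_left]
    rw [e1] at key
    refine key.trans ?_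
    have h1 := Blk.mm_bad_le hOK (wt_nonneg B.j) (B.j + 6) (bc B.j B.n)
    have h2 : (2 : ℝ) ^ (B.j + 6) / B.s = 64 := by
      have h3 : B.s = 2 ^ B.j := rfl
      rw [h3, pow_add, mul_div_assoc, mul_comm, div_mul_cancel₀ _ (by positivity)]
      norm_num
    have h3 : ‖V (pt (bc B.j B.n))‖ ≤ 1 + 3 * (68 * √d / kap d) := by
      have h4 := sbad_fld_le he hN hτ (r⁻¹ • (pt (bc B.j B.n) - x))
      refine h4.trans ?_
      have h5 : ‖pt (bc B.j B.n) - x‖ ≤ √d * (34 * B.s) := by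
        refine norm_le_of_abs_apply_le (by positivity) fun i => ?_
        have h6 := hx i
        have h7 : B.s = 2 ^ B.j := rfl
        have h8 : ((bc B.j B.n i : ℤ) : ℝ) = 2 ^ B.j * B.n i - 32 * 2 ^ B.j := by
          simp only [bc]
          push_cast
          rw [pow_add]
          norm_num
          ring
        simp only [PiLp.sub_apply, pt_apply]
        rw [h8, h7]
        rw [abs_le] at h6 ⊢
        constructor <;> linarith only [h6.1, h6.2]
      have h6 : ‖r⁻¹ • (pt (bc B.j B.n) - x)‖ ≤ 68 * √d / kap d := by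
        rw [norm_smul, norm_inv, Real.norm_eq_abs, abs_of_pos hr0, inv_mul_le_iff₀ hr0]
        refine h5.trans ?_
        have h7 := hr.1
        have h8 : kap d * B.s / 2 * (68 * √d / kap d) ≤ r * (68 * √d / kap d) :=
          mul_le_mul_of_nonneg_right h7 (by positivity)
        refine le_trans (le_of_eq ?_) h8
        field_simp
        ring
      linarith only [h6]
    have h4 : 0 ≤ C3 + 6 / kap d * √d * (C3 + 1) := by positivity
    have h5 : (C3 + 6 / kap d * √d * (C3 + 1)) *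
        (‖V (pt (bc B.j B.n))‖ + 2 ^ (B.j + 6) / B.s) ≤ (C3 + 6 / kap d * √d * (C3 + 1)) *
        ((1 + 3 * (68 * √d / kap d)) + 64) :=
      mul_le_mul_of_nonneg_left (by linarith only [h2, h3]) h4
    have h6 : 0 ≤ mm (wt B.j) (v0f fun z => B.g z - gam B.c0 z)
        (fun c => ‖v0f B.g c - B.c0 c‖ + 2 * m0f B.g c) (B.j + 6) (bc B.j B.n) :=
      mm_nonneg (wt_nonneg _) (fun a => add_nonneg (norm_nonneg _)
        (mul_nonneg (by norm_num) (m0f_nonneg _ _))) _ _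
    have h7 : 2 * ((C3 + 6 / kap d * √d * (C3 + 1)) *
        (‖V (pt (bc B.j B.n))‖ + 2 ^ (B.j + 6) / B.s)) *
        mm (wt B.j) (v0f fun z => B.g z - gam B.c0 z)
        (fun c => ‖v0f B.g c - B.c0 c‖ + 2 * m0f B.g c) (B.j + 6) (bc B.j B.n) ≤
        2 * ((C3 + 6 / kap d * √d * (C3 + 1)) * ((1 + 3 * (68 * √d / kap d)) + 64)) *
        (2 * B.E0) :=
      mul_le_mul (by linarith only [h5]) h1 h6 (by linarith only [h5, hB0])
    refine h7.trans (le_of_eq ?_)
    ring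

end Vale.Agent.P137.U.Cen
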