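import Vale.Agent.P137.C.Blk1
import Vale.Agent.P137.C.Glue
import Vale.Agent.P137.C.Cell
import Vale.Agent.P137.C.PerTree
import Vale.Agent.P137.C.MajB
import Vale.Agent.P137.C.MajC
import Vale.Agent.P137.C.MajD
import Vale.Agent.P137.C.Ident
import Vale.Agent.P137.C.SBad
import Vale.Agent.P137.C.LemG
import Vale.Agent.P137.C.PWb
import Vale.Agent.P137.C.PW2
import Vale.Agent.P137.C.PW1
import Vale.Agent.P137.C.Good

/-!
# P137: the centered operator on all of `W^{1,1}`, in every dimension
-/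

namespace Vale.Agent.P137

open Vale.Agent.P137.U.Cen

theorem centeredBound (d : ℕ) (hd : 0 < d) :
    ∃ C : ℝ, CenteredBound (EuclideanSpace ℝ (Fin d)) C :=
  Co2.centeredBound_of hd (specForest hd) (specOrigin d)
    (perTree hd
      (cell (specII d) (specId hd) (specPW2 (pw1 hd (specGood hd) (specBad hd) (specId hd)))
        (pwb hd (specBad hd)) (specMajB hd) (specMajB' hd) (Mj.specMajC hd) (Mj.specMajD hd))
      (specMono d))

/-- Both operators with the same constant. -/
theorem bothBound (d : ℕ) (hd : 0 < d) :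
    ∃ C : ℝ, CenteredBound (EuclideanSpace ℝ (Fin d)) C ∧
      UncenteredBound (EuclideanSpace ℝ (Fin d)) C := by
  obtain ⟨C₁, h₁⟩ := centeredBound d hd
  obtain ⟨C₂, h₂⟩ := uncenteredBound d hd
  refine ⟨max C₁ C₂, ?_, ?_⟩
  · intro f g hf hg hw
    obtain ⟨h3, G, h4, h5, h6⟩ := h₁ f g hf hg hw
    refine ⟨h3, G, h4, h5, h6.trans ?_⟩
    exact mul_le_mul_of_nonneg_right (le_max_left _ _)
      (MeasureTheory.integral_nonneg fun _ => norm_nonneg _)
  · intro f g hf hg hw
    obtain ⟨h3, G, h4, h5, h6⟩ := h₂ f g hf hg hw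
    refine ⟨h3, G, h4, h5, h6.trans ?_⟩
    exact mul_le_mul_of_nonneg_right (le_max_right _ _)
      (MeasureTheory.integral_nonneg fun _ => norm_nonneg _)

end Vale.Agent.P137
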