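import Vale.Agent.P137.C.Spec

/-!
# P137, centered operator, block I.3: comparison of the two error functionals.
-/

open MeasureTheory Set Filter Topology
open scoped ENNReal NNReal

namespace Vale.Agent.P137.U.Cen.Mo

open Vale.Agent.P137 Vale.Agent.P137.U Vale.Agent.P137.U.Cen

variable {d : ℕ}

theorem mo_ee_le_el (v0 : Lat d → E d) (m0 : Lat d → ℝ) (h : ∀ a, 0 ≤ m0 a) (k : ℕ) (a : Lat d) :
    ee v0 m0 k a ≤ el (99 / 100) v0 m0 k a := by
  induction k generalizing a with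
  | zero => exact le_rfl
  | succ k ih =>
    rw [ee, el]
    have h1 : (√2 : ℝ)⁻¹ ≤ 99 / 100 := by
      rw [inv_le_comm₀ (by positivity) (by norm_num)]
      refine Real.le_sqrt_of_sq_le ?_
      norm_num
    have h2 : ∑ b ∈ offs d, ee v0 m0 k (a + (2 : ℤ) ^ k • b) ≤
        ∑ b ∈ offs d, el (99 / 100) v0 m0 k (a + (2 : ℤ) ^ k • b) :=
      Finset.sum_le_sum fun b _ => ih _
    have h3 : 0 ≤ ∑ b ∈ offs d, ee v0 m0 k (a + (2 : ℤ) ^ k • b) :=
      Finset.sum_nonneg fun b _ => ee_nonneg h _ _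
    have h4 := mul_le_mul h1 h2 h3 (by norm_num)
    linarith only [h4]

/-- BLOCK I.3. -/
theorem specMono (d : ℕ) : SpecMono d := fun v0 m0 h k n => mo_ee_le_el v0 m0 h (k + 6) (bc k n)

end Vale.Agent.P137.U.Cen.Mo
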