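import Vale.Agent.P137.C.Spec

/-!
# P137, centered operator, block I.2: averaging over the origins (weight `99/100`).
-/

open MeasureTheory Set Filter Topology
open scoped ENNReal NNReal

namespace Vale.Agent.P137.U.Cen.Or

open Vale.Agent.P137 Vale.Agent.P137.U Vale.Agent.P137.U.Cen

variable {d : ℕ}

theorem or_el_nonneg {v0 : Lat d → E d} {m0 : Lat d → ℝ} (h : ∀ a, 0 ≤ m0 a) (k : ℕ) (a : Lat d) :
    0 ≤ el (99 / 100) v0 m0 k a := by
  induction k generalizing a with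
  | zero => exact h a
  | succ k ih =>
    rw [el]
    have h1 := dl_nonneg v0 k a
    have h2 : 0 ≤ ∑ b ∈ offs d, el (99 / 100) v0 m0 k (a + (2 : ℤ) ^ k • b) :=
      Finset.sum_nonneg fun b _ => ih _
    (clear * - h1 h2; positivity)

theorem or_el_shift (v0 : Lat d → E d) (m0 : Lat d → ℝ) (ω : Lat d) (k : ℕ) (a : Lat d) :
    el (99 / 100) (fun c => v0 (c + ω)) (fun c => m0 (c + ω)) k a =
      el (99 / 100) v0 m0 k (a + ω) := by
  induction k generalizing a with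
  | zero => rfl
  | succ k ih =>
    simp only [el, dl_shift]
    congr 2
    refine Finset.sum_congr rfl fun b _ => ?_
    rw [ih, add_right_comm]

/-- The sum of the masses of all blocks of level `k`, over all lattice corners. -/
noncomputable def sV (v0 : Lat d → E d) (k : ℕ) : ℝ≥0∞ :=
  ∑' a : Lat d, ENNReal.ofReal ‖vv v0 k a‖

/-- The sum of the refinement defects over all lattice corners. -/
noncomputable def sD (v0 : Lat d → E d) (k : ℕ) : ℝ≥0∞ :=
  ∑' a : Lat d, ENNReal.ofReal (dl v0 k a)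

/-- The sum of the error functionals over all lattice corners. -/
noncomputable def sE (v0 : Lat d → E d) (m0 : Lat d → ℝ) (k : ℕ) : ℝ≥0∞ :=
  ∑' a : Lat d, ENNReal.ofReal (el (99 / 100) v0 m0 k a)

theorem tsum_shift (F : Lat d → ℝ≥0∞) (c : Lat d) : ∑' a, F (a + c) = ∑' a, F a :=
  (Equiv.addRight c).tsum_eq F

theorem tsum_offs (F : Lat d → ℝ≥0∞) (m : ℤ) :
    ∑' a : Lat d, ∑ b ∈ offs d, F (a + m • b) = 2 ^ d * ∑' a, F a := by
  rw [Summable.tsum_finsetSum (fun _ _ => ENNReal.summable)]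
  simp only [tsum_shift]
  rw [Finset.sum_const, card_offs, nsmul_eq_mul]
  norm_cast

theorem sD_add_sV (v0 : Lat d → E d) (k : ℕ) :
    sD v0 k + sV v0 (k + 1) = 2 ^ d * sV v0 k := by
  rw [sD, sV, sV, ← tsum_offs (fun a => ENNReal.ofReal ‖vv v0 k a‖) ((2 : ℤ) ^ k),
    ← ENNReal.tsum_add]
  refine tsum_congr fun a => ?_
  rw [← ENNReal.ofReal_add (dl_nonneg v0 k a) (norm_nonneg _),
    ← ENNReal.ofReal_sum_of_nonneg (fun _ _ => norm_nonneg _)]
  congr 1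
  rw [dl]
  ring

theorem sE_succ (v0 : Lat d → E d) {m0 : Lat d → ℝ} (h : ∀ a, 0 ≤ m0 a) (k : ℕ) :
    sE v0 m0 (k + 1) = sD v0 k + ENNReal.ofReal (99 / 100) * (2 ^ d * sE v0 m0 k) := by
  rw [sE, sD, sE, ← tsum_offs (fun a => ENNReal.ofReal (el (99 / 100) v0 m0 k a)) ((2 : ℤ) ^ k),
    ← ENNReal.tsum_mul_left, ← ENNReal.tsum_add]
  refine tsum_congr fun a => ?_
  have h1 : 0 ≤ ∑ b ∈ offs d, el (99 / 100) v0 m0 k (a + (2 : ℤ) ^ k • b) :=
    Finset.sum_nonneg fun _ _ => or_el_nonneg h _ _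
  rw [← ENNReal.ofReal_sum_of_nonneg (fun _ _ => or_el_nonneg h _ _),
    ← ENNReal.ofReal_mul (by positivity), ← ENNReal.ofReal_add (dl_nonneg v0 k a)
      (mul_nonneg (by positivity) h1)]
  rfl

theorem one_add_q : 1 + 100 * ENNReal.ofReal (99 / 100) ≤ 100 := by
  have h1 : (100 : ℝ≥0∞) = ENNReal.ofReal 100 := by norm_num
  have h2 : (1 : ℝ≥0∞) = ENNReal.ofReal 1 := by norm_num
  rw [h1, ← ENNReal.ofReal_mul (by norm_num), h2, ← ENNReal.ofReal_add (by norm_num) (by norm_num)]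
  refine ENNReal.ofReal_le_ofReal ?_
  norm_num

/-- The potential argument. -/
theorem potential (v0 : Lat d → E d) {m0 : Lat d → ℝ} (h : ∀ a, 0 ≤ m0 a) (N : ℕ) :
    (∑ k ∈ Finset.range N, (2 ^ d) ^ (N - k) * sE v0 m0 k) + 100 * sE v0 m0 N + 100 * sV v0 N
      ≤ (2 ^ d) ^ N * (100 * sE v0 m0 0 + 100 * sV v0 0) := by
  induction N with
  | zero => simp only [Finset.range_zero, zero_tsub, pow_zero, one_mul, Finset.sum_empty, zero_add, Std.le_refl]
  | succ N ih =>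
    have h1 : ∑ k ∈ Finset.range (N + 1), ((2 : ℝ≥0∞) ^ d) ^ (N + 1 - k) * sE v0 m0 k
        = 2 ^ d * (∑ k ∈ Finset.range N, (2 ^ d) ^ (N - k) * sE v0 m0 k)
          + 2 ^ d * sE v0 m0 N := by
      rw [Finset.sum_range_succ, Finset.mul_sum]
      congr 1
      · refine Finset.sum_congr rfl fun k hk => ?_
        have : N + 1 - k = (N - k) + 1 := by
          have := Finset.mem_range.1 hk
          omega
        rw [this, pow_succ, mul_comm (((2 : ℝ≥0∞) ^ d) ^ (N - k)), mul_assoc]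
      · simp only [add_tsub_cancel_left, pow_one]
    rw [h1, sE_succ v0 h]
    calc (2 : ℝ≥0∞) ^ d * (∑ k ∈ Finset.range N, (2 ^ d) ^ (N - k) * sE v0 m0 k)
          + 2 ^ d * sE v0 m0 N
          + 100 * (sD v0 N + ENNReal.ofReal (99 / 100) * (2 ^ d * sE v0 m0 N)) + 100 * sV v0 (N + 1)
        = 2 ^ d * (∑ k ∈ Finset.range N, (2 ^ d) ^ (N - k) * sE v0 m0 k)
          + (1 + 100 * ENNReal.ofReal (99 / 100)) * (2 ^ d * sE v0 m0 N)
          + 100 * (sD v0 N + sV v0 (N + 1)) := by ring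
      _ ≤ 2 ^ d * (∑ k ∈ Finset.range N, (2 ^ d) ^ (N - k) * sE v0 m0 k)
          + 100 * (2 ^ d * sE v0 m0 N) + 100 * (sD v0 N + sV v0 (N + 1)) := by
          gcongr
          exact one_add_q
      _ = 2 ^ d * ((∑ k ∈ Finset.range N, (2 ^ d) ^ (N - k) * sE v0 m0 k)
          + 100 * sE v0 m0 N + 100 * sV v0 N) := by
          rw [sD_add_sV]
          ring
      _ ≤ 2 ^ d * ((2 ^ d) ^ N * (100 * sE v0 m0 0 + 100 * sV v0 0)) := by gcongr
      _ = (2 ^ d) ^ (N + 1) * (100 * sE v0 m0 0 + 100 * sV v0 0) := by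
          rw [pow_succ]
          ring

theorem potential' (v0 : Lat d → E d) {m0 : Lat d → ℝ} (h : ∀ a, ‖v0 a‖ ≤ m0 a) (K : ℕ) :
    ∑ k ∈ Finset.range (K + 1), (2 ^ d) ^ (K - k) * sE v0 m0 (k + 6)
      ≤ (2 ^ d) ^ (K + 7) * (200 * ∑' a, ENNReal.ofReal (m0 a)) := by
  have h0 : ∀ a, 0 ≤ m0 a := fun a => (norm_nonneg _).trans (h a)
  have hS : sV v0 0 ≤ ∑' a, ENNReal.ofReal (m0 a) :=
    ENNReal.tsum_le_tsum fun a => ENNReal.ofReal_le_ofReal (h a)
  have hE : sE v0 m0 0 = ∑' a, ENNReal.ofReal (m0 a) := rfl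
  have h1 : (1 : ℝ≥0∞) ≤ 2 ^ d := one_le_pow₀ (by norm_num)
  calc ∑ k ∈ Finset.range (K + 1), ((2 : ℝ≥0∞) ^ d) ^ (K - k) * sE v0 m0 (k + 6)
      ≤ ∑ k ∈ Finset.range (K + 1), ((2 : ℝ≥0∞) ^ d) ^ (K + 7 - (k + 6)) * sE v0 m0 (k + 6) := by
        refine Finset.sum_le_sum fun k _ => mul_le_mul_left (pow_le_pow_right₀ h1 ?_) _
        omega
    _ ≤ ∑ k ∈ Finset.range (K + 7), ((2 : ℝ≥0∞) ^ d) ^ (K + 7 - k) * sE v0 m0 k := by
        have h2 := Finset.sum_range_add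
          (fun k => ((2 : ℝ≥0∞) ^ d) ^ (K + 7 - k) * sE v0 m0 k) 6 (K + 1)
        rw [show 6 + (K + 1) = K + 7 by ring] at h2
        rw [h2]
        refine le_add_left (le_of_eq (Finset.sum_congr rfl fun k _ => ?_))
        rw [add_comm 6 k]
    _ ≤ (∑ k ∈ Finset.range (K + 7), ((2 : ℝ≥0∞) ^ d) ^ (K + 7 - k) * sE v0 m0 k)
          + 100 * sE v0 m0 (K + 7) + 100 * sV v0 (K + 7) := by
        rw [add_assoc]
        exact le_self_add
    _ ≤ _ := potential v0 h0 (K + 7)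
    _ ≤ (2 ^ d) ^ (K + 7) * (200 * ∑' a, ENNReal.ofReal (m0 a)) := by
        gcongr
        rw [hE]
        calc 100 * ∑' a, ENNReal.ofReal (m0 a) + 100 * sV v0 0
            ≤ 100 * ∑' a, ENNReal.ofReal (m0 a) + 100 * ∑' a, ENNReal.ofReal (m0 a) := by gcongr
          _ = 200 * ∑' a, ENNReal.ofReal (m0 a) := by ring

/-- Averaging over origins at one scale. -/
theorem shift_sum (G : Lat d → ℝ≥0∞) {k K : ℕ} (hk : k ≤ K) :
    ∑ ω ∈ Fintype.piFinset (fun _ : Fin d => Finset.Ico (0 : ℤ) (2 ^ K)),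
      ∑' n : Lat d, G (bc k n + ω) ≤ (2 ^ d) ^ (K - k) * ∑' a, G a := by
  classical
  set A : Finset (Lat d) := Fintype.piFinset (fun _ : Fin d => Finset.Ico (0 : ℤ) (2 ^ K)) with hA
  set B : Finset (Lat d) :=
    Fintype.piFinset (fun _ : Fin d => Finset.Ico (0 : ℤ) (2 ^ (K - k))) with hB
  have hcard : B.card = (2 ^ d) ^ (K - k) := by
    rw [hB, Fintype.card_piFinset]
    simp only [Int.card_Ico, sub_zero, Finset.prod_const, Finset.card_univ, Fintype.card_fin]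
    rw [← pow_mul, mul_comm d, pow_mul]
    congr 1
  have hmem : ∀ ω ∈ A, (fun i => ω i / 2 ^ k) ∈ B := by
    intro ω hω
    rw [hB, Fintype.mem_piFinset]
    rw [hA, Fintype.mem_piFinset] at hω
    intro i
    have := Finset.mem_Ico.1 (hω i)
    refine Finset.mem_Ico.2 ⟨Int.ediv_nonneg this.1 (by positivity), ?_⟩
    refine Int.ediv_lt_of_lt_mul (by positivity) ?_
    rw [← pow_add, Nat.sub_add_cancel hk]
    exact this.2
  let φ : ↥A × Lat d → ↥B × Lat d := fun p =>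
    (⟨fun i => p.1.1 i / 2 ^ k, hmem p.1.1 p.1.2⟩, bc k p.2 + p.1.1)
  have hφ : Function.Injective φ := by
    rintro ⟨⟨ω, hω⟩, n⟩ ⟨⟨ω', hω'⟩, n'⟩ h
    have h1 : ∀ i, ω i / 2 ^ k = ω' i / 2 ^ k := fun i =>
      congrFun (congrArg Subtype.val (congrArg Prod.fst h)) i
    have h2 : ∀ i, (2 : ℤ) ^ k * n i - 2 ^ (k + 5) + ω i = 2 ^ k * n' i - 2 ^ (k + 5) + ω' i :=
      fun i => congrFun (congrArg Prod.snd h) i
    have h3 : ∀ i, ω i = ω' i := by
      intro i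
      have e1 : (2 : ℤ) ^ k * n i + ω i = 2 ^ k * n' i + ω' i := by linarith only [h2 i]
      have e2 : ω i % 2 ^ k = ω' i % 2 ^ k := by
        have := congrArg (fun t : ℤ => t % 2 ^ k) e1
        simpa only [Int.add_emod, Int.mul_emod_right, zero_add, dvd_refl, Int.emod_emod_of_dvd] using this
      have e3 := Int.mul_ediv_add_emod (ω i) (2 ^ k)
      have e4 := Int.mul_ediv_add_emod (ω' i) (2 ^ k)
      rw [← e3, ← e4, h1 i, e2]
    have h4 : ω = ω' := funext h3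
    have h5 : n = n' := by
      funext i
      have e1 : (2 : ℤ) ^ k * n i = 2 ^ k * n' i := by linarith only [h2 i, h3 i]
      exact mul_left_cancel₀ (by positivity) e1
    subst h4
    subst h5
    rfl
  calc ∑ ω ∈ A, ∑' n : Lat d, G (bc k n + ω)
      = ∑' ω : ↥A, ∑' n : Lat d, G (bc k n + ω) := by
        rw [tsum_fintype, Finset.sum_coe_sort A (fun ω => ∑' n : Lat d, G (bc k n + ω))]
    _ = ∑' p : ↥A × Lat d, G (bc k p.2 + p.1) := ENNReal.tsum_prod.symm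
    _ = ∑' p : ↥A × Lat d, G (φ p).2 := rfl
    _ ≤ ∑' p : ↥B × Lat d, G p.2 := ENNReal.tsum_comp_le_tsum_of_injective hφ (fun p => G p.2)
    _ = ∑' c : ↥B, ∑' a : Lat d, G a := ENNReal.tsum_prod (f := fun _ a => G a)
    _ = (2 ^ d) ^ (K - k) * ∑' a, G a := by
        rw [tsum_fintype, Finset.sum_const, Finset.card_univ, Fintype.card_coe, hcard,
          nsmul_eq_mul]
        norm_cast

theorem specOrigin (d : ℕ) : SpecOrigin d := by
  show ∃ C : ℝ≥0, ∀ (K : ℕ) (v0 : Lat d → E d) (m0 : Lat d → ℝ),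
    (∀ a, ‖v0 a‖ ≤ m0 a) → Summable m0 →
    ∑ ω ∈ Fintype.piFinset (fun _ : Fin d => Finset.Ico (0 : ℤ) (2 ^ K)),
      ∑ k ∈ Finset.range (K + 1), ∑' n : Lat d,
        ENNReal.ofReal (eJl (99 / 100) (fun a => v0 (a + ω)) (fun a => m0 (a + ω)) k n)
      ≤ C * 2 ^ (K * d) * ∑' a, ENNReal.ofReal (m0 a)
  refine ⟨(2 ^ d) ^ 7 * 200, fun K v0 m0 h _ => ?_⟩
  rw [Finset.sum_comm]
  calc ∑ k ∈ Finset.range (K + 1),
        ∑ ω ∈ Fintype.piFinset (fun _ : Fin d => Finset.Ico (0 : ℤ) (2 ^ K)), ∑' n : Lat d,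
          ENNReal.ofReal (eJl (99 / 100) (fun a => v0 (a + ω)) (fun a => m0 (a + ω)) k n)
      ≤ ∑ k ∈ Finset.range (K + 1), (2 ^ d) ^ (K - k) * sE v0 m0 (k + 6) := by
        refine Finset.sum_le_sum fun k hk => ?_
        have hk' : k ≤ K := Nat.lt_succ_iff.1 (Finset.mem_range.1 hk)
        refine le_trans (le_of_eq ?_)
          (shift_sum (fun a => ENNReal.ofReal (el (99 / 100) v0 m0 (k + 6) a)) hk')
        refine Finset.sum_congr rfl fun ω _ => tsum_congr fun n => ?_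
        rw [eJl, or_el_shift]
    _ ≤ (2 ^ d) ^ (K + 7) * (200 * ∑' a, ENNReal.ofReal (m0 a)) := potential' v0 h K
    _ = ((2 ^ d) ^ 7 * 200 : ℝ≥0) * 2 ^ (K * d) * ∑' a, ENNReal.ofReal (m0 a) := by
        push_cast
        rw [pow_add, mul_comm K d, pow_mul]
        ring


end Vale.Agent.P137.U.Cen.Or
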