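import Vale.Agent.P137.C.Basic

/-!
# P137, centered operator, block II (summation): sums over the subcubes of a cube, packing of the
weights, `SpecII` from the cone approximation (Lemma G).
-/

set_option linter.all false

open MeasureTheory Set
open scoped ENNReal NNReal

namespace Vale.Agent.P137.U.Cen.Pack

open Vale.Agent.P137 Vale.Agent.P137.U Vale.Agent.P137.U.Cen

variable {d : ℕ}

/-- Sum of `F k` over the subcubes of level `k` of `cube K a` (for `k ≤ K`). -/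
noncomputable def lsum (F : ℕ → Lat d → ℝ) (K : ℕ) (a : Lat d) (k : ℕ) : ℝ :=
  ∑ c ∈ blkJ (K - k) 0, F k (a + (2 : ℤ) ^ k • c)

theorem sum_blkJ_translate (F : Lat d → ℝ) (j : ℕ) (m t : Lat d) :
    ∑ c ∈ blkJ j (m + t), F c = ∑ c ∈ blkJ j m, F (c + t) := by
  classical
  refine Finset.sum_bij' (fun c _ => c - t) (fun c _ => c + t) ?_ ?_ ?_ ?_ ?_
  · intro c hc
    rw [mem_blkJ] at hc ⊢
    intro i
    have := hc i
    simp only [Pi.add_apply, Pi.sub_apply] at this ⊢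
    omega
  · intro c hc
    rw [mem_blkJ] at hc ⊢
    intro i
    have := hc i
    simp only [Pi.add_apply] at this ⊢
    omega
  · intro c _; simp
  · intro c _; simp
  · intro c _; simp

theorem lsum_self (F : ℕ → Lat d → ℝ) (K : ℕ) (a : Lat d) : lsum F K a K = F K a := by
  simp [lsum, blkJ_zero]

theorem lsum_succ_top (F : ℕ → Lat d → ℝ) {K k : ℕ} (h : k ≤ K) (a : Lat d) :
    lsum F (K + 1) a k = ∑ b ∈ offs d, lsum F K (a + (2 : ℤ) ^ K • b) k := by
  have h1 : K + 1 - k = (K - k) + 1 := by omega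
  rw [lsum, h1, sum_blkJ_succ]
  refine Finset.sum_congr rfl fun b _ => ?_
  rw [sum_blkJ_translate, lsum]
  refine Finset.sum_congr rfl fun c _ => ?_
  congr 1
  rw [smul_add, smul_smul, ← pow_add, Nat.add_sub_cancel' h]
  abel

/-- Split off the finest level. -/
theorem sum_blkJ_fine (F : Lat d → ℝ) (j : ℕ) :
    ∑ c ∈ blkJ (j + 1) (0 : Lat d), F c = ∑ c ∈ blkJ j (0 : Lat d), ∑ b ∈ offs d,
      F ((2 : ℤ) • c + b) := by
  induction j generalizing F with
  | zero =>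
    rw [sum_blkJ_succ, blkJ_zero, Finset.sum_singleton]
    refine Finset.sum_congr rfl fun b _ => ?_
    rw [blkJ_zero, Finset.sum_singleton]
    congr 1
    funext i
    simp
  | succ j ih =>
    rw [sum_blkJ_succ]
    have h1 : ∀ b ∈ offs d, ∑ c ∈ blkJ (j + 1) (0 + (2 : ℤ) ^ (j + 1) • b), F c =
        ∑ c ∈ blkJ j ((2 : ℤ) ^ j • b), ∑ b' ∈ offs d, F ((2 : ℤ) • c + b') := by
      intro b _
      rw [sum_blkJ_translate, ih]
      rw [← zero_add ((2 : ℤ) ^ j • b), sum_blkJ_translate]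
      refine Finset.sum_congr rfl fun c _ => Finset.sum_congr rfl fun b' _ => ?_
      congr 1
      funext i
      simp only [Pi.add_apply, Pi.smul_apply, smul_eq_mul]
      ring
    rw [Finset.sum_congr rfl h1, sum_blkJ_succ]
    refine Finset.sum_congr rfl fun b _ => ?_
    rw [zero_add]

theorem lsum_fine (F : ℕ → Lat d → ℝ) {K k : ℕ} (h : k < K) (a : Lat d) :
    lsum F K a k = ∑ c ∈ blkJ (K - (k + 1)) (0 : Lat d), ∑ b ∈ offs d,
      F k ((a + (2 : ℤ) ^ (k + 1) • c) + (2 : ℤ) ^ k • b) := by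
  have h1 : K - k = (K - (k + 1)) + 1 := by omega
  rw [lsum, h1, sum_blkJ_fine]
  refine Finset.sum_congr rfl fun c _ => Finset.sum_congr rfl fun b _ => ?_
  congr 1
  funext i
  simp only [Pi.add_apply, Pi.smul_apply, smul_eq_mul]
  ring

theorem lsum_nonneg {F : ℕ → Lat d → ℝ} (hF : ∀ k a, 0 ≤ F k a) (K : ℕ) (a : Lat d) (k : ℕ) :
    0 ≤ lsum F K a k := Finset.sum_nonneg fun _ _ => hF _ _

/-- A quantity with a recursive definition, summed over the level-`k` cells. -/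
theorem lsum_rec {G F : ℕ → Lat d → ℝ} {q : ℝ}
    (hG : ∀ k a, G (k + 1) a = F (k + 1) a + q * ∑ b ∈ offs d, G k (a + (2 : ℤ) ^ k • b))
    {K k : ℕ} (h : k < K) (a : Lat d) :
    lsum G K a (k + 1) = lsum F K a (k + 1) + q * lsum G K a k := by
  rw [lsum_fine G h, lsum, lsum]
  rw [Finset.mul_sum, ← Finset.sum_add_distrib]
  refine Finset.sum_congr rfl fun c _ => ?_
  rw [hG]

/-- `lsum` of a recursive quantity in closed form. -/
theorem lsum_rec_closed {G F : ℕ → Lat d → ℝ} {q : ℝ}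
    (hG : ∀ k a, G (k + 1) a = F (k + 1) a + q * ∑ b ∈ offs d, G k (a + (2 : ℤ) ^ k • b))
    {K : ℕ} (a : Lat d) : ∀ k, k ≤ K →
    lsum G K a k = ∑ i ∈ Finset.range k, q ^ i * lsum F K a (k - i) + q ^ k * lsum G K a 0 := by
  intro k
  induction k with
  | zero => intro _; simp
  | succ k ih =>
    intro hk
    rw [lsum_rec hG (by omega : k < K), ih (by omega), Finset.sum_range_succ', mul_add,
      Finset.mul_sum]
    simp only [pow_zero, one_mul, Nat.sub_zero]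
    have : ∀ i ∈ Finset.range k, q * (q ^ i * lsum F K a (k - i)) =
        q ^ (i + 1) * lsum F K a (k + 1 - (i + 1)) := by
      intro i _
      rw [Nat.add_sub_add_right]; ring
    rw [Finset.sum_congr rfl this]
    ring

/-- Norm sums over the levels. -/
noncomputable def nv (v0 : Lat d → E d) (K : ℕ) (a : Lat d) (k : ℕ) : ℝ :=
  lsum (fun k a => ‖vv v0 k a‖) K a k

theorem nv_nonneg (v0 : Lat d → E d) (K : ℕ) (a : Lat d) (k : ℕ) : 0 ≤ nv v0 K a k :=
  lsum_nonneg (fun _ _ => norm_nonneg _) _ _ _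

theorem nv_self (v0 : Lat d → E d) (K : ℕ) (a : Lat d) : nv v0 K a K = ‖vv v0 K a‖ :=
  lsum_self _ _ _

/-- The closed form of `mm`. -/
theorem mm_closed (ω : ℕ → ℝ) (w : Lat d → E d) (m : Lat d → ℝ) (K : ℕ) (a : Lat d) :
    mm ω w m K a = ∑ i ∈ Finset.range (K + 1), ω i * nv w K a i +
      ω 0 * lsum (fun _ b => m b) K a 0 := by
  induction K generalizing a with
  | zero =>
    simp only [mm, zero_add, Finset.sum_range_one, nv_self, lsum_self, vv]
    ring
  | succ K ih =>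
    rw [mm, Finset.sum_range_succ, nv_self]
    simp_rw [ih]
    have h1 : ∀ i ∈ Finset.range (K + 1), ω i * nv w (K + 1) a i =
        ∑ b ∈ offs d, ω i * nv w K (a + (2 : ℤ) ^ K • b) i := by
      intro i hi
      have := Finset.mem_range.1 hi
      rw [nv, lsum_succ_top _ (by omega), Finset.mul_sum]
      rfl
    rw [Finset.sum_congr rfl h1, Finset.sum_comm, lsum_succ_top _ (Nat.zero_le K),
      Finset.mul_sum, Finset.sum_add_distrib]
    ring

/-- The closed form of `el`. -/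
theorem el_closed (lam : ℝ) (v0 : Lat d → E d) (m0 : Lat d → ℝ) (K : ℕ) (a : Lat d) :
    el lam v0 m0 K a = ∑ i ∈ Finset.range K, lam ^ i *
        (nv v0 K a (K - (i + 1)) - nv v0 K a (K - i)) +
      lam ^ K * lsum (fun _ b => m0 b) K a 0 := by
  have h := lsum_rec_closed (G := el lam v0 m0)
    (F := fun k a => match k with | 0 => 0 | k + 1 => dl v0 k a) (q := lam)
    (fun k a => rfl) (K := K) a K le_rfl
  rw [lsum_self] at h
  rw [h]
  congr 1
  refine Finset.sum_congr rfl fun i hi => ?_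
  have hi' := Finset.mem_range.1 hi
  obtain ⟨k, hk⟩ : ∃ k, K - i = k + 1 := ⟨K - i - 1, by omega⟩
  have hk' : K - (i + 1) = k := by omega
  rw [hk, hk', nv, lsum_fine _ (by omega : k < K)]
  congr 1
  rw [nv, lsum, lsum, ← Finset.sum_sub_distrib]
  refine Finset.sum_congr rfl fun c _ => ?_
  rfl

theorem nv_succ_le (v0 : Lat d → E d) (K : ℕ) (a : Lat d) {k : ℕ} (h : k < K) :
    nv v0 K a (k + 1) ≤ nv v0 K a k := by
  rw [nv, nv, lsum_fine _ h, lsum]
  refine Finset.sum_le_sum fun c _ => ?_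
  exact norm_vv_succ_le v0 k _

/-! ### Packing -/

/-- The key bound on the cumulative defects. -/
theorem defect_le {lam : ℝ} (h0 : 0 < lam) (h1 : lam ≤ 1) {K : ℕ} {U : ℕ → ℝ} {S0 ε : ℝ}
    (hS : 0 ≤ S0) (hU : ∀ k < K, U (k + 1) ≤ U k)
    (hε : ∑ i ∈ Finset.range K, lam ^ i * (U (K - (i + 1)) - U (K - i)) + lam ^ K * S0 ≤ ε)
    {l : ℕ} (hl : l ≤ K) : lam ^ (K - l) * (U l - U K) ≤ ε := by
  have hpos : ∀ i ∈ Finset.range K, 0 ≤ lam ^ i * (U (K - (i + 1)) - U (K - i)) := by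
    intro i hi
    have hi' := Finset.mem_range.1 hi
    have h2 : K - i = (K - (i + 1)) + 1 := by omega
    have := hU (K - (i + 1)) (by omega)
    rw [h2]
    exact mul_nonneg (by positivity) (by linarith)
  have h3 : U l - U K = ∑ i ∈ Finset.range (K - l), (U (K - (i + 1)) - U (K - i)) := by
    rw [Finset.sum_range_sub (fun i => U (K - i)), Nat.sub_zero, Nat.sub_sub_self hl]
  have h4 : ∑ i ∈ Finset.range (K - l), lam ^ (K - l) * (U (K - (i + 1)) - U (K - i)) ≤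
      ∑ i ∈ Finset.range (K - l), lam ^ i * (U (K - (i + 1)) - U (K - i)) := by
    apply Finset.sum_le_sum
    intro i hi
    have hi' := Finset.mem_range.1 hi
    have h2 : K - i = (K - (i + 1)) + 1 := by omega
    have h5 := hU (K - (i + 1)) (by omega)
    apply mul_le_mul_of_nonneg_right (pow_le_pow_of_le_one h0.le h1 hi'.le)
    rw [h2]; linarith
  have h5 : ∑ i ∈ Finset.range (K - l), lam ^ i * (U (K - (i + 1)) - U (K - i)) ≤
      ∑ i ∈ Finset.range K, lam ^ i * (U (K - (i + 1)) - U (K - i)) :=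
    Finset.sum_le_sum_of_subset_of_nonneg (Finset.range_mono (Nat.sub_le _ _))
      fun i hi _ => hpos i hi
  have h6 : 0 ≤ lam ^ K * S0 := by positivity
  rw [h3, Finset.mul_sum]
  linarith

theorem U_anti {K : ℕ} {U : ℕ → ℝ} (hU : ∀ k < K, U (k + 1) ≤ U k) :
    ∀ l ≤ K, U K ≤ U l := by
  intro l hl
  induction K, hl using Nat.le_induction with
  | base => exact le_rfl
  | succ n hn ih =>
    exact (hU n (by omega)).trans (ih fun k hk => hU k (by omega))

theorem W_le {lam : ℝ} (h0 : 0 < lam) (h1 : lam ≤ 1) {K : ℕ} {U W : ℕ → ℝ} {S0 ε C1 : ℝ}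
    (hS : 0 ≤ S0) (hC1 : 0 ≤ C1) (hU : ∀ k < K, U (k + 1) ≤ U k)
    (hε : ∑ i ∈ Finset.range K, lam ^ i * (U (K - (i + 1)) - U (K - i)) + lam ^ K * S0 ≤ ε)
    (hW : ∀ k ≤ K, W k ≤ C1 * ∑ l ∈ Finset.Icc k K, (U l - U K)) {k : ℕ} (hk : k ≤ K) :
    lam ^ (K - k) * W k ≤ C1 * ((K - k + 1 : ℕ) * ε) := by
  have hanti := U_anti hU
  have h2 : lam ^ (K - k) * ∑ l ∈ Finset.Icc k K, (U l - U K) ≤ (K - k + 1 : ℕ) * ε := by
    rw [Finset.mul_sum]
    have : ∀ l ∈ Finset.Icc k K, lam ^ (K - k) * (U l - U K) ≤ ε := by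
      intro l hl
      rw [Finset.mem_Icc] at hl
      refine le_trans ?_ (defect_le h0 h1 hS hU hε hl.2)
      apply mul_le_mul_of_nonneg_right
      · exact pow_le_pow_of_le_one h0.le h1 (by omega)
      · linarith [hanti l hl.2]
    refine (Finset.sum_le_card_nsmul _ _ _ this).trans (le_of_eq ?_)
    rw [Nat.card_Icc, nsmul_eq_mul]
    congr 2
    omega
  calc lam ^ (K - k) * W k ≤ lam ^ (K - k) * (C1 * ∑ l ∈ Finset.Icc k K, (U l - U K)) :=
        mul_le_mul_of_nonneg_left (hW k hk) (by positivity)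
    _ = C1 * (lam ^ (K - k) * ∑ l ∈ Finset.Icc k K, (U l - U K)) := by ring
    _ ≤ _ := mul_le_mul_of_nonneg_left h2 hC1

theorem summable_lin_geom {t : ℝ} (h0 : 0 < t) (h1 : t < 1) :
    Summable fun g : ℕ => ((g : ℝ) + 1) * t ^ g := by
  have h := summable_pow_mul_geometric_of_norm_lt_one (R := ℝ) 1
    (r := t) (by rw [Real.norm_of_nonneg h0.le]; exact h1)
  have h2 := summable_geometric_of_lt_one h0.le h1
  refine (h.add h2).congr fun g => ?_
  simp only [pow_one]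
  ring

/-- **Packing of the scales** (abstract form). -/
theorem pack {lam p : ℝ} (hp : 0 < p) (hq : p < lam) (h1 : lam ≤ 1) : ∃ C : ℝ, 0 < C ∧
    ∀ (K : ℕ) (U W : ℕ → ℝ) (S0 ε B C1 A : ℝ) (ω : ℕ → ℝ), 0 ≤ S0 → 0 ≤ C1 → 0 ≤ A →
      (∀ k < K, U (k + 1) ≤ U k) →
      (∑ i ∈ Finset.range K, lam ^ i * (U (K - (i + 1)) - U (K - i)) + lam ^ K * S0 ≤ ε) →
      (∀ k ≤ K, 0 ≤ W k) →
      (∀ k ≤ K, W k ≤ C1 * ∑ l ∈ Finset.Icc k K, (U l - U K)) →
      0 ≤ B → B ≤ C1 * S0 →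
      (∀ i ≤ K, ω i ≤ A * p ^ (K - i)) →
      ∑ i ∈ Finset.range (K + 1), ω i * W i + ω 0 * B ≤ C * (A * (C1 * ε)) := by
  have hlam : 0 < lam := hp.trans hq
  set t := p / lam with ht
  have ht0 : 0 < t := div_pos hp hlam
  have ht1 : t < 1 := (div_lt_one hlam).2 hq
  have hsum := summable_lin_geom ht0 ht1
  set S := ∑' g : ℕ, ((g : ℝ) + 1) * t ^ g with hSdef
  have hS0 : 0 ≤ S := tsum_nonneg fun g => by positivity
  refine ⟨S + 1, by positivity, ?_⟩
  intro K U W S0 ε B C1 A ω hS hC1 hA hU hε hW0 hW hB0 hB hω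
  have hpt : ∀ n : ℕ, p ^ n = t ^ n * lam ^ n := by
    intro n
    rw [← mul_pow, ht, div_mul_cancel₀ _ hlam.ne']
  have hant : ∀ i ∈ Finset.range K, 0 ≤ lam ^ i * (U (K - (i + 1)) - U (K - i)) := by
    intro i hi
    have hi' := Finset.mem_range.1 hi
    have h2 : K - i = (K - (i + 1)) + 1 := by omega
    have := hU (K - (i + 1)) (by omega)
    rw [h2]
    exact mul_nonneg (by positivity) (by linarith)
  have hSε : lam ^ K * S0 ≤ ε := by linarith [Finset.sum_nonneg hant]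
  have hε0 : 0 ≤ ε := le_trans (by positivity) hSε
  have key : ∀ i ≤ K, ω i * W i ≤ A * (C1 * ε) * ((((K - i : ℕ) : ℝ) + 1) * t ^ (K - i)) := by
    intro i hi
    have h3 := W_le hlam h1 hS hC1 hU hε hW (k := i) hi
    calc ω i * W i ≤ A * p ^ (K - i) * W i := mul_le_mul_of_nonneg_right (hω i hi) (hW0 i hi)
      _ = A * t ^ (K - i) * (lam ^ (K - i) * W i) := by rw [hpt]; ring
      _ ≤ A * t ^ (K - i) * (C1 * ((K - i + 1 : ℕ) * ε)) :=
          mul_le_mul_of_nonneg_left h3 (by positivity)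
      _ = _ := by push_cast; ring
  have keyB : ω 0 * B ≤ A * (C1 * ε) * 1 := by
    calc ω 0 * B ≤ A * p ^ (K - 0) * B := mul_le_mul_of_nonneg_right (hω 0 (Nat.zero_le _)) hB0
      _ ≤ A * p ^ (K - 0) * (C1 * S0) := mul_le_mul_of_nonneg_left hB (by positivity)
      _ = A * C1 * t ^ K * (lam ^ K * S0) := by rw [Nat.sub_zero, hpt]; ring
      _ ≤ A * C1 * t ^ K * ε := mul_le_mul_of_nonneg_left hSε (by positivity)
      _ ≤ A * C1 * 1 * ε := by
          have : t ^ K ≤ 1 := pow_le_one₀ ht0.le ht1.le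
          gcongr
      _ = _ := by ring
  have step : ∑ i ∈ Finset.range (K + 1), ω i * W i ≤ A * (C1 * ε) * S := by
    calc ∑ i ∈ Finset.range (K + 1), ω i * W i
        ≤ ∑ i ∈ Finset.range (K + 1), A * (C1 * ε) * ((((K - i : ℕ) : ℝ) + 1) * t ^ (K - i)) := by
          apply Finset.sum_le_sum
          intro i hi
          exact key i (by have := Finset.mem_range.1 hi; omega)
      _ = A * (C1 * ε) * ∑ i ∈ Finset.range (K + 1), ((((K - i : ℕ) : ℝ) + 1) * t ^ (K - i)) := by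
          rw [Finset.mul_sum]
      _ ≤ A * (C1 * ε) * S := by
          apply mul_le_mul_of_nonneg_left _ (by positivity)
          have e1 := Finset.sum_range_reflect (fun g : ℕ => ((g : ℝ) + 1) * t ^ g) (K + 1)
          have e2 : ∑ i ∈ Finset.range (K + 1), ((((K - i : ℕ) : ℝ) + 1) * t ^ (K - i)) =
              ∑ g ∈ Finset.range (K + 1), ((g : ℝ) + 1) * t ^ g := by
            rw [← e1]
            refine Finset.sum_congr rfl fun i _ => ?_
            simp only [Nat.add_sub_cancel]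
          rw [e2]
          exact hsum.sum_le_tsum _ fun g _ => by positivity
  linarith

/-! ### The weights of the bands -/

/-- ratio -/
noncomputable def rr : ℝ := (1 / 2) / (49 / 50) ^ 32

theorem rr_pos : 0 < rr := by unfold rr; positivity

theorem rr_lt_one : rr < 1 := by
  unfold rr
  rw [div_lt_one (by positivity)]
  norm_num

theorem half_pow_eq (n : ℕ) : (1 / 2 : ℝ) ^ n = rr ^ n * (49 / 50) ^ (32 * n) := by
  rw [pow_mul, ← mul_pow]
  congr 1
  unfold rr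
  field_simp

theorem band_weight {s0 : ℕ} (hs0 : 1 ≤ s0) (j m i : ℕ) :
    (1 / 2 : ℝ) ^ (s0 * 2 ^ m) * wt (j - 16 * (s0 * 2 ^ (m + 1))) i ≤
      rr ^ m * (49 / 50) ^ (j - i) := by
  unfold wt
  rw [← pow_add, half_pow_eq]
  have h1 : m + 1 ≤ s0 * 2 ^ m := by
    have h5 : m < 2 ^ m := Nat.lt_two_pow_self
    have h6 : 2 ^ m ≤ s0 * 2 ^ m := Nat.le_mul_of_pos_left _ (by omega)
    omega
  have h2 : 16 * (s0 * 2 ^ (m + 1)) = 32 * (s0 * 2 ^ m) := by ring
  rw [h2]
  apply mul_le_mul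
  · exact pow_le_pow_of_le_one rr_pos.le rr_lt_one.le (by omega)
  · exact pow_le_pow_of_le_one (by norm_num) (by norm_num) (by omega)
  · positivity
  · exact pow_nonneg rr_pos.le _

theorem sum_band_weight {s0 : ℕ} (hs0 : 1 ≤ s0) (j : ℕ) (T : Finset ℕ) {i : ℕ} (hi : i ≤ j + 6) :
    ∑ m ∈ T, (1 / 2 : ℝ) ^ (s0 * 2 ^ m) * wt (j - 16 * (s0 * 2 ^ (m + 1))) i ≤
      ((1 - rr)⁻¹ * (50 / 49) ^ 6) * (49 / 50) ^ (j + 6 - i) := by
  have hs := summable_geometric_of_lt_one rr_pos.le rr_lt_one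
  calc ∑ m ∈ T, (1 / 2 : ℝ) ^ (s0 * 2 ^ m) * wt (j - 16 * (s0 * 2 ^ (m + 1))) i
      ≤ ∑ m ∈ T, rr ^ m * (49 / 50) ^ (j - i) :=
        Finset.sum_le_sum fun m _ => band_weight hs0 j m i
    _ = (∑ m ∈ T, rr ^ m) * (49 / 50) ^ (j - i) := by rw [Finset.sum_mul]
    _ ≤ (1 - rr)⁻¹ * (49 / 50) ^ (j - i) := by
        apply mul_le_mul_of_nonneg_right _ (by positivity)
        rw [← tsum_geometric_of_lt_one rr_pos.le rr_lt_one]
        exact hs.sum_le_tsum _ fun g _ => pow_nonneg rr_pos.le _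
    _ ≤ (1 - rr)⁻¹ * ((50 / 49) ^ 6 * (49 / 50) ^ (j + 6 - i)) := by
        have h1 : 0 ≤ (1 - rr)⁻¹ := inv_nonneg.2 (by linarith [rr_lt_one])
        apply mul_le_mul_of_nonneg_left _ h1
        have h2 : (49 / 50 : ℝ) ^ ((j - i) + 6) ≤ (49 / 50) ^ (j + 6 - i) :=
          pow_le_pow_of_le_one (by norm_num) (by norm_num) (by omega)
        calc (49 / 50 : ℝ) ^ (j - i) = (50 / 49) ^ 6 * (49 / 50) ^ ((j - i) + 6) := by
              rw [pow_add, mul_left_comm, ← mul_pow]; norm_num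
          _ ≤ _ := mul_le_mul_of_nonneg_left h2 (by positivity)
    _ = _ := by ring

/-! ### Lemma G and the final statement -/

/-- The cone approximation (Lemma G). -/
def LemG (d : ℕ) : Prop := ∃ C : ℝ, 0 < C ∧ ∀ (v0 : Lat d → E d) (K : ℕ) (a : Lat d),
  ∃ c0 : Lat d → E d, vv c0 K a = vv v0 K a ∧
    (∀ b ∈ blkJ K a, 97 / 100 * (‖vv v0 K a‖ * ‖c0 b‖) ≤ inner ℝ (vv v0 K a) (c0 b)) ∧
    (vv v0 K a = 0 → ∀ b ∈ blkJ K a, c0 b = 0) ∧
    ∀ k ≤ K, nv (fun b => v0 b - c0 b) K a k ≤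
      C * ∑ l ∈ Finset.Icc k K, (nv v0 K a l - nv v0 K a K)

/-- Angles: `c` within `arccos (97/100)` of `V`, `e` within `arccos (15/16)` of `V`, `e'` within
`1/50` of `e`. -/
theorem cone_angle {V c e e' : E d} (he : ‖e‖ = 1) (he' : ‖e'‖ = 1) (hee : ‖e' - e‖ ≤ 1 / 50)
    (hV : V ≠ 0) (h1 : 15 / 16 * ‖V‖ ≤ inner ℝ e V)
    (h2 : 97 / 100 * (‖V‖ * ‖c‖) ≤ inner ℝ V c) : 4 / 5 * ‖c‖ ≤ inner ℝ e' c := by
  have hVn : 0 < ‖V‖ := norm_pos_iff.2 hV
  obtain ⟨v, hv⟩ : ∃ v, v = ‖V‖⁻¹ • V := ⟨_, rfl⟩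
  have hvn : ‖v‖ = 1 := by rw [hv, norm_smul, norm_inv, norm_norm, inv_mul_cancel₀ hVn.ne']
  have hb : 15 / 16 ≤ inner ℝ e v := by
    rw [hv, inner_smul_right]
    calc (15 / 16 : ℝ) = ‖V‖⁻¹ * (15 / 16 * ‖V‖) := by field_simp
      _ ≤ _ := mul_le_mul_of_nonneg_left h1 (by positivity)
  have ha : 97 / 100 * ‖c‖ ≤ inner ℝ v c := by
    rw [hv, real_inner_smul_left]
    calc 97 / 100 * ‖c‖ = ‖V‖⁻¹ * (97 / 100 * (‖V‖ * ‖c‖)) := by field_simp
      _ ≤ _ := mul_le_mul_of_nonneg_left h2 (by positivity)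
  -- orthogonal parts
  set a := inner ℝ v c with had
  set b := inner ℝ e v with hbd
  have hvv : inner ℝ v v = (1 : ℝ) := by rw [real_inner_self_eq_norm_sq, hvn]; norm_num
  have hcn : ‖c - a • v‖ ^ 2 = ‖c‖ ^ 2 - a ^ 2 := by
    rw [norm_sub_sq_real, inner_smul_right, real_inner_comm v c, ← had, norm_smul, hvn,
      Real.norm_eq_abs, mul_one, sq_abs]
    ring
  have hen : ‖e - b • v‖ ^ 2 = 1 - b ^ 2 := by
    rw [norm_sub_sq_real, inner_smul_right, ← hbd, norm_smul, hvn, he,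
      Real.norm_eq_abs, mul_one, sq_abs]
    ring
  have hc1 : ‖c - a • v‖ ≤ 2432 / 10000 * ‖c‖ := by
    apply abs_le_of_sq_le_sq' _ (by positivity) |>.2
    rw [hcn]
    have h3 : (97 / 100 * ‖c‖) ^ 2 ≤ a ^ 2 := pow_le_pow_left₀ (by positivity) ha 2
    nlinarith [sq_nonneg ‖c‖]
  have he1 : ‖e - b • v‖ ≤ 348 / 1000 := by
    apply abs_le_of_sq_le_sq' _ (by positivity) |>.2
    rw [hen]
    have h3 : (15 / 16 : ℝ) ^ 2 ≤ b ^ 2 := pow_le_pow_left₀ (by positivity) hb 2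
    nlinarith
  have hdec : inner ℝ e c = a * b + inner ℝ (e - b • v) (c - a • v) := by
    rw [inner_sub_left, inner_sub_right, inner_sub_right, inner_smul_right, real_inner_smul_left,
      real_inner_smul_left, inner_smul_right, hvv, ← had, ← hbd]
    ring
  have hin : -(348 / 1000 * (2432 / 10000 * ‖c‖)) ≤ inner ℝ (e - b • v) (c - a • v) := by
    have h4 := abs_real_inner_le_norm (e - b • v) (c - a • v)
    have h5 := neg_abs_le (inner ℝ (e - b • v) (c - a • v) : ℝ)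
    have h6 : ‖e - b • v‖ * ‖c - a • v‖ ≤ 348 / 1000 * (2432 / 10000 * ‖c‖) :=
      mul_le_mul he1 hc1 (norm_nonneg _) (by norm_num)
    linarith
  have hab : 97 / 100 * (15 / 16) * ‖c‖ ≤ a * b := by
    have : 0 ≤ ‖c‖ := norm_nonneg c
    calc 97 / 100 * (15 / 16) * ‖c‖ = (97 / 100 * ‖c‖) * (15 / 16) := by ring
      _ ≤ a * b := mul_le_mul ha hb (by norm_num) (le_trans (by positivity) ha)
  have hfin : inner ℝ e' c = inner ℝ e c + inner ℝ (e' - e) c := by
    rw [← inner_add_left]; congr 1; abel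
  have h7 : -(1 / 50 * ‖c‖) ≤ inner ℝ (e' - e) c := by
    have h4 := abs_real_inner_le_norm (e' - e) c
    have h5 := neg_abs_le (inner ℝ (e' - e) c : ℝ)
    have h6 : ‖e' - e‖ * ‖c‖ ≤ 1 / 50 * ‖c‖ := mul_le_mul_of_nonneg_right hee (norm_nonneg _)
    linarith
  rw [hfin, hdec]
  have : 0 ≤ ‖c‖ := norm_nonneg c
  linarith

theorem vv_congr_block {v0 v0' : Lat d → E d} (K : ℕ) (a : Lat d)
    (h : ∀ b ∈ blkJ K a, v0 b = v0' b) : vv v0 K a = vv v0' K a := by
  have h1 := vv_eq_sum_blkJ v0 0 K a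
  have h2 := vv_eq_sum_blkJ v0' 0 K a
  have hco : ∀ c : Lat d, co 0 c = c := by intro c; funext i; simp [co]
  simp only [hco, Nat.zero_add, vv] at h1 h2
  rw [h1, h2]
  exact Finset.sum_congr rfl h

theorem specII_of_lemG (hG : LemG d) : SpecII d := by
  obtain ⟨CG, hCG, hG⟩ := hG
  obtain ⟨CP, hCP, hP⟩ := pack (lam := 99 / 100) (p := 49 / 50) (by norm_num) (by norm_num)
    (by norm_num)
  intro s0 hs0
  set A : ℝ := (1 - rr)⁻¹ * (50 / 49) ^ 6 with hA
  have h1r : 0 < 1 - rr := by linarith [rr_lt_one]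
  have hApos : 0 < A := by positivity
  have hA1 : (50 / 49 : ℝ) ^ 6 ≤ A := by
    rw [hA]
    have : 1 ≤ (1 - rr)⁻¹ := by
      rw [one_le_inv₀ h1r]; linarith [rr_pos]
    nlinarith [pow_pos (by norm_num : (0 : ℝ) < 50 / 49) 6]
  refine ⟨CP * (A * (CG + 2)), by positivity, ?_⟩
  intro g hg j n e he hcone
  set v0 := v0f g with hv0
  obtain ⟨c1, hsum, hc, hzero, hW⟩ := hG v0 (j + 6) (bc j n)
  classical
  -- cut off outside of the block
  set c0 : Lat d → E d := fun a => if a ∈ blkJ (j + 6) (bc j n) then c1 a else 0 with hc0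
  have hc0in : ∀ b ∈ blkJ (j + 6) (bc j n), c0 b = c1 b := by
    intro b hb; simp only [hc0, if_pos hb]
  have hVJ : vJ v0 j n = vv v0 (j + 6) (bc j n) := rfl
  have hOK : (Blk.mk s0 j n g c0).OK e := by
    refine ⟨hg, ?_, ?_, ?_⟩
    · intro a ha
      simp only [hc0, if_neg ha]
    · intro a e' he' hee
      by_cases ha : a ∈ blkJ (j + 6) (bc j n)
      · show 4 / 5 * ‖c0 a‖ ≤ inner ℝ e' (c0 a)
        rw [hc0in a ha]
        by_cases hV : vv v0 (j + 6) (bc j n) = 0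
        · rw [hzero hV a ha]; simp
        · exact cone_angle he he' hee hV (by rw [← hVJ]; exact hcone) (hc a ha)
      · show 4 / 5 * ‖c0 a‖ ≤ inner ℝ e' (c0 a)
        simp only [hc0, if_neg ha, norm_zero, mul_zero, inner_zero_right, le_refl]
    · show vv c0 (j + 6) (bc j n) = vv v0 (j + 6) (bc j n)
      rw [vv_congr_block _ _ hc0in, hsum]
  refine ⟨c0, hOK, ?_⟩
  -- the data for the packing lemma
  set K := j + 6 with hK
  set a := bc j n with ha
  set U : ℕ → ℝ := nv v0 K a with hU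
  set w : Lat d → E d := fun b => v0 b - c0 b with hw
  set W : ℕ → ℝ := nv w K a with hWdef
  set S0 : ℝ := lsum (fun _ b => m0f g b) K a 0 with hS0
  have hS0n : 0 ≤ S0 := lsum_nonneg (fun _ _ => m0f_nonneg _ _) _ _ _
  set ε : ℝ := eJl (99 / 100) v0 (m0f g) j n with hε
  have hεeq : ∑ i ∈ Finset.range K, (99 / 100 : ℝ) ^ i * (U (K - (i + 1)) - U (K - i)) +
      (99 / 100) ^ K * S0 ≤ ε := by
    rw [hε, eJl, el_closed]
  have hUanti : ∀ k < K, U (k + 1) ≤ U k := fun k hk => nv_succ_le v0 K a hk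
  have hW' : ∀ k ≤ K, W k ≤ (CG + 2) * ∑ l ∈ Finset.Icc k K, (U l - U K) := by
    intro k hk
    have e1 : W k = nv (fun b => v0 b - c1 b) K a k := by
      rw [hWdef, nv, nv, lsum, lsum]
      refine Finset.sum_congr rfl fun c hc' => ?_
      congr 1
      apply vv_congr_block
      intro b hb
      simp only [hw]
      rw [hc0in b]
      -- `b` in the block
      rw [mem_blkJ] at hb hc' ⊢
      intro i
      have h3 := hb i
      have h4 := hc' i
      simp only [Pi.add_apply, Pi.smul_apply, smul_eq_mul, Pi.zero_apply, zero_add] at h3 h4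
      have h5 : (2 : ℤ) ^ K = 2 ^ k * 2 ^ (K - k) := by
        rw [← pow_add, Nat.add_sub_cancel' hk]
      have h6 : (0 : ℤ) < 2 ^ k := by positivity
      constructor
      · have : 0 ≤ (2 : ℤ) ^ k * c i := mul_nonneg h6.le h4.1
        linarith [h3.1]
      · have : (2 : ℤ) ^ k * (c i + 1) ≤ 2 ^ k * 2 ^ (K - k) :=
          mul_le_mul_of_nonneg_left (by linarith [h4.2]) h6.le
        rw [h5]
        linarith [h3.2]
    rw [e1]
    have h2 : 0 ≤ ∑ l ∈ Finset.Icc k K, (U l - U K) := by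
      apply Finset.sum_nonneg
      intro l hl
      rw [Finset.mem_Icc] at hl
      linarith [U_anti hUanti l hl.2]
    have h3 := hW k hk
    have h4 : CG * ∑ l ∈ Finset.Icc k K, (U l - U K) ≤ (CG + 2) * ∑ l ∈ Finset.Icc k K, (U l - U K) :=
      mul_le_mul_of_nonneg_right (by linarith) h2
    linarith
  have hbot : lsum (fun _ b => 2 * m0f g b) K a 0 = 2 * S0 := by
    rw [hS0, lsum, lsum, Finset.mul_sum]
  have hWn : ∀ k ≤ K, 0 ≤ W k := fun k _ => nv_nonneg _ _ _ _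
  have hBle : lsum (fun _ b => 2 * m0f g b) K a 0 ≤ (CG + 2) * S0 := by
    rw [hbot]; nlinarith
  have hBn : 0 ≤ lsum (fun _ b => 2 * m0f g b) K a 0 := by rw [hbot]; positivity
  constructor
  · -- E0
    show mm (wt j) w (fun b => 2 * m0f g b) K a ≤ _
    rw [mm_closed]
    refine (hP K U W S0 ε _ (CG + 2) A (wt j) hS0n (by positivity) hApos.le hUanti hεeq hWn hW'
      hBn hBle ?_).trans (le_of_eq (by ring))
    intro i hi
    unfold wt
    have h2 : (49 / 50 : ℝ) ^ ((j - i) + 6) ≤ (49 / 50) ^ (K - i) :=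
      pow_le_pow_of_le_one (by norm_num) (by norm_num) (by omega)
    calc (1 / 2 : ℝ) ^ (j - i) ≤ (49 / 50) ^ (j - i) :=
          pow_le_pow_left₀ (by norm_num) (by norm_num) _
      _ = (50 / 49) ^ 6 * (49 / 50) ^ ((j - i) + 6) := by
          rw [pow_add, mul_left_comm, ← mul_pow]; norm_num
      _ ≤ A * (49 / 50) ^ (K - i) := mul_le_mul hA1 h2 (by positivity) hApos.le
  · -- bands
    set T := (Finset.range (j + 1)).filter (fun m => 16 * (s0 * 2 ^ m) ≤ j) with hT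
    have e1 : ∑ m ∈ T, (Blk.mk s0 j n g c0).rho m * (Blk.mk s0 j n g c0).tot m =
        ∑ i ∈ Finset.range (K + 1), (∑ m ∈ T, (1 / 2 : ℝ) ^ (s0 * 2 ^ m) *
          wt (j - 16 * (s0 * 2 ^ (m + 1))) i) * W i +
        (∑ m ∈ T, (1 / 2 : ℝ) ^ (s0 * 2 ^ m) * wt (j - 16 * (s0 * 2 ^ (m + 1))) 0) *
          lsum (fun _ b => 2 * m0f g b) K a 0 := by
      have e2 : ∀ m ∈ T, (Blk.mk s0 j n g c0).rho m * (Blk.mk s0 j n g c0).tot m =
          ∑ i ∈ Finset.range (K + 1), ((1 / 2 : ℝ) ^ (s0 * 2 ^ m) *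
            wt (j - 16 * (s0 * 2 ^ (m + 1))) i) * W i +
          ((1 / 2 : ℝ) ^ (s0 * 2 ^ m) * wt (j - 16 * (s0 * 2 ^ (m + 1))) 0) *
            lsum (fun _ b => 2 * m0f g b) K a 0 := by
        intro m _
        show (1 / 2 : ℝ) ^ (s0 * 2 ^ m) *
          mm (wt (j - 16 * (s0 * 2 ^ (m + 1)))) w (fun b => 2 * m0f g b) K a = _
        rw [mm_closed, mul_add, Finset.mul_sum]
        congr 1
        · refine Finset.sum_congr rfl fun i _ => ?_
          rw [mul_assoc]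
        · rw [mul_assoc]
      rw [Finset.sum_congr rfl e2, Finset.sum_add_distrib, Finset.sum_comm, ← Finset.sum_mul]
      congr 1
      refine Finset.sum_congr rfl fun i _ => ?_
      rw [Finset.sum_mul]
    rw [e1]
    refine (hP K U W S0 ε _ (CG + 2) A _ hS0n (by positivity) hApos.le hUanti hεeq hWn hW'
      hBn hBle ?_).trans (le_of_eq (by ring))
    intro i hi
    exact sum_band_weight hs0 j T hi

end Vale.Agent.P137.U.Cen.Pack
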